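import Crest.Agent.N207.K.Hd1
import Crest.Agent.N207.N.Gr0

-- ▼ part N207/N/En
section

/-!
# Row 207, block N (helper9): integration by parts in one chart
-/

set_option autoImplicit false
set_option linter.unusedSectionVars false

open scoped ContDiff Topology
open Set Filter Metric MeasureTheory
open Crest.GeometryTopology.CoordMetric

noncomputable section

namespace Crest.Agent.N207.N

open Crest.Agent.N207.Hd

variable {κ : Type*} [Fintype κ] {U K : Set E4}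

theorem cd_pderiv {m : ℕ} (hU : IsOpen U) {f : E4 → ℝ} (hf : ContDiffOn ℝ (m + 1 : ℕ) f U)
    (i : Fin 4) : ContDiffOn ℝ m (pderiv i f) U :=
  (hf.fderiv_of_isOpen hU (by norm_cast)).clm_apply contDiffOn_const

theorem dAt (hU : IsOpen U) {f : E4 → ℝ} (hf : ContDiffOn ℝ 1 f U) {x : E4} (hx : x ∈ U) :
    DifferentiableAt ℝ f x :=
  (hf.contDiffAt (hU.mem_nhds hx)).differentiableAt one_ne_zero

theorem pd_mul {f g : E4 → ℝ} {x : E4} (hf : DifferentiableAt ℝ f x) (hg : DifferentiableAt ℝ g x)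
    (i : Fin 4) : pderiv i (fun y => f y * g y) x = pderiv i f x * g x + f x * pderiv i g x := by
  unfold pderiv
  rw [fderiv_fun_mul hf hg]
  simp only [add_apply, smul_apply, smul_eq_mul]
  ring




end Crest.Agent.N207.N

end
end

-- ▼ part N207/N/Cmp1

/-!
# Row 207, block N (helper4): `CMP`, the tools in one chart
-/

set_option autoImplicit false

open scoped ContDiff Topology Kronecker
open Metric Set Filter MeasureTheory
open Crest.GeometryTopology.CoordMetric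
open Crest.Agent.N207.I Crest.Agent.N207.Lg Crest.Agent.N207.Hd

noncomputable section

namespace Crest.Agent.N207.NS.Cp

theorem sq_le_of_forall {x A B : ℝ} (hA : 0 ≤ A) (hB : 0 ≤ B)
    (h : ∀ u : ℝ, 0 < u → |x| ≤ u * A + B / u) : x ^ 2 ≤ 4 * (A * B) := by
  have := discrim_le_zero (a := A) (b := -|x|) (c := B) fun u => by
    rcases le_or_gt u 0 with k | k
    · have := mul_nonneg (abs_nonneg x) (neg_nonneg.2 k)
      have := mul_nonneg hA (mul_self_nonneg u)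
      linarith
    · have := mul_le_mul_of_nonneg_right (h u k) k.le
      rw [add_mul, div_mul_cancel₀ _ k.ne'] at this
      linarith
  rw [discrim, neg_sq, sq_abs] at this
  linarith

theorem amgm {u : ℝ} (hu : 0 < u) (C a b : ℝ) : C * (a * b) ≤ u * a ^ 2 + C ^ 2 * b ^ 2 / u := by
  rw [← sub_nonneg, show u * a ^ 2 + C ^ 2 * b ^ 2 / u - C * (a * b) =
    ((u * a - C * b / 2) ^ 2 + 3 / 4 * (C * b) ^ 2) / u by field_simp; ring]
  positivity

theorem abs_pd (f : E4 → ℝ) (x : E4) (a : Fin 4) : |pderiv a f x| ≤ ‖fderiv ℝ f x‖ := by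
  simpa [pderiv] using (fderiv ℝ f x).le_opNorm (EuclideanSpace.single a (1 : ℝ))

variable {U K : Set E4}

theorem pd_zero (hU : IsOpen U) (hK : IsClosed K) {f : E4 → ℝ} (hz : ∀ x ∈ U, x ∉ K → f x = 0)
    {x : E4} (hx : x ∈ U) (hx' : x ∉ K) (i : Fin 4) : pderiv i f x = 0 := by
  have : f =ᶠ[𝓝 x] fun _ => 0 := by
    filter_upwards [hU.mem_nhds hx, hK.isOpen_compl.mem_nhds hx'] with y a b using hz y a b
  simp [pderiv, this.fderiv_eq]

theorem int_pdU (hU : IsOpen U) (hK : IsCompact K) (hKU : K ⊆ U) {f : E4 → ℝ}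
    (hf : ContDiffOn ℝ 1 f U) (hz : ∀ x ∈ U, x ∉ K → f x = 0) (i : Fin 4) :
    IntegrableOn (pderiv i f) U ∧ ∫ x in U, pderiv i f x = 0 := by
  have z : ∀ x ∈ U \ K, pderiv i f x = 0 := fun x k => pd_zero hU hK.isClosed hz k.1 k.2 i
  exact ⟨(((contOn_pderiv hU hf i).mono hKU).integrableOn_compact hK).of_forall_sdiff_eq_zero
    hU.measurableSet z, by
      rw [setIntegral_eq_of_subset_of_forall_sdiff_eq_zero hU.measurableSet hKU z,
        int_pderiv hU hK hKU hf hz]⟩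

/-- the divergence theorem for a flux with `w / (1 + |x|)` integrable -/
theorem div_int {ι : Type} [Fintype ι] (d : ι → Fin 4) (hU : IsOpen U) (hK : IsClosed K)
    (hKU : K ⊆ U) {w : ι → E4 → ℝ} (hw : ∀ a, ContDiffOn ℝ 1 (w a) U)
    (hz : ∀ a, ∀ x ∈ U, x ∉ K → w a x = 0) {h : E4 → ℝ} (hh : IntegrableOn h U)
    (hb : ∀ a, ∀ x ∈ U, |w a x| ≤ (1 + ‖x‖) * h x)
    (hi : IntegrableOn (fun x => ∑ a, pderiv (d a) (w a) x) U) :
    ∫ x in U, ∑ a, pderiv (d a) (w a) x = 0 := by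
  let f : ContDiffBump (0 : E4) := ⟨1, 2, one_pos, one_lt_two⟩
  have fs : ContDiff ℝ 1 f := f.contDiff
  obtain ⟨C, hC⟩ := ((continuous_const.add continuous_norm).mul
    (fs.continuous_fderiv one_ne_zero).norm).bounded_above_of_compact_support
      ((f.hasCompactSupport.fderiv ℝ).norm.mul_left (f := fun y : E4 => 1 + ‖y‖))
  let φ : ℕ → E4 → ℝ := fun n x => f (((n : ℝ) + 1)⁻¹ • x)
  have φs : ∀ n, ContDiff ℝ 1 (φ n) := fun n => fs.comp (contDiff_const_smul _)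
  have nn : ∀ (n : ℕ) (x : E4), ‖((n : ℝ) + 1)⁻¹ • x‖ = ‖x‖ / (n + 1) := fun n x => by
    rw [norm_smul, Real.norm_of_nonneg (by positivity), inv_mul_eq_div]
  have φd : ∀ n x i, (1 + ‖x‖) * |pderiv i (φ n) x| ≤ C := fun n x i => by
    have p : (0 : ℝ) < n + 1 := by positivity
    refine (mul_le_mul_of_nonneg_left (abs_pd _ x i) (by positivity)).trans
      (le_trans ?_ ((le_abs_self _).trans (hC (((n : ℝ) + 1)⁻¹ • x))))
    simp only [φ, Pi.mul_apply, Pi.add_apply]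
    rw [fderiv_comp_smul, norm_smul, Real.norm_of_nonneg (by positivity), ← mul_assoc, nn]
    refine mul_le_mul_of_nonneg_right ?_ (norm_nonneg _)
    rw [add_mul, one_mul, div_eq_mul_inv]
    exact add_le_add_left (inv_le_one_of_one_le₀ (by simp)) _
  have key : ∀ n a, IntegrableOn (pderiv (d a) fun y => φ n y * w a y) U ∧
      ∫ x in U, pderiv (d a) (fun y => φ n y * w a y) x = 0 := fun n a =>
    int_pdU hU ((isCompact_closedBall 0 (2 * ((n : ℝ) + 1))).inter_left hK)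
      (inter_subset_left.trans hKU) ((φs n).contDiffOn.mul (hw a)) (fun x hx k => by
        by_cases k' : x ∈ K
        · have : 2 * ((n : ℝ) + 1) < ‖x‖ := lt_of_not_ge fun e =>
            k ⟨k', mem_closedBall_zero_iff.2 e⟩
          rw [show φ n x = 0 from f.zero_of_le_dist (by
            rw [dist_zero_right, nn, le_div_iff₀ (by positivity)]; exact this.le), zero_mul]
        · rw [hz a x hx k', mul_zero]) _
  have ex : ∀ n, ∀ x ∈ U, ∑ a, pderiv (d a) (fun y => φ n y * w a y) x =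
      ∑ a, pderiv (d a) (φ n) x * w a x + φ n x * ∑ a, pderiv (d a) (w a) x := fun n x hx => by
    rw [Finset.mul_sum, ← Finset.sum_add_distrib]
    exact Finset.sum_congr rfl fun a _ =>
      N.pd_mul ((φs n).differentiable one_ne_zero x) (N.dAt hU (hw a) hx) _
  have lim := tendsto_integral_of_dominated_convergence (μ := volume.restrict U)
    (F := fun n x => ∑ a, pderiv (d a) (fun y => φ n y * w a y) x)
    (f := fun x => ∑ a, pderiv (d a) (w a) x)
    (fun x => Fintype.card ι * (C * |h x|) + |∑ a, pderiv (d a) (w a) x|)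
    (fun n => (integrable_finsetSum _ fun a _ => (key n a).1).1)
    (((hh.abs.const_mul C).const_mul _).add hi.abs) (fun n => ?_) ?_
  · simp only [integral_finsetSum _ fun a _ => (key _ a).1, (key _ _).2, Finset.sum_const_zero] at lim
    exact tendsto_nhds_unique lim tendsto_const_nhds
  · refine (ae_restrict_iff' hU.measurableSet).2 (Eventually.of_forall fun x hx => ?_)
    rw [ex n x hx, Real.norm_eq_abs]
    refine (abs_add_le _ _).trans (add_le_add ((Finset.abs_sum_le_sum_abs _ _).trans ?_) ?_)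
    · rw [← nsmul_eq_mul]
      refine Finset.sum_le_card_nsmul _ _ _ fun a _ => ?_
      have a1 := mul_le_mul_of_nonneg_right (φd n x (d a)) (abs_nonneg (h x))
      have a2 := mul_le_mul_of_nonneg_left ((hb a x hx).trans (mul_le_mul_of_nonneg_left
        (le_abs_self _) (by positivity))) (abs_nonneg (pderiv (d a) (φ n) x))
      rw [abs_mul]; linarith
    · rw [abs_mul, abs_of_nonneg (show 0 ≤ φ n x from f.nonneg)]
      exact mul_le_of_le_one_left (abs_nonneg _) f.le_one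
  · refine (ae_restrict_iff' hU.measurableSet).2 (Eventually.of_forall fun x hx => ?_)
    refine tendsto_const_nhds.congr' ?_
    filter_upwards [tendsto_natCast_atTop_atTop.eventually_ge_atTop ‖x‖] with n hn
    have : φ n =ᶠ[𝓝 x] fun _ => 1 := by
      filter_upwards [(isOpen_lt continuous_norm continuous_const).mem_nhds
        (show ‖x‖ < (n : ℝ) + 1 by linarith)] with y hy
      exact f.one_of_mem_closedBall (by
        rw [mem_closedBall_zero_iff, nn, div_le_iff₀ (by positivity), one_mul]; exact le_of_lt hy)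
    rw [ex n x hx, this.eq_of_nhds]
    simp [pderiv, this.fderiv_eq]

theorem kron_ge {ι κ : Type} [Fintype ι] [Fintype κ] [DecidableEq ι] [DecidableEq κ]
    {A : Matrix ι ι ℝ} {Q : Matrix κ κ ℝ} {l m : ℝ} (hl : 0 ≤ l) (hm : 0 ≤ m)
    (hA : (A - l • 1).PosSemidef) (hQ : (Q - m • 1).PosSemidef) :
    (A ⊗ₖ Q - (l * m) • 1).PosSemidef := by
  have q : Q.PosSemidef := by simpa using hQ.add (Matrix.PosSemidef.one.smul hm)
  have e : A ⊗ₖ Q - (l * m) • (1 : Matrix (ι × κ) (ι × κ) ℝ) =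
      (A - l • 1) ⊗ₖ Q + (l • (1 : Matrix ι ι ℝ)) ⊗ₖ (Q - m • 1) := by
    ext ⟨a, b⟩ ⟨c, d⟩
    by_cases e : a = c <;> by_cases e' : b = d <;> simp [e, e'] <;> ring
  exact e ▸ (hA.kronecker q).add ((Matrix.PosSemidef.one.smul hl).kronecker hQ)

theorem psd_of {A : Matrix (Fin 4) (Fin 4) ℝ} (h : A.PosDef) {l : ℝ}
    (k : ∀ ξ : Fin 4 → ℝ, l * ∑ i, ξ i ^ 2 ≤ ∑ i, ∑ j, A⁻¹ i j * ξ i * ξ j) :
    (A⁻¹ - l • 1).PosSemidef := by
  refine .of_dotProduct_mulVec_nonneg (h.inv.isHermitian.sub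
    (Matrix.isHermitian_one.smul (IsSelfAdjoint.all l))) fun ξ => ?_
  rw [Matrix.sub_mulVec, dotProduct_sub, Matrix.smul_mulVec, Matrix.one_mulVec, dotProduct_smul,
    sub_nonneg]
  refine le_of_eq_of_le ?_ ((k ξ).trans_eq ?_)
  · simp [dotProduct, _root_.sq]
  · simp only [dotProduct, Matrix.mulVec, Finset.mul_sum, star_trivial]
    exact Finset.sum_congr rfl fun _ _ => Finset.sum_congr rfl fun _ _ => by ring

/-- the indices `(p, p', q, q', i, j)` -/
abbrev I6 : Type := Fin 4 × Fin 4 × Fin 4 × Fin 4 × Fin 4 × Fin 4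

theorem abs_s6 {f : I6 → ℝ} {B : ℝ} (h : ∀ a, |f a| ≤ B) : |∑ a, f a| ≤ 4096 * B :=
  (Finset.abs_sum_le_sum_abs _ _).trans ((Finset.sum_le_card_nsmul _ _ B fun a _ => h a).trans_eq
    (by simp))

/-- coefficient -/
def c6 (b g : MetricField 4) (a : I6) : E4 → ℝ :=
  cf b g a.2.2.2.2.1 a.2.2.2.2.2 a.1 a.2.2.1 a.2.1 a.2.2.2.1
/-- `∂_j k_{pq}` -/
def s6 (k : MetricField 4) (a : I6) : E4 → ℝ := pderiv a.2.2.2.2.2 fun y => k y a.1 a.2.2.1
/-- `t_{p'q'}` -/
def t6 (t : MetricField 4) (a : I6) : E4 → ℝ := fun y => t y a.2.1 a.2.2.2.1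
/-- the energy form -/
def Bq (b g k t : MetricField 4) (x : E4) : ℝ :=
  ∑ a, c6 b g a x * s6 k a x * pderiv a.2.2.2.2.1 (t6 t a) x
/-- the term with the derivative of `φ c` -/
def Dq (c : I6 → E4 → ℝ) (k t : MetricField 4) (x : E4) : ℝ :=
  ∑ a, pderiv a.2.2.2.2.1 (c a) x * s6 k a x * t6 t a x
/-- `g^{ij} ∂_i ∂_j k` -/
def Lq (g k : MetricField 4) (x : E4) : Matrix (Fin 4) (Fin 4) ℝ :=
  Matrix.of fun p q => ∑ i, ∑ j, (g x)⁻¹ i j * pderiv i (pderiv j fun y => k y p q) x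
/-- the pairing with `t` -/
def prl (b t : MetricField 4) (x : E4) : Matrix (Fin 4) (Fin 4) ℝ →ₗ[ℝ] ℝ where
  toFun X := sq b x * ipA (b x)⁻¹ (fun I => X (I 0) (I 1)) (matT t x)
  map_add' X Y := by simp only [ipA, Matrix.add_apply, add_mul, mul_add, Finset.sum_add_distrib]
  map_smul' c X := by
    simp only [ipA, Matrix.smul_apply, smul_eq_mul, Finset.mul_sum, RingHom.id_apply]
    exact Finset.sum_congr rfl fun _ _ => Finset.sum_congr rfl fun _ _ => by ring

variable {b b' g k t : MetricField 4} {x : E4} {Λ : ℝ}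

theorem prl_eq (X : Matrix (Fin 4) (Fin 4) ℝ) : prl b t x X = ∑ p, ∑ p', ∑ q, ∑ q',
    sq b x * (b x)⁻¹ p p' * (b x)⁻¹ q q' * X p q * t x p' q' := by
  change sq b x * ipA _ _ _ = _
  simp only [ipA_two, Finset.mul_sum, matT, Matrix.cons_val_zero, Matrix.cons_val_one]
  exact Finset.sum_congr rfl fun _ _ => Finset.sum_congr rfl fun _ _ =>
    Finset.sum_congr rfl fun _ _ => Finset.sum_congr rfl fun _ _ => by ring

theorem prl_Lq : prl b t x (Lq g k x) =
    ∑ a : I6, c6 b g a x * pderiv a.2.2.2.2.1 (s6 k a) x * t6 t a x := by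
  simp only [prl_eq, Fintype.sum_prod_type, Lq, Matrix.of_apply, Finset.mul_sum, Finset.sum_mul,
    c6, s6, t6, cf]
  iterate 6 refine Finset.sum_congr rfl fun _ _ => ?_
  ring

theorem abs_le_e0 (p q : Fin 4) : |t x p q| ≤ √(e0 t x) :=
  Real.abs_le_sqrt ((Finset.single_le_sum (f := fun q => t x p q ^ 2) (fun _ _ => sq_nonneg _)
    (Finset.mem_univ q)).trans (Finset.single_le_sum (f := fun p => ∑ q, t x p q ^ 2)
      (fun _ _ => by positivity) (Finset.mem_univ p)))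

theorem e0_nn (t : MetricField 4) (x : E4) : 0 ≤ e0 t x := by unfold e0; positivity

theorem e1_nn (t : MetricField 4) (x : E4) : 0 ≤ e1 t x := by unfold e1 g2; positivity

theorem abs_le_e1 (i p q : Fin 4) : |pderiv i (fun y => t y p q) x| ≤ √(e1 t x) :=
  Real.abs_le_sqrt (((Finset.single_le_sum (f := fun i => pderiv i (fun y => t y p q) x ^ 2)
    (fun _ _ => sq_nonneg _) (Finset.mem_univ i)).trans
    (Finset.single_le_sum (f := fun q => g2 (fun y => t y p q) x)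
      (fun _ _ => by unfold g2; positivity) (Finset.mem_univ q))).trans
    (Finset.single_le_sum (f := fun p => ∑ q, g2 (fun y => t y p q) x)
      (fun _ _ => by unfold g2; positivity) (Finset.mem_univ p)))

theorem abs_s4 {f : Fin 4 → Fin 4 → Fin 4 → Fin 4 → ℝ} {B : ℝ} (h : ∀ a b c d, |f a b c d| ≤ B) :
    |∑ a, ∑ b, ∑ c, ∑ d, f a b c d| ≤ 256 * B := by
  have e : ∀ (f : Fin 4 → ℝ) (B : ℝ), (∀ a, |f a| ≤ B) → |∑ a, f a| ≤ 4 * B := fun f B h =>
    (Finset.abs_sum_le_sum_abs _ _).trans ((Finset.sum_le_card_nsmul _ _ B fun a _ => h a).trans_eq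
      (by simp))
  exact (e _ _ fun a => e _ _ fun b => e _ _ fun c => e _ _ fun d => h a b c d).trans_eq (by ring)

/-- a difference of pairings -/
theorem prl_sub {X Y : Matrix (Fin 4) (Fin 4) ℝ} {B : ℝ}
    (h : ∀ p p' q q', |sq b x * (b x)⁻¹ p p' * (b x)⁻¹ q q' * X p q -
      sq b' x * (b' x)⁻¹ p p' * (b' x)⁻¹ q q' * Y p q| ≤ B) :
    |prl b t x X - prl b' t x Y| ≤ 256 * (B * √(e0 t x)) := by
  simp only [prl_eq, ← Finset.sum_sub_distrib, ← sub_mul]
  exact abs_s4 fun p p' q q' => by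
    rw [abs_mul]
    exact mul_le_mul (h p p' q q') (abs_le_e0 _ _) (abs_nonneg _) ((abs_nonneg _).trans (h p p' q q'))

/-- pointwise bounds of a metric -/
structure Mb (Λ : ℝ) (b : MetricField 4) (x : E4) : Prop where
  one : 1 ≤ Λ
  pos : (b x).PosDef
  bd : ∀ p q, |b x p q| ≤ Λ ∧ |(b x)⁻¹ p q| ≤ Λ
  lo : Λ⁻¹ ≤ sq b x
  hi : sq b x ≤ Λ
  ell : ∀ ξ : Fin 4 → ℝ, Λ⁻¹ * ∑ i, ξ i ^ 2 ≤ ∑ i, ∑ j, (b x)⁻¹ i j * ξ i * ξ j

theorem Mb.co (h : Mb Λ b x) (p p' q q' : Fin 4) :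
    |sq b x * (b x)⁻¹ p p' * (b x)⁻¹ q q'| ≤ Λ ^ 3 := by
  have := h.one
  rw [abs_mul, abs_mul, abs_of_nonneg (show 0 ≤ sq b x from Real.sqrt_nonneg _), pow_three']
  gcongr
  exacts [h.hi, (h.bd _ _).2, (h.bd _ _).2]

theorem Mb.prl (h : Mb Λ b x) {X : Matrix (Fin 4) (Fin 4) ℝ} {P : ℝ} (hX : ∀ p q, |X p q| ≤ P) :
    |prl b t x X| ≤ 256 * (Λ ^ 3 * P * √(e0 t x)) := by
  have := prl_sub (b := b) (b' := b) (t := t) (x := x) (X := X) (Y := 0) (B := Λ ^ 3 * P)
    fun p p' q q' => by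
      rw [Matrix.zero_apply, mul_zero, sub_zero, abs_mul]
      exact mul_le_mul (h.co _ _ _ _) (hX _ _) (abs_nonneg _) (by have := h.one; positivity)
  rwa [map_zero, sub_zero] at this

theorem Mb.c6 (h : Mb Λ b x) (h' : Mb Λ g x) (a : I6) : |c6 b g a x| ≤ Λ ^ 4 := by
  have := h.one
  rw [Cp.c6, cf, mul_assoc, mul_assoc, mul_left_comm, ← mul_assoc (sq b x), abs_mul, pow_succ']
  exact mul_le_mul (h'.bd _ _).2 (h.co _ _ _ _) (abs_nonneg _) (by positivity)

theorem Mb.Bq (h : Mb Λ b x) (h' : Mb Λ g x) :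
    |Bq b g k t x| ≤ 4096 * (Λ ^ 4 * √(e1 k x) * √(e1 t x)) :=
  abs_s6 fun a => by
    have := h.one
    rw [abs_mul, abs_mul]
    gcongr
    exacts [h.c6 h' a, abs_le_e1 _ _ _, abs_le_e1 _ _ _]

theorem Dq_le {c : I6 → E4 → ℝ} {B : ℝ} (h : ∀ a i, |pderiv i (c a) x| ≤ B) :
    |Dq c k t x| ≤ 4096 * (B * √(e1 k x) * √(e0 t x)) :=
  abs_s6 fun a => by
    have := (abs_nonneg _).trans (h a 0)
    rw [abs_mul, abs_mul]
    gcongr
    exacts [h a _, abs_le_e1 _ _ _, abs_le_e0 _ _]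

theorem Mb.Bq_ge (h : Mb Λ b x) (h' : Mb Λ g x) : Λ⁻¹ ^ 4 * e1 k x ≤ Cp.Bq b g k k x := by
  have l : 0 ≤ Λ⁻¹ := by have := h.one; positivity
  have m := (kron_ge l (mul_nonneg l l) (psd_of h.pos h.ell)
    (kron_ge l l (psd_of h.pos h.ell) (psd_of h'.pos h'.ell))).dotProduct_mulVec_nonneg
      fun a => pderiv a.2.2 (fun y => k y a.1 a.2.1) x
  rw [Matrix.sub_mulVec, dotProduct_sub, Matrix.smul_mulVec, Matrix.one_mulVec, dotProduct_smul,
    sub_nonneg] at m
  have m' := mul_le_mul_of_nonneg_left m (show 0 ≤ sq b x from Real.sqrt_nonneg _)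
  have s : ∀ p q, (b x)⁻¹ p q = (b x)⁻¹ q p := fun p q => h.pos.inv.isHermitian.apply q p ▸ rfl
  refine le_trans ?_ (m'.trans_eq ?_)
  · rw [show star (fun a : Fin 4 × Fin 4 × Fin 4 => pderiv a.2.2 (fun y => k y a.1 a.2.1) x) ⬝ᵥ
      (fun a => pderiv a.2.2 (fun y => k y a.1 a.2.1) x) = e1 k x by
        simp only [dotProduct, Fintype.sum_prod_type, e1, g2, star_trivial, _root_.sq],
      smul_eq_mul, ← mul_assoc (sq b x)]
    refine mul_le_mul_of_nonneg_right ?_ (e1_nn k x)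
    rw [pow_succ', pow_three]
    exact mul_le_mul_of_nonneg_right h.lo (by positivity)
  · simp only [dotProduct, Matrix.mulVec, Finset.mul_sum, star_trivial]
    rw [← Fintype.sum_prod_type']
    refine (Fintype.sum_equiv ⟨fun a : I6 => ((a.2.1, a.2.2.2.1, a.2.2.2.2.1), (a.1, a.2.2.1, a.2.2.2.2.2)),
      fun a => (a.2.1, a.1.1, a.2.2.1, a.1.2.1, a.1.2.2, a.2.2.2), fun _ => rfl, fun _ => rfl⟩ _ _
      fun a => ?_).symm
    simp only [Equiv.coe_fn_mk, Cp.c6, cf, s6, Matrix.kronecker_apply, s a.1, s a.2.2.1]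
    unfold t6
    ring

theorem sm_c6 (hb : IsRiemannianOn b U) (hg : IsRiemannianOn g U) (a : I6) :
    ContDiffOn ℝ ∞ (c6 b g a) U :=
  (((sm_sqrt_det hb).mul (sm_inv hg _ _)).mul (sm_inv hb _ _)).mul (sm_inv hb _ _)

/-- **integration by parts in one chart** -/
theorem chart_id (hU : IsOpen U) (hK : IsClosed K) (hKU : K ⊆ U) {c : I6 → E4 → ℝ}
    (hc : ∀ a, ContDiffOn ℝ 1 (c a) U) (hz : ∀ a, ∀ x ∈ U, x ∉ K → c a x = 0)
    (hk : ∀ p q, ContDiffOn ℝ 2 (fun y => k y p q) U)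
    (ht : ∀ p q, ContDiffOn ℝ 1 (fun y => t y p q) U) {h G : E4 → ℝ} (hh : IntegrableOn h U)
    (hb : ∀ a, ∀ x ∈ U, |c a x * s6 k a x * t6 t a x| ≤ (1 + ‖x‖) * h x) (hG : IntegrableOn G U)
    (e : ∀ x ∈ U, G x = ∑ a, c a x * pderiv a.2.2.2.2.1 (s6 k a) x * t6 t a x +
      ∑ a, c a x * s6 k a x * pderiv a.2.2.2.2.1 (t6 t a) x + Dq c k t x) :
    ∫ x in U, G x = 0 := by
  have hs : ∀ a, ContDiffOn ℝ 1 (s6 k a) U := fun a => N.cd_pderiv (m := 1) hU (hk _ _) _
  have e' : ∀ x ∈ U, G x = ∑ a : I6, pderiv a.2.2.2.2.1 (fun y => c a y * s6 k a y * t6 t a y) x :=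
    fun x hx => by
      rw [e x hx, Dq, ← Finset.sum_add_distrib, ← Finset.sum_add_distrib]
      refine Finset.sum_congr rfl fun a _ => ?_
      rw [N.pd_mul (f := fun y => c a y * s6 k a y) ((N.dAt hU (hc a) hx).mul (N.dAt hU (hs a) hx))
        (g := t6 t a) (N.dAt hU (ht _ _) hx), N.pd_mul (N.dAt hU (hc a) hx) (N.dAt hU (hs a) hx)]
      ring
  rw [setIntegral_congr_fun hU.measurableSet e']
  exact div_int (fun a : I6 => a.2.2.2.2.1) hU hK hKU (fun a => ((hc a).mul (hs a)).mul (ht _ _))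
    (fun a x hx k => by rw [hz a x hx k, zero_mul, zero_mul]) hh hb
    (hG.congr_fun e' hU.measurableSet)

end Crest.Agent.N207.NS.Cp

end
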