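import Crest.Agent.N207.Lg.Defs
import Crest.Agent.N207.N.St3
import Crest.Agent.N207.Lg.Fun1

-- ▼ part N207/N/MKit
section

/-!
# Row 207, block N (helper75): uniform bounds and Lipschitz bounds over a family of data
-/

set_option autoImplicit false

open Asymptotics Finset
open Crest.Agent.N207.Lg

noncomputable section

namespace Crest.Agent.N207.NS

variable {I ι : Type*} {δ w a a' b b' : I → ℝ}

/-- `a, a' = O(w)` and `a - a' = O(w δ)`, uniformly over the family -/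
structure Lp (δ w a a' : I → ℝ) : Prop where
  l : a =O[⊤] w
  r : a' =O[⊤] w
  d : (fun i => a i - a' i) =O[⊤] fun i => w i * δ i

theorem ob_of_le {M : ℝ} (h : ∀ i, |a i| ≤ M * |w i|) : a =O[⊤] w := isBigO_top.2 ⟨M, h⟩

theorem ob_one {M : ℝ} (h : ∀ i, |a i| ≤ M) : a =O[⊤] fun _ => (1 : ℝ) :=
  ob_of_le (M := M) fun i => by simpa using h i

theorem ob_le (h : ∀ i, |a i| ≤ w i) : a =O[⊤] w :=
  ob_of_le (M := 1) fun i => by rw [one_mul]; exact (h i).trans (le_abs_self _)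

theorem ob_unif {κ : Type*} [Finite κ] {f : κ → I → ℝ} (h : ∀ k, f k =O[⊤] w) :
    ∃ C : ℝ, 0 < C ∧ ∀ k i, |f k i| ≤ C * |w i| := by
  have := Fintype.ofFinite κ
  choose c hc using fun k => isBigO_top.1 (h k)
  refine ⟨∑ k, |c k| + 1, by positivity, fun k i => (hc k i).trans ?_⟩
  refine mul_le_mul_of_nonneg_right ?_ (norm_nonneg _)
  have := single_le_sum (f := fun k => |c k|) (fun _ _ => abs_nonneg _) (mem_univ k)
  linarith [le_abs_self (c k)]

namespace Lp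

theorem refl (h : a =O[⊤] w) : Lp δ w a a := ⟨h, h, ob_of_le (M := 0) fun _ => by simp⟩

theorem const (c : ℝ) : Lp δ (fun _ => 1) (fun _ => c) fun _ => c :=
  refl (ob_one fun _ => le_rfl)

theorem of_le {M : ℝ} (h : ∀ i, |a i| ≤ M) (h' : ∀ i, |a' i| ≤ M) (k : ∀ i, |a i - a' i| ≤ δ i) :
    Lp δ (fun _ => 1) a a' :=
  ⟨ob_one h, ob_one h', ob_le fun i => by rw [one_mul]; exact k i⟩

theorem add (h : Lp δ w a a') (k : Lp δ w b b') :
    Lp δ w (fun i => a i + b i) fun i => a' i + b' i :=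
  ⟨h.l.add k.l, h.r.add k.r, (h.d.add k.d).congr_left fun _ => by ring⟩

theorem sub (h : Lp δ w a a') (k : Lp δ w b b') :
    Lp δ w (fun i => a i - b i) fun i => a' i - b' i :=
  ⟨h.l.sub k.l, h.r.sub k.r, (h.d.sub k.d).congr_left fun _ => by ring⟩

theorem neg (h : Lp δ w a a') : Lp δ w (fun i => -a i) fun i => -a' i :=
  ⟨h.l.neg_left, h.r.neg_left, h.d.neg_left.congr_left fun _ => by ring⟩

theorem mul (h : Lp δ (fun _ => 1) a a') (k : Lp δ w b b') :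
    Lp δ w (fun i => a i * b i) fun i => a' i * b' i :=
  ⟨(h.l.mul k.l).congr_right fun _ => one_mul _, (h.r.mul k.r).congr_right fun _ => one_mul _,
    (((h.l.mul k.d).congr_right fun _ => one_mul _).add
      ((h.d.mul k.r).congr_right fun _ => by ring)).congr_left fun _ => by ring⟩

theorem mul' (h : Lp δ w a a') (k : Lp δ (fun _ => 1) b b') :
    Lp δ w (fun i => a i * b i) fun i => a' i * b' i := by
  simpa only [mul_comm] using k.mul h

theorem sum (s : Finset ι) {f f' : ι → I → ℝ} (h : ∀ j ∈ s, Lp δ w (f j) (f' j)) :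
    Lp δ w (fun i => ∑ j ∈ s, f j i) fun i => ∑ j ∈ s, f' j i :=
  ⟨(IsBigO.sum fun j hj => (h j hj).l).congr_left fun _ => Finset.sum_apply _ _ _,
    (IsBigO.sum fun j hj => (h j hj).r).congr_left fun _ => Finset.sum_apply _ _ _,
    (IsBigO.sum fun j hj => (h j hj).d).congr_left fun _ => by
      rw [Finset.sum_apply, sum_sub_distrib]⟩

theorem prod (s : Finset ι) {f f' : ι → I → ℝ} (h : ∀ j ∈ s, Lp δ (fun _ => 1) (f j) (f' j)) :
    Lp δ (fun _ => 1) (fun i => ∏ j ∈ s, f j i) fun i => ∏ j ∈ s, f' j i := by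
  classical
  induction s using Finset.induction_on with
  | empty => simpa using const 1
  | insert j s hj ih =>
    simp only [prod_insert hj]
    exact (h j (mem_insert_self _ _)).mul (ih fun k hk => h k (mem_insert_of_mem hk))

theorem inv {c : ℝ} (h : Lp δ (fun _ => 1) a a') (hc : 0 < c) (k : ∀ i, c ≤ a i)
    (k' : ∀ i, c ≤ a' i) : Lp δ (fun _ => 1) (fun i => (a i)⁻¹) fun i => (a' i)⁻¹ := by
  have e : ∀ x : ℝ, c ≤ x → |x⁻¹| ≤ c⁻¹ := fun x hx => by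
    rw [abs_of_pos (inv_pos.2 (hc.trans_le hx))]; exact inv_anti₀ hc hx
  have l := ob_one (I := I) fun i => e _ (k i)
  have r := ob_one (I := I) fun i => e _ (k' i)
  refine ⟨l, r, ((((l.mul r).mul h.d).neg_left).congr_right fun _ => by ring).congr_left fun i => ?_⟩
  have := (hc.trans_le (k i)).ne'
  have := (hc.trans_le (k' i)).ne'
  field_simp
  ring

theorem sqrt {c : ℝ} (h : Lp δ (fun _ => 1) a a') (hc : 0 < c) (k : ∀ i, c ≤ a i)
    (k' : ∀ i, c ≤ a' i) : Lp δ (fun _ => 1) (fun i => √(a i)) fun i => √(a' i) := by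
  have s := Real.sqrt_pos.2 hc
  have e : ∀ x : ℝ, c ≤ x → |√x| ≤ (√c)⁻¹ * |x| := fun x hx => by
    have h0 := hc.trans_le hx
    rw [abs_of_nonneg (Real.sqrt_nonneg _), abs_of_pos h0, le_inv_mul_iff₀ s]
    calc √c * √x ≤ √x * √x := mul_le_mul_of_nonneg_right (Real.sqrt_le_sqrt hx) (Real.sqrt_nonneg _)
      _ = x := Real.mul_self_sqrt h0.le
  refine ⟨(ob_of_le fun i => e _ (k i)).trans h.l, (ob_of_le fun i => e _ (k' i)).trans h.r,
    (ob_of_le (M := (√c)⁻¹) fun i => ?_).trans h.d⟩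
  have h1 := Real.mul_self_sqrt (hc.trans_le (k i)).le
  have h2 := Real.mul_self_sqrt (hc.trans_le (k' i)).le
  have h3 := Real.sqrt_le_sqrt (k i)
  have h4 := Real.sqrt_nonneg (a' i)
  rw [le_inv_mul_iff₀ s, show a i - a' i = (√(a i) + √(a' i)) * (√(a i) - √(a' i)) by
    linear_combination -h1 + h2, abs_mul]
  exact mul_le_mul_of_nonneg_right (le_trans (by linarith) (le_abs_self _)) (abs_nonneg _)

end Lp

variable [Fintype ι] {A A' B B' : I → Matrix ι ι ℝ}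

/-- the same for the entries of matrices -/
def LM (δ w : I → ℝ) (A A' : I → Matrix ι ι ℝ) : Prop :=
  ∀ p q, Lp δ w (fun i => A i p q) fun i => A' i p q

namespace LM

theorem mul (h : LM δ (fun _ => 1) A A') (k : LM δ w B B') :
    LM δ w (fun i => A i * B i) fun i => A' i * B' i := fun p q => by
  simp only [Matrix.mul_apply]
  exact Lp.sum _ fun r _ => (h p r).mul (k r q)

theorem mul' (h : LM δ w A A') (k : LM δ (fun _ => 1) B B') :
    LM δ w (fun i => A i * B i) fun i => A' i * B' i := fun p q => by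
  simp only [Matrix.mul_apply]
  exact Lp.sum _ fun r _ => (h p r).mul' (k r q)

omit [Fintype ι] in
theorem smul (h : Lp δ (fun _ => 1) a a') (k : LM δ w B B') :
    LM δ w (fun i => a i • B i) fun i => a' i • B' i := fun p q => h.mul (k p q)

theorem tr2 (h : LM δ (fun _ => 1) A A') (k : LM δ w B B') :
    Lp δ w (fun i => tr2 (fun p q => A i p q) fun p q => B i p q)
      fun i => tr2 (fun p q => A' i p q) fun p q => B' i p q :=
  Lp.sum _ fun p _ => Lp.sum _ fun q _ => (h p q).mul (k p q)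

theorem up (h : LM δ (fun _ => 1) A A') (k : LM δ w B B') (p q : ι) :
    Lp δ w (fun i => up (fun p q => A i p q) (fun p q => B i p q) p q)
      fun i => up (fun p q => A' i p q) (fun p q => B' i p q) p q :=
  Lp.sum _ fun r _ => Lp.sum _ fun s _ => ((h p r).mul (k r s)).mul' (h s q)

variable [DecidableEq ι]

theorem det (h : LM δ (fun _ => 1) A A') :
    Lp δ (fun _ => 1) (fun i => (A i).det) fun i => (A' i).det := by
  simp only [Matrix.det_apply']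
  exact Lp.sum _ fun σ _ => (Lp.const _).mul (Lp.prod _ fun j _ => h (σ j) j)

theorem inv {M : ℝ} (h : LM δ (fun _ => 1) A A') (k : ∀ i, (A i).det ≠ 0)
    (k' : ∀ i, (A' i).det ≠ 0) (l : ∀ i p q, |(A i)⁻¹ p q| ≤ M) (l' : ∀ i p q, |(A' i)⁻¹ p q| ≤ M) :
    LM δ (fun _ => 1) (fun i => (A i)⁻¹) fun i => (A' i)⁻¹ := fun p q => by
  have o : ∀ p q, (fun i => (A i)⁻¹ p q) =O[⊤] fun _ => (1 : ℝ) := fun p q => ob_one fun i => l i p q
  have o' : ∀ p q, (fun i => (A' i)⁻¹ p q) =O[⊤] fun _ => (1 : ℝ) := fun p q =>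
    ob_one fun i => l' i p q
  refine ⟨o p q, o' p q, ?_⟩
  have := ((mul (δ := δ) (A := fun i => (A i)⁻¹) (fun p q => Lp.refl (o p q))
    (B := fun i => A' i - A i) (fun p q => Lp.refl ((h p q).d.neg_left.congr_left fun i => by
      simp))).mul' (B := fun i => (A' i)⁻¹) (fun p q => Lp.refl (o' p q)) p q).l
  refine this.congr_left fun i => ?_
  beta_reduce
  rw [Matrix.mul_sub, Matrix.sub_mul, Matrix.mul_assoc, Matrix.mul_nonsing_inv _ (k' i).isUnit,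
    Matrix.nonsing_inv_mul _ (k i).isUnit, Matrix.mul_one, Matrix.one_mul, Matrix.sub_apply]

end LM

/-- lower bound of the determinants -/
theorem det_low [DecidableEq ι] {M : ℝ} (k : ∀ i, 0 < (A i).det)
    (l : ∀ i p q, |(A i)⁻¹ p q| ≤ M) : ∃ c : ℝ, 0 < c ∧ ∀ i, c ≤ (A i).det := by
  obtain ⟨C, hC, h⟩ := ob_unif (κ := Unit) fun _ => (LM.det (δ := fun _ => 0)
    (A := fun i => (A i)⁻¹) fun p q => Lp.refl (ob_one fun i => l i p q)).l
  refine ⟨C⁻¹, inv_pos.2 hC, fun i => ?_⟩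
  have := h () i
  rw [Matrix.det_nonsing_inv, Ring.inverse_eq_inv', abs_one, mul_one,
    abs_of_pos (inv_pos.2 (k i))] at this
  exact inv_le_of_inv_le₀ (k i) this

/-- `√det` -/
theorem LM.sqrt_det [DecidableEq ι] {M : ℝ} (h : LM δ (fun _ => 1) A A') (k : ∀ i, 0 < (A i).det)
    (k' : ∀ i, 0 < (A' i).det) (l : ∀ i p q, |(A i)⁻¹ p q| ≤ M) (l' : ∀ i p q, |(A' i)⁻¹ p q| ≤ M) :
    Lp δ (fun _ => 1) (fun i => √(A i).det) (fun i => √(A' i).det) ∧
      Lp δ (fun _ => 1) (fun i => (√(A i).det)⁻¹) fun i => (√(A' i).det)⁻¹ := by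
  obtain ⟨c, hc, e⟩ := det_low k l
  obtain ⟨c', hc', e'⟩ := det_low k' l'
  have m := lt_min hc hc'
  have f := fun i => (min_le_left c c').trans (e i)
  have f' := fun i => (min_le_right c c').trans (e' i)
  have := h.det.sqrt m f f'
  exact ⟨this, this.inv (Real.sqrt_pos.2 m) (fun i => Real.sqrt_le_sqrt (f i))
    fun i => Real.sqrt_le_sqrt (f' i)⟩

end Crest.Agent.N207.NS

end
end

-- ▼ part N207/N/Mul

/-!
# Row 207, block N (helper75): the leaves MUL and CO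
-/

set_option autoImplicit false

open scoped ContDiff Topology
open Asymptotics Finset
open Crest.GeometryTopology.CoordMetric
open Crest.Agent.N207.I Crest.Agent.N207.Lg Crest.Agent.N207.CB

noncomputable section

namespace Crest.Agent.N207.NS

/-- `4 × 4` matrices -/
abbrev Mx : Type := Matrix (Fin 4) (Fin 4) ℝ

/-- the trace reversal as a linear map -/
def trL (G : Mx) : Mx →ₗ[ℝ] Mx where
  toFun := TRg G
  map_add' X Y := by
    have := tr2_add (fun a b => G⁻¹ a b) (fun a b => X a b) fun a b => Y a b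
    unfold TRg
    rw [show (fun a b => (X + Y) a b) = (fun a b => X a b) + fun a b => Y a b from rfl, this]
    module
  map_smul' c X := by
    have := tr2_smul c (fun a b => G⁻¹ a b) fun a b => X a b
    unfold TRg
    rw [show (fun a b => (c • X) a b) = c • fun a b => X a b from rfl, this, RingHom.id_apply]
    module

theorem pd_sy {G : Mx} (h : G.PosDef) : Sy2 fun a b => G a b := fun i j => by
  simpa using h.isHermitian.apply j i

theorem TRg_TRg {G : Mx} (h : G.PosDef) (X : Mx) : TRg G (TRg G X) = X := by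
  have e : TRg G G = -G := by
    unfold TRg
    rw [tr2_eq _ (pd_sy h)]
    change G - ((1 / 2 : ℝ) * (G⁻¹ * G).trace) • G = -G
    rw [Matrix.nonsing_inv_mul _ h.det_pos.ne'.isUnit, Matrix.trace_one, Fintype.card_fin]
    norm_num
    module
  change trL G (X - _ • G) = X
  rw [map_sub, map_smul]
  change TRg G X - _ • TRg G G = X
  rw [e]
  unfold TRg
  module

theorem tr2_up {H : M2 (Fin 4) ℝ} (hH : Sy2 H) (k X : M2 (Fin 4) ℝ) :
    tr2 (up H k) X = tr2 (up H X) k := by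
  simp only [tr2, up, sum_mul]
  rw [sum_congr rfl fun _ _ => sum_comm, sum_comm]
  refine sum_congr rfl fun a _ => ?_
  rw [sum_congr rfl fun _ _ => sum_comm, sum_comm]
  refine sum_congr rfl fun b _ => sum_congr rfl fun i _ => sum_congr rfl fun j _ => ?_
  rw [hH a i, hH j b]; ring

theorem eq_of_tr2 {A Y : M2 (Fin 4) ℝ} (hA : Sy2 A) (hY : Sy2 Y)
    (h : ∀ k : M2 (Fin 4) ℝ, (∀ p q, k p q = k q p) → tr2 A k = tr2 Y k) : A = Y := by
  have e := h (A - Y) fun p q => by simp only [Pi.sub_apply, hA p q, hY p q]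
  rw [← sub_eq_zero, ← sub_tr2] at e
  funext p q
  have := (sum_eq_zero_iff_of_nonneg fun q _ => mul_self_nonneg _).1
    ((sum_eq_zero_iff_of_nonneg fun p _ => sum_nonneg fun q _ => mul_self_nonneg _).1 e p
      (mem_univ _)) q (mem_univ _)
  exact sub_eq_zero.1 (mul_self_eq_zero.1 this)

theorem mul_alg {G : Mx} (h : G.PosDef) {s : ℝ} (hs : s ≠ 0) (X Y : Mx) :
    s • (((1 / 2 : ℝ) * tr2 (fun a b => G⁻¹ a b) fun a b => X a b) • G⁻¹ - G⁻¹ * X * G⁻¹) = Y ↔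
      X = -TRg G (s⁻¹ • (G * Y * G)) := by
  have u := h.det_pos.ne'.isUnit
  have e : ∀ X : Mx, ((1 / 2 : ℝ) * tr2 (fun a b => G⁻¹ a b) fun a b => X a b) • G⁻¹ -
      G⁻¹ * X * G⁻¹ = -(G⁻¹ * TRg G X * G⁻¹) := fun X => by
    unfold TRg
    rw [Matrix.mul_sub, Matrix.sub_mul, Matrix.mul_smul, Matrix.smul_mul,
      Matrix.nonsing_inv_mul _ u, Matrix.one_mul, neg_sub]
  rw [e]
  constructor
  · rintro rfl
    rw [Matrix.mul_smul, Matrix.smul_mul, smul_smul, inv_mul_cancel₀ hs, one_smul, Matrix.mul_neg,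
      Matrix.neg_mul, ← Matrix.mul_assoc, ← Matrix.mul_assoc, Matrix.mul_nonsing_inv _ u,
      Matrix.one_mul, Matrix.mul_assoc, Matrix.nonsing_inv_mul _ u, Matrix.mul_one]
    change X = -trL G (-_)
    rw [map_neg, neg_neg]
    exact (TRg_TRg h X).symm
  · rintro rfl
    change s • -(G⁻¹ * trL G (-_) * G⁻¹) = Y
    rw [map_neg]
    change s • -(G⁻¹ * -TRg G _ * G⁻¹) = Y
    rw [TRg_TRg h, Matrix.mul_neg, Matrix.neg_mul, neg_neg, Matrix.mul_smul, Matrix.smul_mul,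
      smul_smul, mul_inv_cancel₀ hs, one_smul, ← Matrix.mul_assoc, ← Matrix.mul_assoc,
      Matrix.nonsing_inv_mul _ u, Matrix.one_mul, Matrix.mul_assoc, Matrix.mul_nonsing_inv _ u,
      Matrix.mul_one]

theorem mul1 (b G : MetricField 4) (x : E4) (ι : Type) [Fintype ι] (m : ι → ℝ)
    (ψ : ι → MetricField 4) (X : M2 (Fin 4) ℝ) (hb : (b x).PosDef) (hG : (G x).PosDef)
    (hψ : ∀ j, (ψ j x).IsSymm) (hX : ∀ p q, X p q = X q p) :
    ((∀ k : M2 (Fin 4) ℝ, (∀ p q, k p q = k q p) → tr2 (vG (sq G x) (iv G x) k) X =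
      ∑ j, m j * (sq b x * tr2 (up (iv b x) fun p q => ψ j x p q) k)) ↔
    ∀ p q, X p q = -∑ j, m j * PsT b G (ψ j) x p q) := by
  have hH : Sy2 (iv G x) := pd_sy hG.inv
  have hB : Sy2 (iv b x) := pd_sy hb.inv
  have hs : sq G x ≠ 0 := (Real.sqrt_pos.2 hG.det_pos).ne'
  obtain ⟨Y, hY⟩ : ∃ Y : Mx, Y = ∑ j, (m j * sq b x) • ((b x)⁻¹ * ψ j x * (b x)⁻¹) := ⟨_, rfl⟩
  have eY : ∀ p q, Y p q = ∑ j, m j * sq b x * up (iv b x) (fun p q => ψ j x p q) p q :=
    fun p q => by rw [hY, Matrix.sum_apply]; simp only [up_eq]; rfl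
  have e1 : ∀ k : M2 (Fin 4) ℝ, tr2 (vG (sq G x) (iv G x) k) X = tr2 (vG (sq G x) (iv G x) X) k :=
    fun k => by rw [tr2_vG, tr2_vG, tr2_up hH]; ring
  have e2 : ∀ k : M2 (Fin 4) ℝ, ∑ j, m j * (sq b x * tr2 (up (iv b x) fun p q => ψ j x p q) k) =
      tr2 (fun p q => Y p q) k := fun k => by
    simp only [tr2, eY, sum_mul, mul_sum]
    rw [sum_comm]
    refine sum_congr rfl fun p _ => ?_
    rw [sum_comm]
    exact sum_congr rfl fun q _ => sum_congr rfl fun j _ => by ring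
  have sY : Sy2 fun p q => Y p q := fun p q => by
    simp only [eY]
    exact sum_congr rfl fun j _ => by rw [up_sy hB (fun p q => (hψ j).apply q p) p q]
  have e3 : TRg (G x) ((sq G x)⁻¹ • (G x * Y * G x)) = ∑ j, m j • PsT b G (ψ j) x := by
    change trL (G x) _ = ∑ j, m j • trL (G x) _
    simp only [← map_smul, ← map_sum]
    congr 1
    rw [hY, Matrix.mul_sum, Matrix.sum_mul, smul_sum]
    refine sum_congr rfl fun j _ => ?_
    rw [Matrix.mul_smul, Matrix.smul_mul, smul_smul, smul_smul]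
    congr 1
    · ring
    · simp only [Matrix.mul_assoc]
  have key := mul_alg hG hs (Matrix.of X) Y
  rw [e3] at key
  have e4 : vG (sq G x) (iv G x) X = (sq G x • (((1 / 2 : ℝ) * tr2 (fun a b => (G x)⁻¹ a b)
      fun a b => Matrix.of X a b) • (G x)⁻¹ - (G x)⁻¹ * Matrix.of X * (G x)⁻¹) : Mx) := by
    rw [vG_def, up_eq]; rfl
  simp only [e1, e2]
  constructor
  · intro h p q
    have := key.1 (e4 ▸ eq_of_tr2 (vG_sy _ hH hX) sY h)
    have := congrFun (congrFun this p) q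
    rw [Matrix.neg_apply, Matrix.sum_apply] at this
    exact this
  · intro h k _
    have := key.2 (by ext p q; rw [Matrix.neg_apply, Matrix.sum_apply]; exact h p q)
    rw [e4, this]

theorem mul2 (b ψ : MetricField 4) (x : E4) (hb : (b x).PosDef) :
    PsT b b ψ x = TRg (b x) (ψ x) := by
  have u := hb.det_pos.ne'.isUnit
  have hs : sq b x ≠ 0 := (Real.sqrt_pos.2 hb.det_pos).ne'
  unfold PsT
  rw [div_self hs, one_smul, Matrix.mul_nonsing_inv _ u, Matrix.one_mul, Matrix.mul_assoc,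
    Matrix.nonsing_inv_mul _ u, Matrix.mul_one]

/-- bounded positive definite matrices with bounded inverses -/
def PB (Λ : ℝ) (A : Mx) : Prop := A.PosDef ∧ ∀ p q, |A p q| ≤ Λ ∧ |A⁻¹ p q| ≤ Λ

section fam

variable {I : Type} {δ w : I → ℝ} {A A' X X' : I → Mx} {Λ : ℝ}

theorem PB.lm (h : ∀ i, PB Λ (A i)) (h' : ∀ i, PB Λ (A' i)) (k : ∀ i p q, |A i p q - A' i p q| ≤ δ i) :
    LM δ (fun _ => 1) A A' ∧ LM δ (fun _ => 1) (fun i => (A i)⁻¹) (fun i => (A' i)⁻¹) ∧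
      Lp δ (fun _ => 1) (fun i => √(A i).det) (fun i => √(A' i).det) ∧
      Lp δ (fun _ => 1) (fun i => (√(A i).det)⁻¹) fun i => (√(A' i).det)⁻¹ := by
  have a : LM δ (fun _ => 1) A A' := fun p q =>
    Lp.of_le (fun i => ((h i).2 p q).1) (fun i => ((h' i).2 p q).1) fun i => k i p q
  exact ⟨a, a.inv (fun i => (h i).1.det_pos.ne') (fun i => (h' i).1.det_pos.ne')
    (fun i p q => ((h i).2 p q).2) fun i p q => ((h' i).2 p q).2,
    a.sqrt_det (fun i => (h i).1.det_pos) (fun i => (h' i).1.det_pos)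
    (fun i p q => ((h i).2 p q).2) fun i p q => ((h' i).2 p q).2⟩

theorem PB.lm0 (h : ∀ i, PB Λ (A i)) :
    LM δ (fun _ => 1) A A ∧ LM δ (fun _ => 1) (fun i => (A i)⁻¹) (fun i => (A i)⁻¹) ∧
      Lp δ (fun _ => 1) (fun i => √(A i).det) fun i => √(A i).det := by
  obtain ⟨a, b, c, -⟩ := PB.lm (δ := fun _ => 0) h h fun i p q => by simp
  exact ⟨fun p q => .refl (a p q).l, fun p q => .refl (b p q).l, .refl c.l⟩

theorem LM.trg (a : LM δ (fun _ => 1) A A')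
    (b : LM δ (fun _ => 1) (fun i => (A i)⁻¹) fun i => (A' i)⁻¹) (c : LM δ w X X') :
    LM δ w (fun i => TRg (A i) (X i)) fun i => TRg (A' i) (X' i) := fun p q =>
  (c p q).sub (((Lp.const (1 / 2)).mul (b.tr2 c)).mul' (a p q))

end fam

theorem mul3 (Λ : ℝ) : ∃ C : ℝ, 0 < C ∧ ∀ (b G G' ψ : Mx) (δ P : ℝ), PB Λ b → PB Λ G → PB Λ G' →
    (∀ p q, |ψ p q| ≤ P) → (∀ p q, |G p q - G' p q| ≤ δ) → ∀ p q,
      |TRg G ((√b.det / √G.det) • (G * b⁻¹ * ψ * b⁻¹ * G)) p q -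
        TRg G' ((√b.det / √G'.det) • (G' * b⁻¹ * ψ * b⁻¹ * G')) p q| ≤ C * δ * P := by
  let I := {t : Mx × Mx × Mx × Mx × ℝ × ℝ // PB Λ t.1 ∧ PB Λ t.2.1 ∧ PB Λ t.2.2.1 ∧
    (∀ p q, |t.2.2.2.1 p q| ≤ t.2.2.2.2.2) ∧ ∀ p q, |t.2.1 p q - t.2.2.1 p q| ≤ t.2.2.2.2.1}
  obtain ⟨-, b2, b3⟩ := PB.lm0 (I := I) (δ := fun i => i.1.2.2.2.2.1) fun i => i.2.1
  obtain ⟨g1, g2, -, g4⟩ := PB.lm (I := I) (fun i => i.2.2.1) (fun i => i.2.2.2.1)
    fun i => i.2.2.2.2.2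
  have p : LM (fun i : I => i.1.2.2.2.2.1) (fun i => i.1.2.2.2.2.2) (fun i => i.1.2.2.2.1)
      fun i => i.1.2.2.2.1 := fun p q => .refl (ob_le fun i => i.2.2.2.2.1 p q)
  have := g1.trg g2 (LM.smul (b3.mul g4) ((((g1.mul b2).mul p).mul' b2).mul' g1))
  obtain ⟨C, hC, h⟩ := ob_unif fun k : Fin 4 × Fin 4 => (this k.1 k.2).d
  refine ⟨C, hC, fun b G G' ψ δ P h1 h2 h3 h4 h5 p q => ?_⟩
  have := h (p, q) ⟨(b, G, G', ψ, δ, P), h1, h2, h3, h4, h5⟩
  rw [abs_of_nonneg (mul_nonneg ((abs_nonneg _).trans (h4 p q)) ((abs_nonneg _).trans (h5 p q)))]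
    at this
  rw [mul_assoc C, mul_comm δ]
  exact this

/-- **leaf MUL** -/
theorem mul : MUL := by
  refine ⟨mul1, mul2, fun Λ => ?_⟩
  obtain ⟨C, hC, h⟩ := mul3 Λ
  exact ⟨C, hC, fun b G G' ψ x δ P h1 h2 h3 h4 h5 h6 => h _ _ _ _ δ P ⟨h1, h4 b (by simp)⟩
    ⟨h2, h4 G (by simp)⟩ ⟨h3, h4 G' (by simp)⟩ h5 h6⟩

theorem co_alg (Λ : ℝ) : ∃ C : ℝ, 0 < C ∧ ∀ (b g J K : Mx) (e : ℝ), PB Λ b → PB Λ g →
    (∀ p q, |J p q| ≤ e) → (∀ p q, |K p q| ≤ e) → ∀ i j p q p' q',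
      |(((1 / 2) * √b.det * tr2 (fun p q => b⁻¹ p q) (fun p q => J p q) * g⁻¹ i j +
          √b.det * -up (fun p q => g⁻¹ p q) (fun p q => K p q) i j) * b⁻¹ p p' +
          √b.det * g⁻¹ i j * -up (fun p q => b⁻¹ p q) (fun p q => J p q) p p') * b⁻¹ q q' +
        √b.det * g⁻¹ i j * b⁻¹ p p' * -up (fun p q => b⁻¹ p q) (fun p q => J p q) q q'| ≤ C * e := by
  let I := {t : Mx × Mx × Mx × Mx × ℝ // PB Λ t.1 ∧ PB Λ t.2.1 ∧
    (∀ p q, |t.2.2.1 p q| ≤ t.2.2.2.2) ∧ ∀ p q, |t.2.2.2.1 p q| ≤ t.2.2.2.2}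
  obtain ⟨-, b2, b3⟩ := PB.lm0 (I := I) (δ := fun _ => 0) fun i => i.2.1
  obtain ⟨-, g2, -⟩ := PB.lm0 (I := I) (δ := fun _ => 0) fun i => i.2.2.1
  have j1 : LM (fun _ : I => 0) (fun i => i.1.2.2.2.2) (fun i => i.1.2.2.1) fun i => i.1.2.2.1 :=
    fun p q => .refl (ob_le fun i => i.2.2.2.1 p q)
  have k1 : LM (fun _ : I => 0) (fun i => i.1.2.2.2.2) (fun i => i.1.2.2.2.1)
      fun i => i.1.2.2.2.1 := fun p q => .refl (ob_le fun i => i.2.2.2.2 p q)
  obtain ⟨C, hC, h⟩ := ob_unif fun k : Fin 4 × Fin 4 × Fin 4 × Fin 4 × Fin 4 × Fin 4 =>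
    ((((((((Lp.const (1 / 2)).mul b3).mul (b2.tr2 j1)).mul' (g2 k.1 k.2.1)).add
      (b3.mul (g2.up k1 k.1 k.2.1).neg)).mul' (b2 k.2.2.1 k.2.2.2.2.1)).add
      ((b3.mul (g2 k.1 k.2.1)).mul (b2.up j1 k.2.2.1 k.2.2.2.2.1).neg)).mul'
      (b2 k.2.2.2.1 k.2.2.2.2.2) |>.add (((b3.mul (g2 k.1 k.2.1)).mul (b2 k.2.2.1 k.2.2.2.2.1)).mul
      (b2.up j1 k.2.2.2.1 k.2.2.2.2.2).neg)).l
  refine ⟨C, hC, fun b g J K e h1 h2 h3 h4 i j p q p' q' => ?_⟩
  have := h (i, j, p, q, p', q') ⟨(b, g, J, K, e), h1, h2, h3, h4⟩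
  rwa [abs_of_nonneg ((abs_nonneg _).trans (h3 p q))] at this

theorem co2 (Λ : ℝ) : ∃ C : ℝ, 0 < C ∧ ∀ (b b' : Mx) (δ : ℝ), PB Λ b → PB Λ b' →
    (∀ p q, |b p q - b' p q| ≤ δ) → ∀ p q p' q',
      |√b.det * b⁻¹ p p' * b⁻¹ q q' - √b'.det * b'⁻¹ p p' * b'⁻¹ q q'| ≤ C * δ := by
  let I := {t : Mx × Mx × ℝ // PB Λ t.1 ∧ PB Λ t.2.1 ∧ ∀ p q, |t.1 p q - t.2.1 p q| ≤ t.2.2}
  obtain ⟨-, g2, g3, -⟩ := PB.lm (I := I) (fun i => i.2.1) (fun i => i.2.2.1) fun i => i.2.2.2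
  obtain ⟨C, hC, h⟩ := ob_unif fun k : Fin 4 × Fin 4 × Fin 4 × Fin 4 =>
    ((g3.mul (g2 k.1 k.2.2.1)).mul (g2 k.2.1 k.2.2.2)).d
  refine ⟨C, hC, fun b b' δ h1 h2 h3 p q p' q' => ?_⟩
  have := h (p, q, p', q') ⟨(b, b', δ), h1, h2, h3⟩
  rwa [one_mul, abs_of_nonneg ((abs_nonneg _).trans (h3 p q))] at this

theorem abs_pd_le (f : E4 → ℝ) (x : E4) (m : Fin 4) :
    |pderiv m f x| ≤ ‖iteratedFDeriv ℝ 1 f x‖ := by
  rw [norm_iteratedFDeriv_one]
  simpa [pderiv] using (fderiv ℝ f x).le_opNorm (EuclideanSpace.single m (1 : ℝ))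

/-- **leaf CO** -/
theorem co : CO := fun Λ => by
  obtain ⟨C1, h1, k1⟩ := co_alg Λ
  obtain ⟨C2, h2, k2⟩ := co2 Λ
  refine ⟨C1 + C2, by positivity, fun U b g x r e hb hg hx hr h m i j p q p' q' => ?_,
    fun b b' x δ hb hb' h k p q p' q' => ?_⟩
  · have jt : ∀ H ∈ [b, g], ∀ p q, |(r • Matrix.of (jet H x m) : Mx) p q| ≤ e := fun H hH p q => by
      rw [Matrix.smul_apply, smul_eq_mul, abs_mul, abs_of_pos hr]
      exact (mul_le_mul_of_nonneg_left (abs_pd_le _ x m) hr.le).trans (h H hH p q).2.2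
    have := k1 (b x) (g x) _ _ e
      ⟨hb.posDef x hx, fun p q => ⟨(h b (by simp) p q).1, (h b (by simp) p q).2.1⟩⟩
      ⟨hg.posDef x hx, fun p q => ⟨(h g (by simp) p q).1, (h g (by simp) p q).2.1⟩⟩
      (jt b (by simp)) (jt g (by simp)) i j p q p' q'
    have d := (((ln_sq hb hx m).fun_mul (ln_iv hg hx m i j)).fun_mul (ln_iv hb hx m p p')).fun_mul
      (ln_iv hb hx m q q')
    have df : DifferentiableAt ℝ (cf b g i j p q p' q') x :=
      (((d_sq hb hx).fun_mul (dA_ap2 (d_iv hg hx) i j)).fun_mul (dA_ap2 (d_iv hb hx) p p')).fun_mul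
        (dA_ap2 (d_iv hb hx) q q')
    have e0 : 0 ≤ e := (abs_nonneg _).trans (jt b (by simp) p q)
    rw [pd_eq df d, ← abs_of_pos hr, ← abs_mul]
    refine le_trans (le_of_eq ?_) (this.trans (by nlinarith))
    congr 1
    simp only [ln_zero, Pi.neg_apply, iv, Lg.sq, tr2, up, Matrix.smul_apply, Matrix.of_apply,
      smul_eq_mul, mul_left_comm _ r, mul_assoc r, ← mul_sum]
    ring
  · have e0 : 0 ≤ δ := (abs_nonneg _).trans (k p q)
    exact (k2 (b x) (b' x) δ ⟨hb, h b (by simp)⟩ ⟨hb', h b' (by simp)⟩ k p q p' q').trans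
      (by nlinarith)

end Crest.Agent.N207.NS

end
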