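import Crest.Agent.N207.N.Act1
import Crest.Agent.N207.I.Cal5
import Crest.Agent.N207.Ga.Defs
import Crest.Agent.N207.I.Car3
import Crest.Agent.N207.N.Chi
import Crest.Agent.N207.G.Jb
import Crest.Agent.N207.Ga.Ten
import Crest.Agent.N207.N.Thb
import Crest.Agent.N207.N.Mul
import Crest.Agent.N207.Lg.Hom
import Crest.Agent.N207.I.Met
import Crest.Agent.N207.A.Arr

-- ▼ part N207/N/Act2
section

/-!
# Row 207, block N (helper42): the leaf `ACT`
-/

set_option autoImplicit false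

open scoped ContDiff Topology
open Metric Set Filter MeasureTheory Asymptotics
open Crest.GeometryTopology.CoordMetric Crest.GeometryTopology.MetricFamily
open Crest.Agent.N207.I Crest.Agent.N207.Lg Crest.Agent.N207.CB

noncomputable section

namespace Crest.Agent.N207.NS

namespace Ac

variable {M : Type*} {T : TD M} {L : T.V → ℝ}

theorem lagF_smul {c d : ℝ} (hc : c ≠ 0) (hd : d ≠ 0) (b H : MetricField 4) (x : E4) :
    lagF (fun y => d • b y) (fun y => c • H y) x = c * lagF b H x := by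
  have e1 : sq (fun y => c • H y) x = c ^ 2 * sq H x := N207.M.sqrt_det_smul _
  have e2 : iv (fun y => c • H y) x = c⁻¹ • iv H x := by
    funext a b; simp only [iv, N207.M.inv_smul_mat hc]; rfl
  have e3 : TG (fun y => d • b y) (fun y => c • H y) x = c • TG b H x := by
    rw [← TG_smul]; simp only [TG, N207.M.cov_smul_met hd]; rfl
  have e4 : ricci (fun y => d • b y) x = ricci b x := by
    funext i j; simp only [ricci, N207.M.chr_smul_met hd]
  simp only [lagF, e1, e2, e3, e4, lag, ell, smul_tr2, chr_smul, smul_chr, smul_smul,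
    mul_inv_cancel₀ hc, one_smul]
  field_simp

/-- densities in vertex units and scalars on the atlas -/
theorem conv (h : T.Ok) (hL : T.Long L) {G : T.S → MetricField 4} {f f' : T.S → E4 → ℝ}
    (e : ∀ s, ∀ x ∈ U1 T L s, √(G s x).det * f' s x = ep T L s ^ 2 * f s x) :
    ((gl1 T L).Intg T.χ G f' ↔ IntL T L f) ∧ intL T L f = (gl1 T L).int T.χ G f' := by
  have hA := gl1_ok h hL
  have k : ∀ s, ∀ x ∈ U1 T L s, (gl1 T L).den T.χ G s x * f' s x =
      (ep T L s ^ 2 * (Nat.card (T.grp s) : ℝ)⁻¹) * (T.χ s ((T.glob L).c s x) * f s x) := by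
    intro s x hx
    rw [Atl.den, mul_assoc, mul_assoc, e s x hx]
    change (Nat.card (T.grp s) : ℝ)⁻¹ * (T.χ s ((T.glob L).c s x) * _) = _
    ring
  refine ⟨forall_congr' fun s => ?_, Finset.sum_congr rfl fun s _ => ?_⟩
  · have c : IsUnit (ep T L s ^ 2 * (Nat.card (T.grp s) : ℝ)⁻¹) :=
      (mul_pos (pow_pos (TD.eps_pos L _) 2) (inv_pos.2 (Atl.card_pos hA s))).ne'.isUnit
    exact (integrableOn_congr_fun (k s) (hA.isOpen s).measurableSet).trans
      (integrable_const_mul_iff c _)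
  · rw [setIntegral_congr_fun (hA.isOpen s).measurableSet (k s), integral_const_mul, mul_assoc]
    rfl

theorem sec_omE {X : Type*} {α : Type} {A : Atl X α} (h : A.Ok) {B G : α → MetricField 4}
    (hB : A.IsMet B) (hG : A.IsMet G) : A.Sec fun s => omE (B s) (G s) := by
  refine ⟨fun s => smT_omE (hB.riem s) (hG.riem s), fun a b x F t => ?_⟩
  obtain ⟨V, h1, h2, h3, -⟩ := t.exists_nbhd h
  exact rel_omE (hG.pull h h1 h3) (hB.pull h h1 h3) x h2

theorem omE_congr {B B' : MetricField 4} (G : MetricField 4) {x : E4} (e : B =ᶠ[𝓝 x] B') :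
    omE B G x = omE B' G x := by
  have h1 := (gauT_congr e (EventuallyEq.rfl (f := G))).eq_of_nhds
  have h2 := (cov_congr e (EventuallyEq.rfl (f := matT G))).eq_of_nhds
  funext I
  simp only [omE, Pi.sub_apply, Pi.smul_apply, h1, vTT, trT, prmT, h2]

theorem ev_far {Y : Type*} {f f' : E4 → Y} {R : ℝ} (h : ∀ x : E4, R ≤ ‖x‖ → f x = f' x) {x : E4}
    (hx : R < ‖x‖) : f =ᶠ[𝓝 x] f' := by
  filter_upwards [(isOpen_lt continuous_const continuous_norm).mem_nhds hx] with y hy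
    using h y (le_of_lt hy)

theorem lagF_rt (b H : Fam T) (s : T.S) (x : E4) :
    √(rt T L H s x).det * lagS (rt T L b s) (rt T L H s) x = ep T L s ^ 2 * lagF (b s) (H s) x :=
  lagF_smul (N207.M.eps2_ne L _) (N207.M.eps2_ne L _) (b s) (H s) x

theorem act2 (h : T.Ok) (hL : T.Long L) {b b' H : Fam T} (hb : Met1 T L b) (hb' : Met1 T L b')
    (hH : Met1 T L H)
    (hR : ∃ R : ℝ, ∀ x : E4, R ≤ ‖x‖ → b (Sum.inr T.root) x = b' (Sum.inr T.root) x) :
    IntL T L (fun s x => lagF (b s) (H s) x - lagF (b' s) (H s) x) ∧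
      intL T L (fun s x => lagF (b s) (H s) x - lagF (b' s) (H s) x) = 0 := by
  obtain ⟨R, hR⟩ := hR
  have hA := gl1_ok h hL
  have s1 := sec_omE hA hb hH
  have s2 := sec_omE hA hb' hH
  have hW := s2.sub s1
  obtain ⟨S, h1, h2⟩ := cs_of_far h hL hW.compat (R := R) fun x hx => by
    refine sub_eq_zero.2 (omE_congr _ (ev_far (fun y hy => ?_) hx))
    simp only [rt, hR y hy]
  have d := Atl.int_div hA hH (gl1_pou h hL) hW h1 h2
  have c := conv h hL (G := rt T L H) (f := fun s x => lagF (b s) (H s) x - lagF (b' s) (H s) x)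
    (f' := fun s x => divT (rt T L H s) (((fun s => omE (rt T L b' s) (rt T L H s)) -
      fun s => omE (rt T L b s) (rt T L H s)) s) x ![]) fun s x hx => by
      have e1 := eh_div (Atl.IsMet.riem hb s) (Atl.IsMet.riem hH s) hx
      have e2 := eh_div (Atl.IsMet.riem hb' s) (Atl.IsMet.riem hH s) hx
      rw [Pi.sub_apply, divT_sub (s2.dfT hA hx) (s1.dfT hA hx), Pi.sub_apply, mul_sub (_ ^ 2),
        ← lagF_rt, ← lagF_rt, ← mul_sub]
      congr 1
      linarith
  exact ⟨c.1.1 d.1, c.2.trans d.2⟩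

/-- decay of the Lagrangian and of the flux of the flat metric -/
theorem far_bd {b : MetricField 4} (hb : Dec (5 / 2) fun x => b x - 1) :
    ∃ C R : ℝ, ∀ x : E4, R ≤ ‖x‖ →
      |lag (sq (fun _ => 1) x) (iv (fun _ => 1) x) (TG b (fun _ => 1) x) 0| ≤ C * ‖x‖ ^ (-7 : ℝ) ∧
      ∀ c, |fluxF b (fun _ => 1) c x| ≤ C * ‖x‖ ^ (-(7 / 2) : ℝ) := by
  obtain ⟨C, R, hb⟩ := hb
  set l : Filter E4 := comap norm atTop with hl
  have hP : Cl fun f : E4 → ℝ => f =O[l] fun _ => (1 : ℝ) :=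
    ⟨fun c => isBigO_const_one ℝ c l, IsBigO.add, fun h1 h2 => by simpa using h1.mul h2⟩
  have ev : ∀ R : ℝ, ∀ᶠ x in l, R ≤ ‖x‖ := fun R => tendsto_comap.eventually_ge_atTop R
  have t1 : Tendsto b l (𝓝 1) := by
    refine tendsto_pi_nhds.2 fun a => tendsto_pi_nhds.2 fun c =>
      tendsto_iff_norm_sub_tendsto_zero.2 (squeeze_zero' (Eventually.of_forall fun _ => norm_nonneg _)
        ((ev R).mono fun x hx => (hb x hx a c).1) ?_)
    simpa only [mul_zero, Function.comp] using (((tendsto_rpow_neg_atTop (y := 5 / 2) (by norm_num)).comp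
      (tendsto_comap (f := fun x : E4 => ‖x‖))).const_mul C)
  have t2 : Tendsto (fun x => (b x)⁻¹) l (𝓝 (1 : Matrix (Fin 4) (Fin 4) ℝ)⁻¹) :=
    (continuousAt_matrix_inv (1 : Matrix (Fin 4) (Fin 4) ℝ) (by
      rw [Matrix.det_one]; exact NormedRing.inverse_continuousAt (1 : ℝˣ))).tendsto.comp t1
  have pH : P2 (fun f : E4 → ℝ => f =O[l] fun _ => (1 : ℝ)) (iv b) := fun a c =>
    (tendsto_pi_nhds.1 (tendsto_pi_nhds.1 t2 a) c).isBigO_one ℝ
  set N : E4 → M3 (Fin 4) ℝ := fun x => ‖x‖ ^ (7 / 2 : ℝ) • jet b x with hN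
  have pN : P3 (fun f : E4 → ℝ => f =O[l] fun _ => (1 : ℝ)) N := fun c a e => by
    refine IsBigO.of_bound C ?_
    filter_upwards [ev R, ev 1] with x hx h1
    have x0 : 0 < ‖x‖ := by linarith
    have h2 := (hb x hx a e).2
    simp only [Matrix.sub_apply, fderiv_sub_const] at h2
    have h3 := mul_le_mul_of_nonneg_left ((abs_pd_le _ x c).trans h2)
      (Real.rpow_nonneg x0.le (7 / 2))
    rw [mul_left_comm, ← Real.rpow_add x0] at h3
    norm_num at h3
    simpa [hN, jet, abs_mul, abs_of_nonneg (Real.rpow_nonneg x0.le _)] using h3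
  set T0 : E4 → M3 (Fin 4) ℝ := fun x =>
    bar (fun a c => (1 : Matrix (Fin 4) (Fin 4) ℝ) a c) 0 (chr (iv b x) (N x)) with hT0
  have pT : P3 (fun f : E4 → ℝ => f =O[l] fun _ => (1 : ℝ)) T0 :=
    hP.bar (fun _ _ => hP.const _) (fun _ _ _ => hP.const _) (hP.chr pH pN)
  have ps : (sq (fun _ => 1) : E4 → ℝ) =O[l] fun _ => (1 : ℝ) := hP.const √(Matrix.det 1)
  have pI : P2 (fun f : E4 → ℝ => f =O[l] fun _ => (1 : ℝ)) (iv fun _ => 1) := fun a c =>
    hP.const ((1 : Matrix (Fin 4) (Fin 4) ℝ)⁻¹ a c)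
  obtain ⟨C1, h1⟩ := (hP.lag (ρ := fun _ => 0) ps pI pT fun _ _ => hP.const 0).bound
  choose C2 h2 using fun c => (hP.flux ps pI pT c).bound
  obtain ⟨R', hR'⟩ := eventually_atTop.1
    (eventually_comap.1 (h1.and ((eventually_all.2 h2).and (ev 1))))
  refine ⟨|C1| + ∑ c, |C2 c|, R', fun x hx => ?_⟩
  obtain ⟨a1, a2, a3⟩ := hR' _ hx x rfl
  have x0 : 0 < ‖x‖ := by linarith
  have s0 : 0 ≤ ∑ c, |C2 c| := Finset.sum_nonneg fun _ _ => abs_nonneg _
  have tp : 0 < ‖x‖ ^ (-(7 / 2) : ℝ) := Real.rpow_pos_of_pos x0 _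
  have e : TG b (fun _ => 1) x = ‖x‖ ^ (-(7 / 2) : ℝ) • T0 x := by
    have e1 : jet b x = ‖x‖ ^ (-(7 / 2) : ℝ) • N x := by
      rw [hN, smul_smul, ← Real.rpow_add x0]; norm_num
    rw [TG_eq, jet_const, chr_eq, e1, chr_smul, hT0, ← bar_hom, smul_zero]
  simp only [norm_one, mul_one, Real.norm_eq_abs] at a1 a2
  refine ⟨?_, fun c => ?_⟩
  · have e2 : (‖x‖ ^ (-(7 / 2) : ℝ)) ^ 2 = ‖x‖ ^ (-7 : ℝ) := by
      rw [pow_two, ← Real.rpow_add x0]; norm_num
    rw [e, ← smul_zero (A := M2 (Fin 4) ℝ) ((‖x‖ ^ (-(7 / 2) : ℝ)) ^ 2), lag_hom, abs_mul, e2,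
      abs_of_pos (Real.rpow_pos_of_pos x0 _), mul_comm]
    exact mul_le_mul_of_nonneg_right (by linarith [le_abs_self C1]) (Real.rpow_nonneg x0.le _)
  · have e2 : fluxF b (fun _ => 1) c x = ‖x‖ ^ (-(7 / 2) : ℝ) *
        flux (sq (fun _ => 1) x) (iv (fun _ => 1) x) (T0 x) c := by
      simp only [fluxF, e, flux, chr_smul, fl, Pi.smul_apply, smul_eq_mul,
        mul_left_comm _ (‖x‖ ^ (-(7 / 2) : ℝ)), ← Finset.mul_sum, ← mul_sub]
    rw [e2, abs_mul, abs_of_pos tp, mul_comm]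
    refine mul_le_mul_of_nonneg_right ((a2 c).trans ((le_abs_self _).trans ?_)) tp.le
    linarith [Finset.single_le_sum (f := fun c => |C2 c|) (fun _ _ => abs_nonneg _)
      (Finset.mem_univ c), abs_nonneg C1]

theorem act1 (h : T.Ok) (hL : T.Long L) {b : Fam T} {G : T.S → MetricField 4} (hb : Met1 T L b)
    (hd : DecR T (5 / 2) b) (hr : RicF T b) (hG : (T.glob L).IsMet G) (hF : Sk.Flat T G) :
    IntL T L (fun s => lagF (b s) (T.nrm L G s)) ∧
      intL T L (fun s => lagF (b s) (T.nrm L G s)) = Sk.SR T L G := by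
  have hA := gl1_ok h hL
  have G1 : (gl1 T L).IsMet G :=
    ⟨fun s => riemOn_mono (hG.riem s) (U1_open s) (U1_U h s), Ga.res_compat (U1_U h) hG.compat⟩
  obtain ⟨R1, hF⟩ := hF
  obtain ⟨R2, hr⟩ := hr
  obtain ⟨C, R3, hd⟩ := far_bd hd
  have eG : rt T L (T.nrm L G) = G := by
    funext s x; exact smul_inv_smul₀ (N207.M.eps2_ne L _) _
  have eb : rt T L b (Sum.inr T.root) = b (Sum.inr T.root) := by
    funext x
    have : ep T L (Sum.inr T.root) = 1 := h.eps_root L
    simp only [rt, this, one_pow, one_smul]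
  have far : ∀ x : E4, R1 + 1 ≤ ‖x‖ → G (Sum.inr T.root) =ᶠ[𝓝 x] fun _ => 1 := fun x hx =>
    ev_far hF (by linarith)
  have iS : (gl1 T L).Intg T.χ G fun s => scalarCurv (G s) :=
    intg_of_dec h hL G1 (fun s => (sm_scal (G1.riem s)).continuousOn) (q := 5) (C := 0)
      (R := R1 + 1) (by norm_num) fun x hx => by
        simp [scalarCurv, ricci_congr (far x hx), ricci_const]
  have iL : (gl1 T L).Intg T.χ G fun s => lagS (rt T L b s) (G s) :=
    intg_of_dec h hL G1 (fun s => (sm_lagS (Atl.IsMet.riem hb s) (G1.riem s)).continuousOn)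
      (q := 7) (C := C) (R := max (R1 + 1) (max R2 R3)) (by norm_num) fun x hx => by
        simp only [max_le_iff] at hx
        have e : ricci (b (Sum.inr T.root)) x = 0 := funext fun i => funext fun j => hr x hx.2.1 i j
        change |lagF _ _ x| ≤ _
        rw [eb, (lagF_congr EventuallyEq.rfl (far x hx.1)).eq_of_nhds, lagF, e]
        exact (hd x hx.2.2).1
  have sW := sec_omE hA hb G1
  have eD : ∀ s, ∀ x ∈ (gl1 T L).U s, divT (G s) (omE (rt T L b s) (G s)) x ![] =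
      scalarCurv (G s) x - lagS (rt T L b s) (G s) x := fun s x hx => by
    rw [eh_div (Atl.IsMet.riem hb s) (G1.riem s) hx]; ring
  have z := int_div_dec h hL G1 sW (p := 7 / 2) (C := C) (R := max (R1 + 1) (max 2 R3))
    (by norm_num) (fun x hx i => by
      simp only [max_le_iff] at hx
      have f1 := far x hx.1
      rw [← fluxF_eq _ (g_sy_ev (G1.riem _) (mem_root hx.2.1)), eb, fluxF,
        (sq_congr f1).eq_of_nhds, (iv_congr f1).eq_of_nhds,
        (TG_congr EventuallyEq.rfl f1).eq_of_nhds]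
      exact (hd x hx.2.2).2 i) ((iS.sub iL).congr hA eD)
  rw [Atl.int_congr hA eD, Atl.int_sub iS iL, sub_eq_zero] at z
  have c := conv h hL (G := G) (f := fun s => lagF (b s) (T.nrm L G s))
    (f' := fun s => lagS (rt T L b s) (G s)) fun s x _ => by
      have := lagF_rt (L := L) b (T.nrm L G) s x
      rwa [eG] at this
  refine ⟨c.1.1 iL, c.2.trans (z.symm.trans (Finset.sum_congr rfl fun s _ => ?_))⟩
  refine (setIntegral_eq_of_subset_of_forall_sdiff_eq_zero
    ((h.glob_ok hL).isOpen s).measurableSet (U1_U h s) fun x hx => ?_).symm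
  have := chi_zero h hL s hx.1 fun e => hx.2 (K1_U1 h s (gK_K1 h s e))
  change (T.glob L).den T.χ G s x * _ = 0
  simp [Atl.den, this]

end Ac

theorem act {M : Type*} {T : TD M} (h : T.Ok) : ACT T := fun _ hL =>
  ⟨fun _ _ hb hd hr hG hF => Ac.act1 h hL hb hd hr hG hF,
    fun _ _ _ hb hb' hH hR => Ac.act2 h hL hb hb' hH hR⟩

end Crest.Agent.N207.NS

end
end

-- ▼ part N207/N/Int1
section

/-!
# Row 207, leaf INT (helper17), part 1: measurability of compatible families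
-/

set_option autoImplicit false

open scoped ContDiff
open Set Filter Topology MeasureTheory
open Crest.GeometryTopology.CoordMetric

noncomputable section

namespace Crest.Agent.N207.I.Atl

variable {X X' : Type*} {α α' : Type} {A : Atl X α} {A' : Atl X' α'}

theorem aesm_of_loc {U : Set E4} {g : E4 → ℝ}
    (hg : ∀ x ∈ U, ∃ V ∈ 𝓝 x, AEStronglyMeasurable g (volume.restrict V)) :
    AEStronglyMeasurable g (volume.restrict U) := by
  choose! V hV hm using hg
  obtain ⟨s, hs, hc, hU⟩ := TopologicalSpace.countable_cover_nhdsWithin (s := U) (f := V)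
    fun x hx => mem_nhdsWithin_of_mem_nhds (hV x hx)
  have := hc.to_subtype
  refine AEStronglyMeasurable.mono_measure (μ := volume.restrict (⋃ x : s, V x)) ?_
    (Measure.restrict_mono (by simpa using hU) le_rfl)
  exact aestronglyMeasurable_iUnion_iff.2 fun x => hm x (hs x.2)

theorem Tr.aesm (h : A.Ok) {a b : α} {x : E4} {F : E4 → E4} (t : A.Tr a b x F) {g : E4 → ℝ}
    {W : Set E4} (hW : W ∈ 𝓝 (F x)) (hg : AEStronglyMeasurable g (volume.restrict W)) :
    ∃ V ∈ 𝓝 x, AEStronglyMeasurable (fun z => g (F z)) (volume.restrict V) := by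
  obtain ⟨F', t', -, e⟩ := t.exists_inv h
  obtain ⟨W', hW', hWo, hx'⟩ := mem_nhds_iff.1 hW
  obtain ⟨V, hV, hVo, hx⟩ := eventually_nhds_iff.1 ((e.and (t.ev h)).and
    ((t.cont.eventually (hWo.mem_nhds hx')).and (t.cont.eventually (t'.ev h))))
  refine ⟨V, hVo.mem_nhds hx, ?_⟩
  obtain ⟨g', hg', eg⟩ := hg.mono_measure (Measure.restrict_mono hW' le_rfl)
  have hF : AEMeasurable F (volume.restrict V) :=
    ContinuousOn.aemeasurable (fun z hz => (hV z hz).1.2.cont.continuousWithinAt) hVo.measurableSet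
  refine (hg'.measurable.comp_aemeasurable hF).aestronglyMeasurable.congr ?_
  rw [EventuallyEq, ae_restrict_iff' hWo.measurableSet, ae_iff] at eg
  rw [EventuallyEq, ae_restrict_iff' hVo.measurableSet, ae_iff]
  have h0 := addHaar_image_eq_zero_of_differentiableOn_of_addHaar_eq_zero volume (f := F')
    (s := {y | ¬ (y ∈ W' → g y = g' y)} ∩ F '' V) (by
      rintro _ ⟨-, z, hz, rfl⟩
      exact (hV z hz).2.2.diff.differentiableWithinAt) (measure_mono_null inter_subset_left eg)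
  refine measure_mono_null (fun z hz => ?_) h0
  obtain ⟨h1, h2⟩ := Classical.not_imp.1 hz
  exact ⟨F z, ⟨fun k => h2 (k (hV z h1).2.1).symm, z, h1, rfl⟩, (hV z h1).1.1⟩

theorem ms_of_intg [Fintype α] {χ : α → X → ℝ} {K : α → Set E4} {G : α → MetricField 4}
    {f : α → E4 → ℝ} (h : A.Ok) (hG : A.IsMet G) (hχ : A.PoU χ K) (hc : A.CompF f)
    (hi : A.Intg χ G f) : A.Ms f := fun a => aesm_of_loc fun x hx => by
  obtain ⟨s, -, hs⟩ := Finset.exists_ne_zero_of_sum_ne_zero ((hχ.sum a x hx).trans_ne one_ne_zero)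
  obtain ⟨z, hz, ez⟩ := hχ.supp s a x hx hs
  have hz' := hχ.sub s hz
  obtain ⟨F, t, rfl⟩ := h.loc a s x hx z hz' ez.symm
  have hd := (sm_den hG hχ s).continuousOn
  have h0 : A.den χ G s (F x) ≠ 0 := by
    refine mul_ne_zero (inv_ne_zero (card_pos h s).ne') (mul_ne_zero (ez ▸ hs) ?_)
    exact (Real.sqrt_pos.2 ((hG.riem s).posDef _ hz').det_pos).ne'
  obtain ⟨W, hW, hWo, hx'⟩ := eventually_nhds_iff.1
    (((hd.continuousAt ((h.isOpen s).mem_nhds hz')).eventually_ne h0).and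
      ((h.isOpen s).eventually_mem hz'))
  have hs' : W ⊆ A.U s := fun y hy => (hW y hy).2
  have m1 : AEStronglyMeasurable (f s) (volume.restrict W) := by
    have m2 := ((hi s).mono_set hs').aestronglyMeasurable.mul
      (((hd.mono hs').inv₀ fun y hy => (hW y hy).1).aestronglyMeasurable hWo.measurableSet)
    refine m2.congr ((ae_restrict_iff' hWo.measurableSet).2 (Eventually.of_forall fun y hy => ?_))
    have := (hW y hy).1
    simp only [Pi.mul_apply, Pi.inv_apply]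
    field_simp
  obtain ⟨V, hV, m3⟩ := t.aesm h (hWo.mem_nhds hx') m1
  obtain ⟨V', hV', hVo, hx2⟩ := eventually_nhds_iff.1 ((t.ev h).and hV)
  refine ⟨V', hVo.mem_nhds hx2, (m3.mono_measure (Measure.restrict_mono (fun y hy => (hV' y hy).2)
    le_rfl)).congr ((ae_restrict_iff' hVo.measurableSet).2 (Eventually.of_forall fun y hy => ?_))⟩
  exact (hc.tr (hV' y hy).1).symm

theorem Mor.ms {j : α → α'} {u : α → E4 → E4} (m : Mor A A' j u) (h : A.Ok) (h' : A'.Ok)
    (hi : MInj A A' j u) {f : α' → E4 → ℝ} (hf : A'.Ms f) : A.Ms fun a x => f (j a) (u a x) :=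
  fun a => aesm_of_loc fun x hx =>
    Tr.aesm (m.uni_ok h h' hi) (a := Sum.inl a) (b := Sum.inr (j a)) (F := u a)
      ⟨hx, m.maps a x hx, ((h.isOpen a).eventually_mem hx).mono fun _ hz => m.cda h hz,
        Eventually.of_forall fun _ => rfl⟩ ((h'.isOpen _).mem_nhds (m.maps a x hx)) (hf (j a))

/-- invariance of the integral under a diffeomorphism, without measurability hypotheses -/
theorem Mor.int_eq' [Fintype α] [Fintype α'] {j : α → α'} {u : α → E4 → E4} (m : Mor A A' j u)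
    (h : A.Ok) (h' : A'.Ok) (hi : MInj A A' j u) {G : α → MetricField 4} {G' : α' → MetricField 4}
    (hG' : A'.IsMet G') (e : PM A j u G G') {χ : α → X → ℝ} {K : α → Set E4} {χ' : α' → X' → ℝ}
    {K' : α' → Set E4} (hχ : A.PoU χ K) (hχ' : A'.PoU χ' K') {f : α' → E4 → ℝ} (hf : A'.CompF f)
    (ho : ∀ b, ∀ y ∈ A'.U b, A'.c b y ∈ img A A' j u) (hI : A'.Intg χ' G' f) :
    A.Intg χ G (fun a x => f (j a) (u a x)) ∧
      A.int χ G (fun a x => f (j a) (u a x)) = A'.int χ' G' f := by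
  have hm := ms_of_intg h' hG' hχ' hf hI
  have := m.int_eq h h' hi hG' e hχ hχ' hf (m.ms h h' hi hm) hm fun b y hy _ => ho b y hy
  exact ⟨this.1.2 hI, this.2 hI⟩

end Crest.Agent.N207.I.Atl

end
end

-- ▼ part N207/Ga/Ni
section

/-!
# Row 207, GAUGE (helper21): near identity families are diffeomorphisms
-/

set_option autoImplicit false

open scoped ContDiff NNReal
open Metric Set Filter Topology
open Crest.Agent.N207.I Crest.Agent.N207.I.TD Crest.Agent.N207.CB

noncomputable section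

namespace Crest.Agent.N207.Ga

/-- uniform changes of charts on compact sets -/
theorem leb0 {X : Type*} {α : Type} {A : Atl X α} (h : A.Ok) {a b : α} {K K' : Set E4}
    (hK : IsCompact K) (hK' : IsCompact K') (hU : K ⊆ A.U a) (hU' : K' ⊆ A.U b) {ρ : ℝ}
    (hρ : 0 < ρ) : ∀ᶠ d in 𝓝 (0 : E4), ∀ p ∈ K ×ˢ K', A.c a p.1 = A.c b p.2 →
      p.1 + d ∈ A.U a ∧ ∃ x' ∈ A.U b, ‖x' - p.2‖ ≤ ρ ∧ A.c b x' = A.c a (p.1 + d) := by
  refine (hK.prod hK').eventually_forall_of_forall_eventually fun p hp => ?_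
  by_cases e : A.c a p.1 = A.c b p.2
  · obtain ⟨F, t, e'⟩ := h.loc a b _ (hU hp.1) _ (hU' hp.2) e
    have c1 : Tendsto (fun q : E4 × E4 × E4 => q.2.1 + q.1) (𝓝 (0, p)) (𝓝 p.1) :=
      (by fun_prop : Continuous fun q : E4 × E4 × E4 => q.2.1 + q.1).tendsto' _ _ (by simp)
    have c2 : Tendsto (fun q : E4 × E4 × E4 => ‖F (q.2.1 + q.1) - q.2.2‖) (𝓝 (0, p)) (𝓝 0) := by
      have := ((t.cont.tendsto.comp c1).sub
        ((by fun_prop : Continuous fun q : E4 × E4 × E4 => q.2.2).tendsto (0, p))).norm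
      simpa [e'] using this
    filter_upwards [c1 (t.ev h), c2.eventually (ge_mem_nhds hρ)] with q h1 h2 _
    exact ⟨h1.mem, _, h1.mem', h2, h1.eq0⟩
  · have c1 : Tendsto (fun q : E4 × E4 × E4 => q.2) (𝓝 (0, p)) (𝓝 (p.1, p.2)) :=
      continuous_snd.tendsto (0, p)
    filter_upwards [c1 (h.t2 a b _ (hU hp.1) _ (hU' hp.2) e)] with q h1 h2 using absurd h2 h1

variable {M : Type*} {T : TD M} {L : T.V → ℝ}

/-- compact parts of the charts of `base v` -/
def KB (T : TD M) (v : T.V) : T.S → Set E4 :=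
  Sum.elim (fun a => {x | T.vx a = v ∧ ‖x‖ ≤ 7 / 4}) fun w =>
    {x | (w = v ∧ 5 / 4 ≤ ‖x‖ ∧ ‖x‖ ≤ 3) ∨ (w ≠ v ∧ T.kid v w ∧ T.r / 3 ≤ ‖x‖ ∧ ‖x‖ ≤ 7 / 8 * T.r)}

/-- closed parts of the charts of `glob L` -/
def gW (T : TD M) (L : T.V → ℝ) : T.S → Set E4 :=
  Sum.elim (fun _ => {x | ‖x‖ ≤ 7 / 4}) fun w =>
    {x | 5 / 4 ≤ ‖x‖ ∧ (w ≠ T.root → ‖x‖ ≤ 7 / 8 * T.r * Real.exp (L w))}

theorem KB_cpt (h : T.Ok) (v : T.V) (s : T.S) : IsCompact (KB T v s) := by
  have hr := h.r_lt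
  have a1 : ∀ c : ℝ, IsClosed {x : E4 | ‖x‖ ≤ c} := fun c => isClosed_le continuous_norm continuous_const
  have a2 : ∀ c : ℝ, IsClosed {x : E4 | c ≤ ‖x‖} := fun c => isClosed_le continuous_const continuous_norm
  refine (isCompact_closedBall (0 : E4) 3).of_isClosed_subset ?_ ?_
  · rcases s with a | w
    · exact isClosed_const.inter (a1 _)
    · exact (isClosed_const.inter ((a2 _).inter (a1 _))).union
        (isClosed_const.inter (isClosed_const.inter ((a2 _).inter (a1 _))))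
  · rcases s with a | w
    · exact fun x hx => mem_closedBall_zero_iff.2 (by linarith [hx.2])
    · rintro x (hx | hx)
      exacts [mem_closedBall_zero_iff.2 hx.2.2, mem_closedBall_zero_iff.2 (by linarith [hx.2.2.2])]

theorem KB_sub (h : T.Ok) (v : T.V) (s : T.S) : KB T v s ⊆ (T.base v).U s := by
  have hr := h.r_pos
  rcases s with a | w
  · exact fun x hx => mem_base_inl.2 ⟨hx.1, by linarith [hx.2]⟩
  · rintro x (⟨rfl, h1, h2⟩ | ⟨h0, h1, h2, h3⟩)
    · exact mem_base_out.2 ⟨by linarith, by linarith⟩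
    · exact (mem_base_inn h0).2 ⟨h1, by linarith, by linarith⟩

theorem gW_sub (h : T.Ok) (s : T.S) : gW T L s ⊆ (T.glob L).U s := by
  rcases s with a | w
  · exact fun x hx => mem_glob_inl.2 (by linarith [show ‖x‖ ≤ 7 / 4 from hx])
  · have := mul_pos h.r_pos (Real.exp_pos (L w))
    exact fun x hx => mem_glob_inr.2 ⟨by linarith [hx.1], fun hw => by linarith [hx.2 hw]⟩

theorem gK_sub_gW (h : T.Ok) (s : T.S) : T.gK L s ⊆ gW T L s := by
  rcases s with a | w
  · exact fun x hx => (mem_gK_inl.1 hx).trans (by norm_num)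
  · have := mul_pos h.r_pos (Real.exp_pos (L w))
    exact fun x hx => ⟨by linarith [hx.1], fun hw => by linarith [hx.2 hw]⟩

theorem scl_lip (s : T.S) (x y : E4) : scl T s x ≤ scl T s y + ‖x - y‖ := by
  rcases s with a | w
  · exact le_add_of_nonneg_right (norm_nonneg _)
  · exact norm_le_norm_add_norm_sub' x y

theorem scl_iso (s : T.S) (γ : Iso4) (x : E4) : scl T s (γ x) = scl T s x := by
  rcases s with a | w
  · rfl
  · exact γ.norm_map x

theorem scl_ge {s : T.S} {x : E4} (hx : x ∈ (T.glob L).U s) : 1 ≤ scl T s x := by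
  rcases s with a | w
  · exact le_rfl
  · exact hx.1.le




theorem mem_KB (h : T.Ok) {a b : T.S} (hab : a ≠ b) {v : T.V} {x z : E4} (hx : x ∈ gW T L a)
    (h1 : sc (lm L) a v • x ∈ (T.base v).U a) (h2 : sc (lm L) b v • z ∈ (T.base v).U b)
    (e : (T.base v).c a (sc (lm L) a v • x) = (T.base v).c b (sc (lm L) b v • z)) :
    sc (lm L) a v • x ∈ KB T v a ∧ T.r / 3 ≤ sc (lm L) a v * scl T a x ∧
      sc (lm L) a v * scl T a x ≤ 3 := by
  have hr := h.r_lt
  have hr0 := h.r_pos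
  rcases a with a | w
  · simp only [sc, Sum.elim_inl, one_smul, scl, mul_one] at h1 ⊢
    exact ⟨⟨(mem_base_inl.1 h1).1, hx⟩, by linarith, by norm_num⟩
  rcases b with b | w'
  · simp only [sc, Sum.elim_inl, one_smul, Sum.elim_inr, scl] at h1 h2 e ⊢
    obtain ⟨rfl, h3⟩ := mem_base_inl.1 h2
    have nf := h.not_far h3 h1 e.symm
    have hn : lm L w (T.vx b) * ‖x‖ = ‖lm L w (T.vx b) • x‖ := by
      rw [norm_smul, Real.norm_of_nonneg (by unfold lm; split_ifs <;> positivity)]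
    rw [hn]
    by_cases hw : w = T.vx b
    · have a1 : ‖lm L w (T.vx b) • x‖ ≤ 3 := le_of_not_ge fun k => nf ⟨fun _ => k, fun k' => absurd hw k'⟩
      have a2 : 5 / 4 ≤ ‖lm L w (T.vx b) • x‖ := by simpa [lm, hw] using hx.1
      exact ⟨Or.inl ⟨hw, a2, a1⟩, by linarith, a1⟩
    · have a1 : T.r / 3 ≤ ‖lm L w (T.vx b) • x‖ :=
        le_of_not_ge fun k => nf ⟨fun k' => absurd k' hw, fun _ => k⟩
      have hk := ((mem_base_inn hw).1 h1).1
      have a2 : ‖lm L w (T.vx b) • x‖ ≤ 7 / 8 * T.r := by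
        rw [lm, if_neg hw]; exact nrm_exp_le.2 (hx.2 hk.1)
      exact ⟨Or.inr ⟨hw, hk, a1, a2⟩, a1, by linarith⟩
  · exact absurd e (h.disj v w w' (fun k => hab (by rw [k])) _ h1 _ h2)

/-- uniform changes of charts in `glob L` -/
theorem leb (h : T.Ok) {ρ : ℝ} (hρ : 0 < ρ) : ∃ δ : ℝ, 0 < δ ∧ ∀ L, T.Long L → ∀ a b,
    ∀ x1 ∈ gW T L a, ∀ z ∈ gW T L b, (T.glob L).c a x1 = (T.glob L).c b z →
    ∀ x ∈ (T.glob L).U a, ‖x - x1‖ ≤ δ * scl T a x1 →
      ∃ x' ∈ (T.glob L).U b, ‖x' - z‖ ≤ ρ * scl T b z ∧ (T.glob L).c b x' = (T.glob L).c a x := by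
  have hr0 := h.r_pos
  obtain ⟨δ, hδ, hb⟩ := Metric.eventually_nhds_iff.1 (eventually_all.2 fun i : T.V × T.S × T.S =>
    leb0 (h.base i.1) (KB_cpt h i.1 i.2.1) (KB_cpt h i.1 i.2.2) (KB_sub h _ _) (KB_sub h _ _)
      (ρ := ρ * (T.r / 3)) (by positivity))
  refine ⟨min ρ (δ / 4), lt_min hρ (by positivity), fun L hL a b x1 hx1 z hz e x hx hd => ?_⟩
  have hS := h.str_glob hL
  have s1 := scl_ge (gW_sub h a hx1)
  by_cases hab : a = b
  · subst hab
    obtain ⟨γ, hγ, rfl⟩ := (hS.fib h (gW_sub h a hx1) (gW_sub h a hz)).1 e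
    refine ⟨γ x, (hS.inv' hγ hx).1, ?_, (hS.inv' hγ hx).2⟩
    rw [← map_sub, γ.norm_map, scl_iso]
    exact hd.trans (mul_le_mul_of_nonneg_right (min_le_left _ _) (by linarith))
  rcases hS.rel (gW_sub h a hx1) (gW_sub h b hz) e with ⟨v, -, h1, h2, e'⟩ | h1
  swap
  · exact absurd h1.1 hab
  obtain ⟨k1, -, k2⟩ := mem_KB h hab hx1 h1 h2 e'
  obtain ⟨k3, k4, -⟩ := mem_KB h (Ne.symm hab) hz h2 h1 e'.symm
  have pa := hS.sc_pos a v
  have pb := hS.sc_pos b v
  obtain ⟨m1, x', m2, m3, m4⟩ := hb (y := sc (lm L) a v • (x - x1)) (by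
    rw [dist_zero_right, norm_smul, Real.norm_of_nonneg pa.le]
    have a1 : ‖x - x1‖ ≤ δ / 4 * scl T a x1 :=
      hd.trans (mul_le_mul_of_nonneg_right (min_le_right _ _) (by linarith))
    have a2 := mul_le_mul_of_nonneg_left a1 pa.le
    have a3 := mul_le_mul_of_nonneg_left k2 hδ.le
    linarith) (v, a, b) (_, _) ⟨k1, k3⟩ e'
  simp only [← smul_add, add_sub_cancel] at m1 m3 m4
  have e2 : sc (lm L) b v • (sc (lm L) b v)⁻¹ • x' = x' := smul_inv_smul₀ pb.ne' _
  obtain ⟨n1, n2⟩ := hS.conv' (x := (sc (lm L) b v)⁻¹ • x') trivial (e2.symm ▸ m2)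
  refine ⟨_, n1, ?_, by rw [n2, e2, m4, (hS.conv' trivial m1).2]⟩
  rw [← e2, ← smul_sub, norm_smul, Real.norm_of_nonneg pb.le] at m3
  refine le_of_mul_le_mul_left (m3.trans ?_) pb
  nlinarith [mul_le_mul_of_nonneg_left k4 hρ.le]

/-- quantitative freeness -/
theorem exists_free (h : T.Ok) : ∃ c : ℝ, 0 < c ∧ ∀ s, ∀ γ ∈ T.grp s, ∀ z : E4,
    ‖γ z - z‖ < c * scl T s z → γ = 1 := by
  have h1 : ∀ i : Σ w, T.Γ w, ∀ᶠ c in 𝓝[>] (0 : ℝ), ∀ z : E4, ‖i.2.1 z - z‖ < c * ‖z‖ → i.2.1 = 1 := by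
    rintro ⟨w, γ, hγ⟩
    by_cases h0 : γ = 1
    · exact Eventually.of_forall fun _ _ _ => h0
    obtain ⟨K, hK, hA⟩ := LinearMap.exists_antilipschitzWith
      ((γ.toLinearEquiv : E4 →ₗ[ℝ] E4) - LinearMap.id) (LinearMap.ker_eq_bot'.2 fun z hz => by
        by_contra k
        exact h0 (h.free w γ hγ z k (sub_eq_zero.1 hz)))
    filter_upwards [Ioc_mem_nhdsGT (show (0 : ℝ) < K⁻¹ by positivity)] with c hc z hz
    have a1 : ‖z‖ ≤ K * ‖γ z - z‖ := ZeroHomClass.bound_of_antilipschitz _ hA z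
    have a2 : c * K ≤ 1 := by
      have := hc.2
      rwa [← le_div_iff₀ (by exact_mod_cast hK), one_div]
    have a3 := mul_le_mul_of_nonneg_left a1 hc.1.le
    have a4 := mul_le_mul_of_nonneg_right a2 (norm_nonneg (γ z - z))
    exact absurd hz (by simp only [not_lt]; linarith)
  have := h.fin
  obtain ⟨c, h2, hc⟩ := ((eventually_all.2 h1).and self_mem_nhdsWithin).exists
  refine ⟨c, hc, ?_⟩
  rintro (a | w) γ hγ z hz
  exacts [Subgroup.mem_bot.1 hγ, h2 ⟨w, γ, hγ⟩ z hz]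

theorem exists_gK (h : T.Ok) (hL : T.Long L) {b : T.S} {y : E4} (hy : y ∈ (T.glob L).U b) :
    ∃ s, ∃ z ∈ T.gK L s, (T.glob L).c s z = (T.glob L).c b y := by
  have hP := h.glob_pou hL
  obtain ⟨s, -, hs⟩ := Finset.exists_ne_zero_of_sum_ne_zero
    ((hP.sum b y hy).trans_ne one_ne_zero)
  exact ⟨s, hP.supp s b y hy hs⟩

section
variable {ε : ℝ} {u : T.S → E4 → E4} (n : NearId T L ε u)
include n

theorem NearId.val {s : T.S} {x : E4} (hx : x ∈ gU T L 1 s) : ‖u s x - x‖ ≤ ε * scl T s x := by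
  simpa [norm_iteratedFDeriv_zero] using n.jet s x hx 0 (by norm_num)




end


end Crest.Agent.N207.Ga

end
end

-- ▼ part N207/N/Int2
section

/-!
# Row 207, leaf INT (helper17), part 2: the lengths are comparable; changes of charts in two atlases
-/

set_option autoImplicit false

open scoped ContDiff NNReal
open Metric Set Filter Topology
open Crest.Agent.N207.I Crest.Agent.N207.I.TD Crest.Agent.N207.CB Crest.Agent.N207.Ga

noncomputable section

namespace Crest.Agent.N207.NS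

variable {M : Type*} {T : TD M} {L L' : T.V → ℝ}

theorem W1_gW (h : T.Ok) (s : T.S) : W1 T L s ⊆ gW T L s := by
  rcases s with a | w
  · exact fun x hx => (mem_W1_inl.1 hx).le.trans (by norm_num)
  · have := mul_pos h.r_pos (Real.exp_pos (L w))
    exact fun x hx => ⟨by linarith [hx.1], fun hw => by linarith [hx.2 hw]⟩

theorem NId.val0 {δ : ℝ} {u : T.S → E4 → E4} (n : NId T L L' δ u) {s : T.S} {x : E4}
    (hx : x ∈ U1 T L s) : ‖u s x - x‖ ≤ δ * scl T s x := by
  simpa [norm_iteratedFDeriv_zero] using n.near s x hx 0 (by norm_num)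

/-- a point of the inner collar that lies in a ball chart -/
theorem exists_pt (h : T.Ok) {w : T.V} (hw : w ≠ T.root) : ∃ (p : E4) (b : T.B) (y : E4),
    ‖p‖ = 5 / 8 * T.r ∧ ‖y‖ < 1 ∧ T.vx b = T.par w ∧ T.φ b y = T.ci w p := by
  have hr := h.r_pos
  have hp : ‖(EuclideanSpace.single 0 (5 / 8 * T.r) : E4)‖ = 5 / 8 * T.r := by
    rw [PiLp.norm_single, Real.norm_of_nonneg (by positivity)]
  set p : E4 := EuclideanSpace.single 0 (5 / 8 * T.r)
  have hn := h.par_ne hw
  have hU : p ∈ (T.base (T.par w)).U (Sum.inr w) :=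
    (mem_base_inn hn).2 ⟨⟨hw, rfl⟩, by linarith, by linarith⟩
  rcases h.cover _ _ p hU with ⟨b, hb, y, hy, e⟩ | ⟨y, h1, h2, e⟩ | ⟨w', hk, y, h1, h2, e⟩
  · exact ⟨p, b, y, hp, mem_ball_zero_iff.1 hy, hb, e.trans (by rw [base_c_inn hn])⟩
  · exact absurd (by rwa [base_c_out]) (h.disj (T.par w) (T.par w) w hn.symm y
      (mem_base_out.2 ⟨by linarith, h2⟩) p hU)
  · have hy : y ∈ (T.base (T.par w)).U (Sum.inr w') :=
      (mem_base_inn (h.kid_ne hk)).2 ⟨hk, h1, by linarith⟩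
    have e' : (T.base (T.par w)).c (Sum.inr w') y = (T.base (T.par w)).c (Sum.inr w) p := by
      rwa [base_c_inn (h.kid_ne hk)]
    by_cases hw' : w' = w
    · subst hw'
      obtain ⟨γ, -, e2⟩ := ((h.base _).fib _ y hy p hU).1 e'
      have := γ.norm_map y
      rw [e2, hp] at this
      linarith
    · exact absurd e' (h.disj _ w' w hw' y hy p hU)

/-- the lengths are comparable -/
theorem ratio (h : T.Ok) {ε : ℝ} (hε : 0 < ε) (hε1 : ε ≤ 1) : ∃ δ0 : ℝ, 0 < δ0 ∧
    ∀ (L L' : T.V → ℝ) (δ : ℝ) (u : T.S → E4 → E4), T.Long L → T.Long L' → δ ≤ δ0 →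
      NId T L L' δ u → ∀ w, w ≠ T.root →
        |Real.exp (L' w) - Real.exp (L w)| ≤ ε * Real.exp (L w) := by
  obtain ⟨δ1, hδ1, hleb⟩ := leb h (ρ := ε / 4) (by positivity)
  refine ⟨min δ1 (ε / 4), lt_min hδ1 (by positivity), fun L L' δ u hL hL' hδ n w hw => ?_⟩
  have d1 : δ ≤ δ1 := hδ.trans (min_le_left _ _)
  have d2 : δ ≤ ε / 4 := hδ.trans (min_le_right _ _)
  obtain ⟨p, b, y, hp, hy, hb, e⟩ := exists_pt h hw
  have hr := h.r_pos
  have key : ∀ L : T.V → ℝ, T.Long L → ‖Real.exp (L w) • p‖ = 5 / 8 * (T.r * Real.exp (L w)) ∧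
      Real.exp (L w) • p ∈ U1 T L (Sum.inr w) ∧
      (T.glob L).c (Sum.inl b) y = (T.glob L).c (Sum.inr w) (Real.exp (L w) • p) := by
    intro L hL
    have a1 : ‖Real.exp (L w) • p‖ = 5 / 8 * (T.r * Real.exp (L w)) := by
      rw [norm_smul, Real.norm_of_nonneg (Real.exp_pos _).le, hp]; ring
    have a2 : Real.exp (-L w) • Real.exp (L w) • p = p := by
      rw [smul_smul, ← Real.exp_add, neg_add_cancel, Real.exp_zero, one_smul]
    have a3 := hL w hw
    refine ⟨a1, ⟨by linarith, fun _ => by linarith⟩, ?_⟩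
    rw [glob_c_inn hL hw (by rw [a2]; linarith), a2, glob_c_inl, hb, e]
  obtain ⟨x1, x2, x3⟩ := key L hL
  obtain ⟨z1, z2, z3⟩ := key L' hL'
  have hy1 : ∀ L : T.V → ℝ, y ∈ U1 T L (Sum.inl b) := fun L => mem_U1_inl.2 (by linarith)
  have c1 := n.compat _ _ y (hy1 L) _ x2 x3
  have v1 := n.val0 (hy1 L)
  have v2 := n.val0 x2
  obtain ⟨x', b1, b2, b3⟩ := hleb L' hL' (Sum.inl b) (Sum.inr w) y
    (W1_gW h _ (U1_W1 h _ (hy1 L'))) _ (W1_gW h _ (U1_W1 h _ z2)) z3 _
    (W1_U h _ (n.maps _ (hy1 L))) (v1.trans (by simpa [scl] using d1))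
  obtain ⟨γ, -, eγ⟩ := ((h.glob_ok hL').fib _ x' b1 _ (W1_U h _ (n.maps _ x2))).1 (b3.trans c1)
  have g1 := γ.norm_map x'
  rw [eγ] at g1
  simp only [scl, Sum.elim_inr] at v2 b2
  have n1 := abs_le.1 ((abs_norm_sub_norm_le _ _).trans v2)
  have n2 := abs_le.1 ((abs_norm_sub_norm_le _ _).trans b2)
  rw [g1, x1] at n1
  rw [z1] at n2
  have E0 := Real.exp_pos (L w)
  have E1 := Real.exp_pos (L' w)
  set E := Real.exp (L w)
  set E' := Real.exp (L' w)
  have q0 : δ * (5 / 8 * (T.r * E)) ≤ ε / 4 * (5 / 8 * (T.r * E)) := by gcongr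
  have q1 : (1 - ε / 4) * E' ≤ (1 + ε / 4) * E :=
    le_of_mul_le_mul_left (a := T.r) (by linarith [n1.2, n2.1]) hr
  have q2 : (1 - ε / 4) * E ≤ (1 + ε / 4) * E' :=
    le_of_mul_le_mul_left (a := T.r) (by linarith [n1.1, n2.2]) hr
  have q3 : E' ≤ 2 * E := by nlinarith
  exact abs_le.2 ⟨by nlinarith, by nlinarith⟩

theorem sc_rat {ε : ℝ} (hε : 0 ≤ ε)
    (hR : ∀ w, w ≠ T.root → |Real.exp (L' w) - Real.exp (L w)| ≤ ε * Real.exp (L w))
    {a : T.S} {v : T.V} {y : E4} (hy : y ∈ (T.base v).U a) :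
    |sc (lm L) a v - sc (lm L') a v| ≤ ε * sc (lm L') a v := by
  rcases a with a | w
  · simpa [sc] using hε
  by_cases hw : w = v
  · simpa [sc, lm, hw] using hε
  have h1 := hR w ((mem_base_inn hw).1 hy).1.1
  have E0 := Real.exp_pos (L w)
  have E1 := Real.exp_pos (L' w)
  simp only [sc, Sum.elim_inr, lm, if_neg hw, Real.exp_neg]
  rw [inv_sub_inv E0.ne' E1.ne', abs_div, abs_of_pos (mul_pos E0 E1), div_le_iff₀ (mul_pos E0 E1)]
  refine h1.trans_eq ?_
  field_simp

theorem nrm_le_scl {s : T.S} {x : E4} (hx : x ∈ gW T L s) : ‖x‖ ≤ 2 * scl T s x := by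
  rcases s with a | w
  · have : ‖x‖ ≤ 7 / 4 := hx
    simp only [scl, Sum.elim_inl]; linarith
  · simp only [scl, Sum.elim_inr]; linarith [norm_nonneg x]

/-- uniform changes of charts, from `glob L'` to `glob L` -/
theorem leb2 (h : T.Ok) {ρ : ℝ} (hρ : 0 < ρ) : ∃ δ : ℝ, 0 < δ ∧ δ ≤ 1 / 100 ∧ ∀ L L', T.Long L →
    T.Long L' → (∀ w, w ≠ T.root → |Real.exp (L' w) - Real.exp (L w)| ≤ δ * Real.exp (L w)) →
    ∀ a b, ∀ x1 ∈ gW T L' a, ∀ z ∈ gW T L' b, (T.glob L').c a x1 = (T.glob L').c b z →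
    ∀ x ∈ (T.glob L).U a, ‖x - x1‖ ≤ δ * scl T a x1 →
      ∃ x' ∈ (T.glob L).U b, ‖x' - z‖ ≤ ρ * scl T b z ∧ (T.glob L).c b x' = (T.glob L).c a x := by
  have hr0 := h.r_pos
  obtain ⟨δ, hδ, hb⟩ := Metric.eventually_nhds_iff.1 (eventually_all.2 fun i : T.V × T.S × T.S =>
    leb0 (h.base i.1) (KB_cpt h i.1 i.2.1) (KB_cpt h i.1 i.2.2) (KB_sub h _ _) (KB_sub h _ _)
      (ρ := ρ / 4 * (T.r / 3)) (by positivity))
  obtain ⟨η, η0, η1, η2, η3⟩ : ∃ η : ℝ, 0 < η ∧ η ≤ ρ / 8 ∧ η ≤ δ / 13 ∧ η ≤ 1 / 100 :=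
    ⟨min (ρ / 8) (min (δ / 13) (1 / 100)), by positivity, min_le_left _ _,
      (min_le_right _ _).trans (min_le_left _ _), (min_le_right _ _).trans (min_le_right _ _)⟩
  refine ⟨η, η0, η3, fun L L' hL hL' hR a b x1 hx1 z hz e x hx hd => ?_⟩
  have hS := h.str_glob hL
  have hS' := h.str_glob hL'
  have s1 := scl_ge (gW_sub h a hx1)
  have s2 := scl_ge (gW_sub h b hz)
  by_cases hab : a = b
  · subst hab
    obtain ⟨γ, hγ, rfl⟩ := (hS'.fib h (gW_sub h a hx1) (gW_sub h a hz)).1 e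
    refine ⟨γ x, (hS.inv' hγ hx).1, ?_, (hS.inv' hγ hx).2⟩
    rw [← map_sub, γ.norm_map, scl_iso]
    exact hd.trans (mul_le_mul_of_nonneg_right (by linarith) (by linarith))
  rcases hS'.rel (gW_sub h a hx1) (gW_sub h b hz) e with ⟨v, -, h1, h2, e'⟩ | h1
  swap
  · exact absurd h1.1 hab
  obtain ⟨k1, -, k2⟩ := mem_KB h hab hx1 h1 h2 e'
  obtain ⟨k3, k4, -⟩ := mem_KB h (Ne.symm hab) hz h2 h1 e'.symm
  have pa := hS.sc_pos a v
  have pb := hS.sc_pos b v
  have pa' := hS'.sc_pos a v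
  have pb' := hS'.sc_pos b v
  have ra := sc_rat η0.le hR h1
  have rb := sc_rat η0.le hR h2
  have na := nrm_le_scl hx1
  have nb := nrm_le_scl hz
  set A := sc (lm L) a v
  set A' := sc (lm L') a v
  set B := sc (lm L) b v with hB
  set B' := sc (lm L') b v
  obtain ⟨m1, x', m2, m3, m4⟩ := hb (y := A • x - A' • x1) (by
    have a0 : A • x - A' • x1 = A • (x - x1) + (A - A') • x1 := by module
    have a1 := norm_add_le (A • (x - x1)) ((A - A') • x1)
    rw [norm_smul, norm_smul, Real.norm_of_nonneg pa.le, Real.norm_eq_abs] at a1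
    have a2 : A ≤ 2 * A' := by nlinarith [(abs_le.1 ra).2]
    have a3 : A * ‖x - x1‖ ≤ 2 * A' * (η * scl T a x1) := by gcongr
    have a4 : |A - A'| * ‖x1‖ ≤ η * A' * (2 * scl T a x1) := by gcongr
    have a5 := mul_le_mul_of_nonneg_left k2 η0.le
    rw [dist_zero_right, a0]
    linarith) (v, a, b) (_, _) ⟨k1, k3⟩ e'
  simp only [add_sub_cancel] at m1 m3 m4
  have e2 : B • B⁻¹ • x' = x' := smul_inv_smul₀ pb.ne' _
  obtain ⟨n1, n2⟩ := hS.conv' (x := B⁻¹ • x') trivial (e2.symm ▸ m2)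
  refine ⟨_, n1, ?_, by rw [n2, ← hB, e2, m4, (hS.conv' trivial m1).2]⟩
  have a0 : B • (B⁻¹ • x' - z) = (x' - B' • z) - (B - B') • z := by
    rw [smul_sub, e2]; module
  have a1 := norm_sub_le (x' - B' • z) ((B - B') • z)
  rw [← a0, norm_smul, norm_smul, Real.norm_of_nonneg pb.le, Real.norm_eq_abs] at a1
  have a2 : B' ≤ 2 * B := by nlinarith [(abs_le.1 rb).1]
  have a3 : |B - B'| * ‖z‖ ≤ ρ / 8 * B' * (2 * scl T b z) := by
    gcongr; exact rb.trans (by gcongr)
  have a4 := mul_le_mul_of_nonneg_left k4 hρ.le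
  have a5 : ρ * (B' * scl T b z) ≤ ρ * (2 * B * scl T b z) := by gcongr
  exact le_of_mul_le_mul_left (by linarith) pb

end Crest.Agent.N207.NS

end
end

-- ▼ part N207/N/Int3
section

/-!
# Row 207, leaf INT (helper17): near identity families are diffeomorphisms; invariance of integrals
-/

set_option autoImplicit false

open scoped ContDiff NNReal
open Metric Set Filter Topology
open Crest.GeometryTopology.CoordMetric
open Crest.Agent.N207.I Crest.Agent.N207.I.TD Crest.Agent.N207.CB Crest.Agent.N207.Ga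

noncomputable section

namespace Crest.Agent.N207.NS

variable {M : Type*} {T : TD M} {L L' : T.V → ℝ}

theorem cell_U1 (h : T.Ok) (hR : ∀ w, w ≠ T.root → Real.exp (L' w) ≤ 101 / 100 * Real.exp (L w))
    {s : T.S} {z : E4} (hz : z ∈ T.gK L' s) : ball z (scl T s z / 32) ⊆ U1 T L s := by
  intro x hx
  rw [mem_ball, dist_eq_norm] at hx
  have h1 := norm_le_norm_add_norm_sub' x z
  have h2 := norm_le_norm_add_norm_sub x z
  rcases s with a | w
  · simp only [scl, Sum.elim_inl] at hx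
    exact mem_U1_inl.2 (by linarith [mem_gK_inl.1 hz])
  · simp only [scl, Sum.elim_inr] at hx
    refine ⟨by linarith [hz.1], fun hw => ?_⟩
    have a1 := mul_le_mul_of_nonneg_left (hR w hw) h.r_pos.le
    have a2 := mul_pos h.r_pos (Real.exp_pos (L w))
    linarith [hz.2 hw]

section
variable {ε : ℝ} {u : T.S → E4 → E4} (n : NId T L L' ε u)
include n

theorem NId.diff0 {s : T.S} {x : E4} (hx : x ∈ U1 T L s) : DifferentiableAt ℝ (u s) x :=
  ((n.sm s).contDiffAt ((U1_open s).mem_nhds hx)).differentiableAt (by simp)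

theorem NId.der0 (h : T.Ok) {s : T.S} {x : E4} (hx : x ∈ U1 T L s) :
    ‖fderiv ℝ (fun y => u s y - y) x‖ ≤ ε := by
  have h1 := n.near s x hx 1 (by norm_num)
  have h2 := scl_ge (U1_U h s hx)
  rw [pow_one, norm_iteratedFDeriv_one, mul_comm] at h1
  exact le_of_mul_le_mul_right h1 (by linarith)

theorem NId.lip0 (h : T.Ok) {s : T.S} {B : Set E4} (hB : Convex ℝ B) (hU : B ⊆ U1 T L s) {x y : E4}
    (hx : x ∈ B) (hy : y ∈ B) : ‖(u s y - y) - (u s x - x)‖ ≤ ε * ‖y - x‖ :=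
  hB.norm_image_sub_le_of_norm_fderiv_le (f := fun y => u s y - y)
    (fun _ hw => (n.diff0 (hU hw)).fun_sub differentiableAt_fun_id)
    (fun _ hw => n.der0 h (hU hw)) hx hy

end

/-- near identity families are diffeomorphisms `gl1 L → glob L'` -/
theorem nid_diffeo (h : T.Ok) : ∃ ε0 : ℝ, 0 < ε0 ∧ ∀ (L L' : T.V → ℝ) (ε : ℝ) (u : T.S → E4 → E4),
    T.Long L → T.Long L' → ε ≤ ε0 → NId T L L' ε u → Atl.Mor (gl1 T L) (T.glob L') id u ∧
      Atl.MInj (gl1 T L) (T.glob L') id u ∧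
      ∀ s, ∀ y ∈ (T.glob L').U s, (T.glob L').c s y ∈ Atl.img (gl1 T L) (T.glob L') id u := by
  obtain ⟨c, hc, hfree⟩ := exists_free h
  obtain ⟨δ, hδ, hδ1, hleb⟩ := leb2 h (ρ := min (c / 4) (1 / 64))
    (lt_min (by positivity) (by norm_num))
  obtain ⟨δ0, hδ0, hrat⟩ := ratio h hδ (by linarith)
  refine ⟨min (min (δ / 2) (c / 4)) (min (1 / 128) δ0), by positivity,
    fun L L' ε u hL hL' hε n => ?_⟩
  have e1 : ε ≤ δ / 2 := hε.trans ((min_le_left _ _).trans (min_le_left _ _))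
  have e2 : ε ≤ c / 4 := hε.trans ((min_le_left _ _).trans (min_le_right _ _))
  have e3 : ε ≤ 1 / 128 := hε.trans ((min_le_right _ _).trans (min_le_left _ _))
  have hR := hrat L L' ε u hL hL' (hε.trans ((min_le_right _ _).trans (min_le_right _ _))) n
  have hR' : ∀ w, w ≠ T.root → Real.exp (L' w) ≤ 101 / 100 * Real.exp (L w) := fun w hw => by
    nlinarith [(abs_le.1 (hR w hw)).2, Real.exp_pos (L w)]
  have hO := h.glob_ok hL'
  have hm : ∀ s, ∀ x ∈ U1 T L s, u s x ∈ (T.glob L').U s := fun s x hx => W1_U h s (n.maps s hx)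
  refine ⟨⟨hm, n.sm, fun s x hx => ?_, fun a b x hx y hy e => n.compat a b x hx y hy e⟩,
    fun a b x hx y hy e => ?_, fun b y hy => ?_⟩
  · refine (injective_iff_map_eq_zero _).2 fun v hv => ?_
    have h1 := (fderiv ℝ (fun y => u s y - y) x).le_of_opNorm_le (n.der0 h hx) v
    rw [fderiv_fun_sub (n.diff0 hx) differentiableAt_fun_id, fderiv_fun_id] at h1
    simp only [sub_apply, hv, ContinuousLinearMap.id_apply, zero_sub, norm_neg] at h1
    exact norm_le_zero_iff.1 (by nlinarith [norm_nonneg v])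
  · obtain ⟨s, z, hz, ez⟩ := exists_gK h hL' (hm a x hx)
    have sz := scl_ge (gW_sub h s (gK_sub_gW h s hz))
    have key : ∀ a, ∀ x ∈ U1 T L a, (T.glob L').c s z = (T.glob L').c a (u a x) →
        ∃ x' ∈ ball z (scl T s z / 32), u s x' = z ∧ (T.glob L).c s x' = (T.glob L).c a x := by
      intro a x hx ez
      have a0 := scl_ge (U1_U h a hx)
      have a1 := n.val0 hx
      have a2 : ‖u a x - x‖ ≤ 1 / 128 * scl T a x := a1.trans (by gcongr)
      have a3 := scl_lip (T := T) a x (u a x)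
      rw [norm_sub_rev] at a3
      obtain ⟨x', b1, b2, b3⟩ := hleb L L' hL hL' hR a s _ (W1_gW h a (n.maps a hx)) z
        (gK_sub_gW h s hz) ez.symm x (U1_U h a hx)
        (by rw [norm_sub_rev]; refine a1.trans ?_; nlinarith)
      have b4 : ‖x' - z‖ ≤ c / 4 * scl T s z := b2.trans (by gcongr; exact min_le_left _ _)
      have b5 : ‖x' - z‖ ≤ 1 / 64 * scl T s z := b2.trans (by gcongr; exact min_le_right _ _)
      have b6 : x' ∈ ball z (scl T s z / 32) := by rw [mem_ball, dist_eq_norm]; linarith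
      have b7 := cell_U1 h hR' hz b6
      obtain ⟨γ, hγ, eγ⟩ := (hO.fib s z (gW_sub h s (gK_sub_gW h s hz)) _ (hm s x' b7)).1
        (ez.trans (n.compat s a x' b7 x hx b3).symm)
      have b8 := n.val0 b7
      have b9 := scl_lip (T := T) s x' z
      have b10 := norm_sub_le_norm_sub_add_norm_sub (u s x') x' z
      have b11 : ε * scl T s x' ≤ c / 4 * scl T s x' := by gcongr; linarith [scl_ge b1]
      have : γ = 1 := hfree s γ hγ z (by rw [eγ]; nlinarith)
      subst this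
      exact ⟨x', b6, eγ.symm, b3⟩
    obtain ⟨x', p1, p2, p3⟩ := key a x hx ez
    obtain ⟨y', q1, q2, q3⟩ := key b y hy (ez.trans e)
    have h1 := n.lip0 h (convex_ball _ _) (cell_U1 h hR' hz) p1 q1
    rw [p2, q2, sub_sub_sub_cancel_left, norm_sub_rev] at h1
    have h2 : y' = x' := sub_eq_zero.1 (norm_le_zero_iff.1 (by nlinarith [norm_nonneg (y' - x')]))
    exact p3.symm.trans (h2 ▸ q3)
  · obtain ⟨s, z, hz, ez⟩ := exists_gK h hL' hy
    have sz := scl_ge (gW_sub h s (gK_sub_gW h s hz))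
    have hb : closedBall z (scl T s z / 64) ⊆ U1 T L s :=
      (closedBall_subset_ball (by linarith)).trans (cell_U1 h hR' hz)
    have hm : MapsTo (fun x => z - (u s x - x)) (closedBall z (scl T s z / 64))
        (closedBall z (scl T s z / 64)) := fun x hx => by
      have a1 := n.val0 (hb hx)
      have a2 := scl_lip (T := T) s x z
      have a3 : ε * scl T s x ≤ 1 / 128 * scl T s x := by
        gcongr; linarith [scl_ge (U1_U h s (hb hx))]
      rw [mem_closedBall, dist_eq_norm] at hx ⊢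
      rw [sub_sub_cancel_left, norm_neg]
      linarith
    obtain ⟨x, hx, hf, -⟩ := ContractingWith.exists_fixedPoint' (K := 1 / 2)
      isClosed_closedBall.isComplete hm ⟨by norm_num, LipschitzWith.of_dist_le_mul fun p q => by
        have := n.lip0 h (convex_closedBall _ _) hb p.2 q.2
        rw [Subtype.dist_eq, Subtype.dist_eq, dist_eq_norm, dist_eq_norm, MapsTo.val_restrict_apply,
          MapsTo.val_restrict_apply, sub_sub_sub_cancel_left, norm_sub_rev p.1]
        push_cast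
        nlinarith [norm_nonneg (q.1 - p.1)]⟩ (mem_closedBall_self (by linarith)) (edist_ne_top _ _)
    have : u s x = z := by
      have h1 : z - (u s x - x) = x := hf
      rw [sub_eq_iff_eq_add, add_sub_cancel] at h1
      exact h1.symm
    exact ⟨s, x, hb hx, (congrArg _ this).trans ez⟩

theorem matT_pm0 (u : E4 → E4) (H : MetricField 4) (x : E4) :
    matT (pm u H) x = pullT u (matT H) x := by
  funext I
  show pullT u (matT H) x ![I 0, I 1] = _
  congr 1
  funext i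
  fin_cases i <;> rfl

/-- **INT** -/
theorem int' (h : T.Ok) : INT T := by
  obtain ⟨ε0, hε0, hd⟩ := nid_diffeo h
  refine ⟨ε0, 16 / T.r, hε0, fun L L' hL hL' u n H f hH hf hi => ?_⟩
  have l : T.Long L := fun w hw => lng_exp h hL hw
  have l' : T.Long L' := fun w hw => lng_exp h hL' hw
  obtain ⟨m, mi, mo⟩ := hd L L' ε0 u l l' le_rfl n
  exact m.int_eq' (gl1_ok h l) (h.glob_ok l') mi hH (fun s x _ => matT_pm0 (u s) (H s) x)
    (gl1_pou h l) (h.glob_pou l') hf mo hi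

theorem int {g : T.V → Fam T} (h : Std T g) : INT T := int' h.ok

end Crest.Agent.N207.NS

end
end

-- ▼ part N207/N/Pl2
section

/-!
# Row 207, block N (helper16): the leaf `PULL2`
-/

set_option autoImplicit false

open scoped ContDiff Topology
open Metric Set Filter MeasureTheory
open Crest.GeometryTopology.CoordMetric
open Crest.Agent.N207.I Crest.Agent.N207.Lg Crest.Agent.N207.CB

noncomputable section

namespace Crest.Agent.N207.NS

namespace P2

theorem pm_eq (u : E4 → E4) (H : MetricField 4) (x : E4) (p q : Fin 4) : pm u H x p q =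
    ∑ i, ∑ j, fderiv ℝ u x (EuclideanSpace.single p 1) i *
      fderiv ℝ u x (EuclideanSpace.single q 1) j * H (u x) i j := by
  rw [pm, Matrix.of_apply, pullT, evT, ← (finTwoArrowEquiv (Fin 4)).symm.sum_comp,
    Fintype.sum_prod_type]
  refine Finset.sum_congr rfl fun i _ => Finset.sum_congr rfl fun j _ => ?_
  simp [Fin.prod_univ_two, finTwoArrowEquiv, matT]

variable {M : Type*} {T : TD M} {L L' : T.V → ℝ} {δ : ℝ} {u : T.S → E4 → E4} {s : T.S} {x : E4}

theorem scl_pos (hx : x ∈ U1 T L s) : 0 < scl T s x := by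
  cases s
  exacts [one_pos, lt_trans (by norm_num) hx.1]

theorem near0 (h : NId T L L' δ u) (hx : x ∈ U1 T L s) : ‖u s x - x‖ ≤ δ * scl T s x := by
  simpa using h.near s x hx 0 (by norm_num)

theorem dAt (h : NId T L L' δ u) (hx : x ∈ U1 T L s) : DifferentiableAt ℝ (u s) x :=
  ((h.sm s).contDiffAt ((U1_open s).mem_nhds hx)).differentiableAt (by simp)

theorem near1 (h : NId T L L' δ u) (hx : x ∈ U1 T L s) (p i : Fin 4) :
    |fderiv ℝ (u s) x (EuclideanSpace.single p 1) i - if i = p then 1 else 0| ≤ δ := by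
  have h1 := h.near s x hx 1 (by norm_num)
  rw [pow_one, norm_iteratedFDeriv_one, mul_comm, mul_le_mul_iff_left₀ (scl_pos hx),
    show fderiv ℝ (fun y => u s y - y) x = _ from
      ((dAt h hx).hasFDerivAt.sub (hasFDerivAt_id x)).fderiv] at h1
  have h2 := (PiLp.norm_apply_le ((fderiv ℝ (u s) x - ContinuousLinearMap.id ℝ E4)
    (EuclideanSpace.single p 1)) i).trans
    ((fderiv ℝ (u s) x - ContinuousLinearMap.id ℝ E4).le_opNorm _)
  simpa using h2.trans (by simpa using h1)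

theorem ball_W1 (hx : x ∈ U1 T L s) {z : E4} (hz : ‖z - x‖ ≤ 1 / 16 * scl T s x) :
    z ∈ W1 T L s ∧ scl T s x ≤ 2 * scl T s z := by
  have h1 := norm_sub_norm_le z x
  have h2 := norm_sub_norm_le x z
  rw [norm_sub_rev] at h2
  cases s with
  | inl a =>
    rw [mem_U1_inl] at hx
    simp only [scl, Sum.elim_inl] at hz ⊢
    exact ⟨mem_W1_inl.2 (by linarith), by norm_num⟩
  | inr w =>
    simp only [scl, Sum.elim_inr] at hz ⊢
    exact ⟨⟨by linarith [hx.1], fun hw => by linarith [hx.1, hx.2 hw]⟩, by linarith [hx.1]⟩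

theorem log_le {a b : ℝ} (ha : 0 < a) (h : a ≤ 2 * b) : Real.log a ≤ Real.log b + 1 := by
  have h1 := Real.log_le_log ha h
  rw [Real.log_mul two_ne_zero (by linarith)] at h1
  linarith [Real.log_le_sub_one_of_pos two_pos]

end P2

open P2

theorem pull2 {M : Type*} (T : TD M) : PULL2 T := by
  refine ⟨1 / 16, 64, 0, by norm_num, by norm_num, fun L L' _ _ δ u hδ h X P s =>
    ⟨fun hX a b => ?_, fun x hx hP a b => ?_, ?_, ?_⟩⟩
  · have hd := (h.sm s).continuousOn_fderiv_of_isOpen (U1_open s) (by simp)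
    have hc : ∀ p i : Fin 4, ContinuousOn
        (fun y => fderiv ℝ (u s) y (EuclideanSpace.single p 1) i) (U1 T L s) := fun p i =>
      (EuclideanSpace.proj i : E4 →L[ℝ] ℝ).continuous.comp_continuousOn
        (hd.clm_apply continuousOn_const)
    simp only [pm_eq]
    exact continuousOn_finsetSum _ fun i _ => continuousOn_finsetSum _ fun j _ =>
      ((hc a i).mul (hc b j)).mul ((hX i j).comp (h.sm s).continuousOn (h.maps s))
  · have h2 : ∀ p i : Fin 4, |fderiv ℝ (u s) x (EuclideanSpace.single p 1) i| ≤ 2 := fun p i => by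
      have := abs_le.1 (near1 h hx p i)
      split_ifs at this <;> exact abs_le.2 ⟨by linarith [this.1], by linarith [this.2]⟩
    rw [pm_eq]
    refine (Finset.abs_sum_le_sum_abs _ _).trans ((Finset.sum_le_sum fun i _ =>
      (Finset.abs_sum_le_sum_abs _ _).trans (Finset.sum_le_sum (g := fun _ => 2 * 2 * P)
        fun j _ => ?_)).trans ?_)
    · rw [abs_mul, abs_mul]
      exact mul_le_mul (mul_le_mul (h2 a i) (h2 b j) (abs_nonneg _) two_pos.le) (hP i j)
        (abs_nonneg _) (by norm_num)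
    · simp only [Finset.sum_const, Finset.card_univ, Fintype.card_fin, nsmul_eq_mul, Nat.cast_ofNat]
      linarith
  · rintro rfl hX hC x hx a b
    have hp := scl_pos hx
    have h0 := near0 h hx
    have hδ0 : 0 ≤ δ := (abs_nonneg _).trans (near1 h hx 0 0)
    have hb : ∀ z ∈ closedBall x (δ * scl T s x), z ∈ W1 T L' s ∧ scl T s x ≤ 2 * scl T s z :=
      fun z hz => ball_W1 hx ((mem_closedBall_iff_norm.1 hz).trans
        (mul_le_mul_of_nonneg_right hδ hp.le))
    have hv : ∀ i j, |X s (u s x) i j| ≤ P := fun i j => by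
      simpa using hC s _ (h.maps s hx) 0 (by norm_num) i j
    have hP : 0 ≤ P := (abs_nonneg _).trans (hv 0 0)
    have h1 : ‖X s (u s x) a b - X s x a b‖ ≤ 2 * P / scl T s x * ‖u s x - x‖ := by
      refine (convex_closedBall x (δ * scl T s x)).norm_image_sub_le_of_norm_fderiv_le (𝕜 := ℝ)
        (f := fun y => X s y a b) (fun z hz => ((hX a b).contDiffAt
          ((W1_open s).mem_nhds (hb z hz).1)).differentiableAt one_ne_zero) (fun z hz => ?_)
        (mem_closedBall_self (by positivity)) (mem_closedBall_iff_norm.2 h0)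
      have := hC s z (hb z hz).1 1 le_rfl a b
      simp only [Pi.zero_apply, sub_zero, pow_one, norm_iteratedFDeriv_one] at this
      rw [le_div_iff₀ hp]
      nlinarith [(hb z hz).2, norm_nonneg (fderiv ℝ (fun y => X s y a b) z)]
    have h2 : |X s (u s x) a b - X s x a b| ≤ 2 * δ * P := by
      refine h1.trans ((mul_le_mul_of_nonneg_left h0 (by positivity)).trans (le_of_eq ?_))
      field_simp
    have h3 : X s (u s x) a b = ∑ i, ∑ j, (if i = a then (1 : ℝ) else 0) * (if j = b then 1 else 0) *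
        X s (u s x) i j := by simp
    have h4 : |pm (u s) (X s) x a b - X s (u s x) a b| ≤ ∑ _i : Fin 4, ∑ _j : Fin 4, 3 * δ * P := by
      rw [pm_eq, h3, ← Finset.sum_sub_distrib]
      refine (Finset.abs_sum_le_sum_abs _ _).trans (Finset.sum_le_sum fun i _ => ?_)
      rw [← Finset.sum_sub_distrib]
      refine (Finset.abs_sum_le_sum_abs _ _).trans (Finset.sum_le_sum fun j _ => ?_)
      rw [← sub_mul, abs_mul]
      refine mul_le_mul ?_ (hv i j) (abs_nonneg _) (by positivity)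
      have e1 := abs_le.1 (near1 h hx a i)
      have e2 := abs_le.1 (near1 h hx b j)
      split_ifs at e1 e2 ⊢ <;> exact abs_le.2 ⟨by nlinarith [e1.1, e1.2, e2.1, e2.2],
        by nlinarith [e1.1, e1.2, e2.1, e2.2]⟩
    simp only [Finset.sum_const, Finset.card_univ, Fintype.card_fin, nsmul_eq_mul,
      Nat.cast_ofNat] at h4
    have := abs_sub_le (pm (u s) (X s) x a b) (X s (u s x) a b) (X s x a b)
    nlinarith [mul_nonneg hδ0 hP]
  · rintro rfl v c x hx hK
    cases s with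
    | inl a => exact hK
    | inr w =>
      have hp := scl_pos hx
      have h0 := (near0 h hx).trans (mul_le_mul_of_nonneg_right hδ hp.le)
      simp only [scl, Sum.elim_inr] at h0 hp
      have h1 := norm_sub_norm_le (u (Sum.inr w) x) x
      have h2 := norm_sub_norm_le x (u (Sum.inr w) x)
      rw [norm_sub_rev] at h2
      refine hK.imp (fun k => ⟨k.1, ?_⟩) fun k => ⟨k.1, ?_⟩
      · linarith [k.2, log_le hp (b := ‖u (Sum.inr w) x‖) (by linarith)]
      · have he := Real.exp_pos (-L' w)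
        have := log_le (a := ‖Real.exp (-L' w) • u (Sum.inr w) x‖) (b := ‖Real.exp (-L' w) • x‖)
          (by rw [norm_smul, Real.norm_of_nonneg he.le]; exact mul_pos he (by linarith))
          (by rw [norm_smul, norm_smul, Real.norm_of_nonneg he.le]; nlinarith)
        linarith [k.2]

end Crest.Agent.N207.NS

end
end

-- ▼ part N207/N/Pull1
section

/-!
# Row 207, block N (helper52): jets of pull-backs by maps near the identity (Euclidean part)
-/

set_option autoImplicit false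

open scoped ContDiff Topology Nat
open Metric Set Filter
open Crest.GeometryTopology.CoordMetric
open Crest.Agent.N207.I Crest.Agent.N207.G Crest.Agent.N207.Ga

noncomputable section

namespace Crest.Agent.N207.NS.Pl

variable {m : ℕ} {u : E4 → E4} {x : E4} {s c δ : ℝ}

theorem jb_of_fderiv {Y : Type} [NormedAddCommGroup Y] [NormedSpace ℝ Y] {f : E4 → Y} {c' : ℝ}
    (hs : 0 ≤ s) (hf : ContDiffAt ℝ ∞ f x) (h0 : ‖f x‖ ≤ c) (h1 : JB m (fderiv ℝ f) x s c')
    (hc : c' * s ≤ c) : JB (m + 1) f x s c := by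
  refine ⟨hf, fun k hk => ?_⟩
  rcases k with _ | k
  · simpa [norm_iteratedFDeriv_zero] using h0
  · rw [← norm_iteratedFDeriv_fderiv, pow_succ, ← mul_assoc]
    exact (mul_le_mul_of_nonneg_right (h1.bd k (by omega)) hs).trans hc

theorem jb_co {f : E4 → E4 →L[ℝ] E4} (hs : 0 ≤ s) (h : JB m f x s c) (i a : Fin 4) :
    JB m (fun y => f y (EuclideanSpace.single i 1) a) x s c := by
  have h1 := h.clm (ContinuousLinearMap.apply ℝ E4 (EuclideanSpace.single i 1)) hs (l := 1)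
    (ContinuousLinearMap.opNorm_le_bound _ zero_le_one fun L => by
      simpa using L.le_opNorm (EuclideanSpace.single i 1))
  have h2 := h1.clm (EuclideanSpace.proj a : E4 →L[ℝ] ℝ) hs (l := 1)
    (ContinuousLinearMap.opNorm_le_bound _ zero_le_one fun v => by
      simpa using PiLp.norm_apply_le v a)
  simpa using h2

theorem jb_sm (h : JB m (fun y => u y - y) x s c) : ContDiffAt ℝ ∞ u x := by
  simpa using h.sm.add contDiffAt_id

theorem jb_d0 (hs : 0 < s) (h : JB (m + 1) (fun y => u y - y) x s (δ * s)) :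
    JB m (fun y => fderiv ℝ u y - ContinuousLinearMap.id ℝ E4) x s δ := by
  refine (h.fderiv hs).congr ?_
  filter_upwards [((jb_sm h).of_le (kle 1)).eventually (by simp)] with y hy
  exact ((hy.differentiableAt one_ne_zero).hasFDerivAt.sub (hasFDerivAt_id y)).fderiv.symm

theorem jb_d1 (hs : 0 < s) (hδ : δ ≤ 1) (h : JB (m + 1) (fun y => u y - y) x s (δ * s)) :
    JB m (fderiv ℝ u) x s 2 := by
  have := (jb_d0 hs h).add hs.le (JB.const (ContinuousLinearMap.id ℝ E4) (c := 1)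
    ContinuousLinearMap.norm_id_le)
  simp only [sub_add_cancel] at this
  exact this.mono (by linarith)

theorem jb_inj (hs : 0 < s) (hδ : δ < 1) (h : JB (m + 1) (fun y => u y - y) x s (δ * s)) :
    Function.Injective (fderiv ℝ u x) := by
  have h1 := (jb_d0 hs h).val
  refine (injective_iff_map_eq_zero _).2 fun v hv => ?_
  have h2 := (fderiv ℝ u x - ContinuousLinearMap.id ℝ E4).le_of_opNorm_le h1 v
  rw [sub_apply, hv, zero_sub, norm_neg, ContinuousLinearMap.id_apply] at h2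
  exact norm_le_zero_iff.1 (by nlinarith [norm_nonneg v])

/-- linear estimate -/
theorem jb_pm (m : ℕ) : ∃ C : ℝ, 1 ≤ C ∧ ∀ (u : E4 → E4) (K : MetricField 4) (x : E4)
    (s s' δ c : ℝ), 0 < s → 0 ≤ s' → s ≤ 2 * s' → δ ≤ 1 →
    JB (m + 2) (fun y => u y - y) x s (δ * s) → (∀ a b, JB (m + 1) (fun y => K y a b) (u x) s' c) →
    ∀ i j, JB (m + 1) (fun y => pbG u K y i j) x s (C * c) := by
  refine ⟨1 + 4 * (4 * (2 ^ (m + 1) * (2 ^ (m + 1) * ((m + 1)! * 2 ^ (m + 1) * 2 ^ (m + 1) * 2) * 2))),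
    le_add_of_nonneg_right (by positivity), fun u K x s s' δ c hs hs' hss hδ hu hK i j => ?_⟩
  have hd := jb_d1 hs hδ hu
  have h1 := fun a b => ((JB.comp hs one_le_two ((hK a b).scale hs' hs.le one_le_two hss) (jb_sm hu)
    (hd.of_le (Nat.le_succ m))).mul hs.le (jb_co hs.le hd i a)).mul hs.le (jb_co hs.le hd j b)
  have h2 := JB.sum Finset.univ hs.le fun a _ => JB.sum Finset.univ hs.le fun b _ => h1 a b
  simp only [Finset.card_univ, Fintype.card_fin, Nat.cast_ofNat] at h2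
  have h0 := (hK 0 0).nonneg
  refine (h2.congr (Eventually.of_forall fun y => pbG_apply u K y i j)).mono (le_of_sub_nonneg ?_)
  ring_nf
  positivity

theorem jb_sub (m : ℕ) : ∃ C : ℝ, 1 ≤ C ∧ ∀ (Y : Type) [NormedAddCommGroup Y] [NormedSpace ℝ Y]
    (f : E4 → Y) (u : E4 → E4) (x : E4) (s δ c : ℝ), 0 < s → δ ≤ 1 →
    JB m (fun y => u y - y) x s (δ * s) → (∀ z ∈ closedBall x (δ * s), JB (m + 1) f z s c) →
    JB m (fun y => f (u y) - f y) x s (C * δ * c) := by
  have key : ∀ (m : ℕ) (Y : Type) [NormedAddCommGroup Y] [NormedSpace ℝ Y]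
      (f : E4 → Y) (u : E4 → E4) (x : E4) (s δ c : ℝ), 0 < s →
      JB m (fun y => u y - y) x s (δ * s) → (∀ z ∈ closedBall x (δ * s), JB (m + 1) f z s c) →
      u x ∈ closedBall x (δ * s) ∧ x ∈ closedBall x (δ * s) ∧ 0 ≤ δ ∧ 0 ≤ c ∧
        ‖f (u x) - f x‖ ≤ δ * c := fun m Y _ _ f u x s δ c hs hu hf => by
    have h1 : u x ∈ closedBall x (δ * s) := mem_closedBall_iff_norm.2 hu.val
    have h2 : x ∈ closedBall x (δ * s) := mem_closedBall_self hu.nonneg
    have h3 := (hf x h2).nonneg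
    refine ⟨h1, h2, nonneg_of_mul_nonneg_left hu.nonneg hs, h3, ?_⟩
    have := (convex_closedBall x (δ * s)).norm_image_sub_le_of_norm_fderiv_le (f := f) (C := c / s)
      (fun z hz => (hf z hz).sm.differentiableAt (by simp)) (fun z hz => by
        have := (hf z hz).bd 1 (by omega)
        rwa [norm_iteratedFDeriv_one, pow_one, ← le_div_iff₀ hs] at this) h2 h1
    refine this.trans ((mul_le_mul_of_nonneg_left hu.val (by positivity)).trans (le_of_eq ?_))
    field_simp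
  induction m with
  | zero =>
    refine ⟨1, le_rfl, fun Y _ _ f u x s δ c hs hδ hu hf => ?_⟩
    obtain ⟨h1, h2, -, -, h3⟩ := key 0 Y f u x s δ c hs hu hf
    refine ⟨((hf _ h1).sm.comp x (jb_sm hu)).sub (hf _ h2).sm, fun k hk => ?_⟩
    obtain rfl : k = 0 := by omega
    simpa [norm_iteratedFDeriv_zero] using h3
  | succ m ih =>
    obtain ⟨C, hC, ih⟩ := ih
    have hp : (1 : ℝ) ≤ 2 ^ m := one_le_pow₀ one_le_two
    refine ⟨2 ^ m * (C * 2) + 2 ^ m, by nlinarith, fun Y _ _ f u x s δ c hs hδ hu hf => ?_⟩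
    obtain ⟨h1, h2, h3, h4, h5⟩ := key _ Y f u x s δ c hs hu hf
    have hf' : ∀ z ∈ closedBall x (δ * s), JB (m + 1) (fderiv ℝ f) z s (c / s) := fun z hz =>
      JB.fderiv hs (by rw [div_mul_cancel₀ _ hs.ne']; exact hf z hz)
    have a1 := JB.bil (ContinuousLinearMap.compL ℝ E4 E4 Y) (ContinuousLinearMap.norm_compL_le ..)
      hs.le (ih _ (fderiv ℝ f) u x s δ (c / s) hs hδ (hu.of_le (Nat.le_succ m)) hf') (jb_d1 hs hδ hu)
    have a2 := JB.bil (ContinuousLinearMap.compL ℝ E4 E4 Y) (ContinuousLinearMap.norm_compL_le ..)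
      hs.le ((hf' x h2).of_le (Nat.le_succ m)) (jb_d0 hs hu)
    refine jb_of_fderiv hs.le (((hf _ h1).sm.comp x (jb_sm hu)).sub (hf _ h2).sm)
      (h5.trans ?_) ((a1.add hs.le a2).congr ?_) (le_of_eq ?_)
    · rw [mul_assoc]
      exact le_mul_of_one_le_left (mul_nonneg h3 h4) (by nlinarith)
    · have b1 := ((jb_sm hu).of_le (kle 1)).eventually (by simp)
      have b2 := (((hf _ h2).sm.of_le (kle 1))).eventually (by simp)
      have b3 := (jb_sm hu).continuousAt.eventually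
        ((((hf _ h1).sm.of_le (kle 1))).eventually (by simp))
      filter_upwards [b1, b2, b3] with y c1 c2 c3
      have := (((c3.differentiableAt one_ne_zero).hasFDerivAt.comp y
        (c1.differentiableAt one_ne_zero).hasFDerivAt).sub
        (c2.differentiableAt one_ne_zero).hasFDerivAt).fderiv
      refine this.trans ?_
      ext1 v
      simp
    · field_simp

theorem pbG_sub (u : E4 → E4) (H : MetricField 4) (y : E4) (i j : Fin 4) :
    pbG u H y i j - H y i j = ∑ a, ∑ b,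
      ((H (u y) a b - H y a b) * fderiv ℝ u y (EuclideanSpace.single i 1) a *
        fderiv ℝ u y (EuclideanSpace.single j 1) b +
      (H y a b * (fderiv ℝ u y - ContinuousLinearMap.id ℝ E4) (EuclideanSpace.single i 1) a *
        fderiv ℝ u y (EuclideanSpace.single j 1) b +
      H y a b * (ContinuousLinearMap.id ℝ E4) (EuclideanSpace.single i 1) a *
        (fderiv ℝ u y - ContinuousLinearMap.id ℝ E4) (EuclideanSpace.single j 1) b)) := by
  have e : H y i j = ∑ a, ∑ b, H y a b * (EuclideanSpace.single i (1 : ℝ) : E4) a *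
      (EuclideanSpace.single j (1 : ℝ) : E4) b := by simp
  rw [pbG_apply, e, ← Finset.sum_sub_distrib]
  refine Finset.sum_congr rfl fun a _ => ?_
  rw [← Finset.sum_sub_distrib]
  refine Finset.sum_congr rfl fun b _ => ?_
  simp only [sub_apply, ContinuousLinearMap.id_apply, PiLp.sub_apply]
  ring

/-- the change of a fixed field under the pull-back -/
theorem jb_pm_sub (m : ℕ) : ∃ C : ℝ, 1 ≤ C ∧ ∀ (u : E4 → E4) (H : MetricField 4) (x : E4)
    (s δ c : ℝ), 0 < s → δ ≤ 1 → JB (m + 1) (fun y => u y - y) x s (δ * s) →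
    (∀ z ∈ closedBall x (δ * s), ∀ a b, JB (m + 1) (fun y => H y a b) z s c) →
    ∀ i j, JB m (fun y => pbG u H y i j - H y i j) x s (C * δ * c) := by
  obtain ⟨C, hC, hsub⟩ := jb_sub m
  refine ⟨1 + 4 * (4 * (2 ^ m * (2 ^ m * (C * 2) * 2) + (2 ^ m * (2 ^ m * 2) + 2 ^ m * 2 ^ m))),
    le_add_of_nonneg_right (by positivity), fun u H x s δ c hs hδ hu hH i j => ?_⟩
  have hx : x ∈ closedBall x (δ * s) := mem_closedBall_self hu.nonneg
  have hd := jb_d1 hs hδ hu
  have hd0 := jb_d0 hs hu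
  have hi : JB m (fun _ : E4 => ContinuousLinearMap.id ℝ E4) x s 1 :=
    JB.const _ ContinuousLinearMap.norm_id_le
  have hH' := fun a b => (hH x hx a b).of_le (Nat.le_succ m)
  have h1 := fun a b => (((hsub ℝ (fun y => H y a b) u x s δ c hs hδ (hu.of_le (Nat.le_succ m))
    fun z hz => hH z hz a b).mul hs.le (jb_co hs.le hd i a)).mul hs.le (jb_co hs.le hd j b)).add hs.le
    ((((hH' a b).mul hs.le (jb_co hs.le hd0 i a)).mul hs.le (jb_co hs.le hd j b)).add hs.le
      (((hH' a b).mul hs.le (jb_co hs.le hi i a)).mul hs.le (jb_co hs.le hd0 j b)))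
  have h2 := JB.sum Finset.univ hs.le fun a _ => JB.sum Finset.univ hs.le fun b _ => h1 a b
  simp only [Finset.card_univ, Fintype.card_fin, Nat.cast_ofNat] at h2
  have h0 := mul_nonneg hd0.nonneg (hH' 0 0).nonneg
  refine (h2.congr (Eventually.of_forall fun y => pbG_sub u H y i j)).mono
    (le_of_sub_nonneg (h0.trans_eq ?_))
  ring

end Crest.Agent.N207.NS.Pl

end
end

-- ▼ part N207/N/Cmpg1

/-!
# Row 207, block N (helper38): pointwise estimates for `Cmpg`
-/

set_option autoImplicit false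

open scoped ContDiff Topology
open Metric Set Filter MeasureTheory
open Crest.GeometryTopology.CoordMetric
open Crest.Agent.N207.I Crest.Agent.N207.Lg Crest.Agent.N207.CB

noncomputable section

namespace Crest.Agent.N207.NS.Cg

theorem cl_lp {I : Type} (δ : I → ℝ) : Lg.Cl (X := I × Bool) fun f : I × Bool → ℝ =>
    Lp δ (fun _ => 1) (fun i => f (i, true)) fun i => f (i, false) :=
  ⟨fun c => Lp.const c, fun h k => h.add k, fun h k => h.mul k⟩

theorem gv_lip (Λ : ℝ) : ∃ C : ℝ, 0 < C ∧ ∀ (b g g' : Mx) (π p p' : M3 (Fin 4) ℝ) (d : ℝ),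
    PB Λ b → PB Λ g → PB Λ g' → (∀ a e, |g a e - g' a e| ≤ d) →
    (∀ c a e, |π c a e| ≤ Λ ∧ |p c a e| ≤ Λ ∧ |p' c a e| ≤ Λ ∧ |p c a e - p' c a e| ≤ d) → ∀ j,
    |gv (fun a e => g⁻¹ a e) (bar (fun a e => g a e) p (chr (fun a e => b⁻¹ a e) π)) j -
      gv (fun a e => g'⁻¹ a e) (bar (fun a e => g' a e) p' (chr (fun a e => b⁻¹ a e) π)) j| ≤
      C * d := by
  let I := {t : Mx × Mx × Mx × M3 (Fin 4) ℝ × M3 (Fin 4) ℝ × M3 (Fin 4) ℝ × ℝ //
    PB Λ t.1 ∧ PB Λ t.2.1 ∧ PB Λ t.2.2.1 ∧ (∀ a e, |t.2.1 a e - t.2.2.1 a e| ≤ t.2.2.2.2.2.2) ∧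
    ∀ c a e, |t.2.2.2.1 c a e| ≤ Λ ∧ |t.2.2.2.2.1 c a e| ≤ Λ ∧ |t.2.2.2.2.2.1 c a e| ≤ Λ ∧
      |t.2.2.2.2.1 c a e - t.2.2.2.2.2.1 c a e| ≤ t.2.2.2.2.2.2}
  obtain ⟨-, b2, -⟩ := PB.lm0 (I := I) (δ := fun i => i.1.2.2.2.2.2.2) fun i => i.2.1
  obtain ⟨g1, g2, -⟩ := PB.lm (I := I) (fun i => i.2.2.1) (fun i => i.2.2.2.1)
    fun i => i.2.2.2.2.1
  have h := cl_lp (I := I) fun i => i.1.2.2.2.2.2.2
  have key := h.gv (H := fun z a e => (cond z.2 z.1.1.2.1 z.1.1.2.2.1)⁻¹ a e) g2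
    (h.bar (g := fun z a e => cond z.2 z.1.1.2.1 z.1.1.2.2.1 a e)
      (T := fun z => cond z.2 z.1.1.2.2.2.2.1 z.1.1.2.2.2.2.2.1) g1
      (fun c a e => Lp.of_le (fun i => (i.2.2.2.2.2 c a e).2.1) (fun i => (i.2.2.2.2.2 c a e).2.2.1)
        fun i => (i.2.2.2.2.2 c a e).2.2.2)
      (h.chr (H := fun z a e => (z.1.1.1)⁻¹ a e) (T := fun z => z.1.1.2.2.2.1) b2
        fun c a e => Lp.refl (ob_one fun i => (i.2.2.2.2.2 c a e).1)))
  obtain ⟨C, hC, k⟩ := ob_unif fun j => (key j).d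
  refine ⟨C, hC, fun b g g' π p p' d h1 h2 h3 h4 h5 j => ?_⟩
  have := k j ⟨(b, g, g', π, p, p', d), h1, h2, h3, h4, h5⟩
  rwa [one_mul, abs_of_nonneg ((abs_nonneg _).trans (h4 0 0))] at this

theorem abs_sum2_le {f : Fin 4 → Fin 4 → ℝ} {m : ℝ} (h : ∀ a b, |f a b| ≤ m) :
    |∑ a, ∑ b, f a b| ≤ 16 * m :=
  ((Finset.abs_sum_le_sum_abs _ _).trans (Finset.sum_le_sum fun a _ =>
    (Finset.abs_sum_le_sum_abs _ _).trans (Finset.sum_le_sum fun b _ => h a b))).trans_eq (by
      simp only [Finset.sum_const, Finset.card_univ, Fintype.card_fin, nsmul_eq_mul]; ring)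

theorem abs_mul_le' {x y a b : ℝ} (hx : |x| ≤ a) (hy : |y| ≤ b) : |x * y| ≤ a * b := by
  rw [abs_mul]; exact mul_le_mul hx hy (abs_nonneg _) ((abs_nonneg _).trans hx)

theorem e0_nonneg (k : MetricField 4) (x : E4) : 0 ≤ e0 k x := by unfold e0; positivity

theorem e1_nonneg (k : MetricField 4) (x : E4) : 0 ≤ e1 k x := by unfold e1 Hd.g2; positivity

theorem sq_le_e0 (k : MetricField 4) (x : E4) (a b : Fin 4) : k x a b ^ 2 ≤ e0 k x :=
  (Finset.single_le_sum (f := fun b => k x a b ^ 2) (fun _ _ => sq_nonneg _)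
    (Finset.mem_univ b)).trans (Finset.single_le_sum (f := fun a => ∑ b, k x a b ^ 2)
      (fun _ _ => by positivity) (Finset.mem_univ a))

theorem sq_le_e1 (k : MetricField 4) (x : E4) (c a b : Fin 4) : jet k x c a b ^ 2 ≤ e1 k x :=
  ((Finset.single_le_sum (f := fun c => jet k x c a b ^ 2) (fun _ _ => sq_nonneg _)
    (Finset.mem_univ c)).trans (Finset.single_le_sum (f := fun b => ∑ c, jet k x c a b ^ 2)
      (fun _ _ => by positivity) (Finset.mem_univ b))).trans
    (Finset.single_le_sum (f := fun a => ∑ b, ∑ c, jet k x c a b ^ 2)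
      (fun _ _ => by positivity) (Finset.mem_univ a))

/-- the gauge term is quadratic in the distance to a gauged metric -/
theorem gau_le (Λ : ℝ) : ∃ C : ℝ, 0 < C ∧ ∀ (U : Set E4) (b g1 g2 : MetricField 4) (x : E4) (r : ℝ),
    IsRiemannianOn b U → IsRiemannianOn g1 U → IsRiemannianOn g2 U → x ∈ U → 0 < r →
    (∀ H ∈ [b, g1, g2], ∀ p q, |H x p q| ≤ Λ ∧ |(H x)⁻¹ p q| ≤ Λ ∧
      r * ‖iteratedFDeriv ℝ 1 (fun y => H y p q) x‖ ≤ Λ) → sq g2 x ≤ Λ → gauT b g1 x = 0 →
    |gau (sq g2 x) (iv g2 x) (TG b g2 x)| ≤ C * (e1 (g2 - g1) x + e0 (g2 - g1) x / r ^ 2) := by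
  obtain ⟨C, hC, h⟩ := gv_lip Λ
  refine ⟨8 * Λ ^ 2 * C ^ 2 + 1, by positivity, fun U b g1 g2 x r hb h1 h2 hx hr hB hs h0 => ?_⟩
  have B0 := hB b (by simp)
  have B1 := hB g1 (by simp)
  have B2 := hB g2 (by simp)
  have hΛ : 0 ≤ Λ := (abs_nonneg _).trans (B0 0 0).1
  have p0 := e0_nonneg (g2 - g1) x
  have p1 := e1_nonneg (g2 - g1) x
  set Q := e1 (g2 - g1) x + e0 (g2 - g1) x / r ^ 2 with hQ
  have hQ0 : 0 ≤ Q := by positivity
  have hj : ∀ H : MetricField 4, (∀ p q, r * ‖iteratedFDeriv ℝ 1 (fun y => H y p q) x‖ ≤ Λ) →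
      ∀ c a e, |(r • jet H x) c a e| ≤ Λ := fun H hH c a e => by
    simp only [Pi.smul_apply, smul_eq_mul, abs_mul, abs_of_pos hr]
    exact (mul_le_mul_of_nonneg_left (abs_pd_le _ x c) hr.le).trans (hH a e)
  have hg : ∀ G : MetricField 4, ∀ j, gv (iv G x) (bar (G x) (r • jet G x)
      (chr (iv b x) (r • jet b x))) j = r * gv (iv G x) (TG b G x) j := fun G j => by
    rw [chr_smul, ← chr_eq, bar_hom, ← TG_eq, gv_smul']; rfl
  have key : ∀ j, |gv (iv g2 x) (TG b g2 x) j| ≤ C * √Q := fun j => by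
    have := h (b x) (g2 x) (g1 x) (r • jet b x) (r • jet g2 x) (r • jet g1 x) (r * √Q)
      ⟨hb.posDef x hx, fun p q => ⟨(B0 p q).1, (B0 p q).2.1⟩⟩
      ⟨h2.posDef x hx, fun p q => ⟨(B2 p q).1, (B2 p q).2.1⟩⟩
      ⟨h1.posDef x hx, fun p q => ⟨(B1 p q).1, (B1 p q).2.1⟩⟩ (fun a e => by
        rw [← Real.sqrt_sq hr.le, ← Real.sqrt_mul (sq_nonneg _)]
        refine Real.abs_le_sqrt ((sq_le_e0 (g2 - g1) x a e).trans ?_)
        rw [hQ, mul_add, mul_div_cancel₀ _ (by positivity)]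
        exact le_add_of_nonneg_left (by positivity))
      (fun c a e => ⟨hj b (fun p q => (B0 p q).2.2) c a e, hj g2 (fun p q => (B2 p q).2.2) c a e,
        hj g1 (fun p q => (B1 p q).2.2) c a e, by
          have e1 : (r • jet g2 x) c a e - (r • jet g1 x) c a e = r * jet (g2 - g1) x c a e := by
            rw [jet_sub (d_g h2 hx) (d_g h1 hx)]
            simp only [Pi.smul_apply, smul_eq_mul, Pi.sub_apply]; ring
          rw [e1, abs_mul, abs_of_pos hr]
          refine mul_le_mul_of_nonneg_left (Real.abs_le_sqrt ((sq_le_e1 _ x c a e).trans ?_)) hr.le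
          exact le_add_of_nonneg_right (by positivity)⟩) j
    have z : gv (iv g1 x) (TG b g1 x) j = 0 := by rw [← gauT_ap, h0]; rfl
    have e2 := hg g2 j
    have e1 := hg g1 j
    change |gv (iv g2 x) (bar (g2 x) _ (chr (iv b x) _)) j -
      gv (iv g1 x) (bar (g1 x) _ (chr (iv b x) _)) j| ≤ _ at this
    rw [e1, e2, z, mul_zero, sub_zero, abs_mul, abs_of_pos hr, mul_left_comm] at this
    exact le_of_mul_le_mul_left this hr
  have e3 : |ip1 (iv g2 x) (gv (iv g2 x) (TG b g2 x)) (gv (iv g2 x) (TG b g2 x))| ≤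
      16 * (Λ * (C * √Q * (C * √Q))) :=
    abs_sum2_le fun i j => abs_mul_le' (B2 i j).2.1 (abs_mul_le' (key i) (key j))
  have e4 : |1 / 2 * sq g2 x| ≤ 1 / 2 * Λ := by
    have : 0 ≤ sq g2 x := Real.sqrt_nonneg _
    rw [abs_of_nonneg (by positivity)]; linarith
  refine (abs_mul_le' e4 e3).trans ?_
  have e5 : 1 / 2 * Λ * (16 * (Λ * (C * √Q * (C * √Q)))) = 8 * Λ ^ 2 * C ^ 2 * (√Q * √Q) := by ring
  rw [e5, Real.mul_self_sqrt hQ0, add_mul]
  linarith

/-- the first variation density -/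
theorem fv_le {s Λ r : ℝ} {H : M2 (Fin 4) ℝ} (hs : |s| ≤ Λ) (hH : ∀ p q, |H p q| ≤ Λ) (hr : 0 < r)
    (k X : MetricField 4) (x : E4) :
    |tr2 (vG s H fun p q => k x p q) fun p q => X x p q| ≤
      192 * Λ ^ 3 * (e0 k x / r ^ 2 + r ^ 2 * e0 X x) := by
  have hΛ : 0 ≤ Λ := (abs_nonneg _).trans hs
  have hk : ∀ p q, |k x p q| ≤ √(e0 k x) := fun p q => Real.abs_le_sqrt (sq_le_e0 k x p q)
  have hX : ∀ p q, |X x p q| ≤ √(e0 X x) := fun p q => Real.abs_le_sqrt (sq_le_e0 X x p q)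
  have e1 := Real.mul_self_sqrt (e0_nonneg k x)
  have e2 := Real.mul_self_sqrt (e0_nonneg X x)
  generalize √(e0 k x) = a at hk e1
  generalize √(e0 X x) = b at hX e2
  have h1 : ∀ i j, |vG s H (fun p q => k x p q) i j| ≤ Λ * (24 * Λ ^ 2 * a) := fun i j => by
    refine abs_mul_le' hs ((abs_sub _ _).trans ?_)
    have t1 : |1 / 2 * tr2 H (fun p q => k x p q) * H i j| ≤ 1 / 2 * (16 * (Λ * a)) * Λ :=
      abs_mul_le' (abs_mul_le' (by norm_num) (abs_sum2_le fun p q =>
        abs_mul_le' (hH p q) (hk p q))) (hH i j)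
    have t2 : |up H (fun p q => k x p q) i j| ≤ 16 * (Λ * a * Λ) :=
      abs_sum2_le fun p q => abs_mul_le' (abs_mul_le' (hH i p) (hk p q)) (hH q j)
    linarith
  refine (abs_sum2_le fun i j => abs_mul_le' (h1 i j) (hX i j)).trans ?_
  rw [← e1, ← e2]
  have e3 : 2 * (a * b) ≤ a * a / r ^ 2 + r ^ 2 * (b * b) := by
    have : a * a / r ^ 2 + r ^ 2 * (b * b) - 2 * (a * b) = (a / r - r * b) ^ 2 := by field_simp; ring
    linarith [sq_nonneg (a / r - r * b)]
  calc _ = 192 * Λ ^ 3 * (2 * (a * b)) := by ring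
    _ ≤ _ := mul_le_mul_of_nonneg_left e3 (by positivity)

/-- the entries of the Ricci tensor against its norm -/
theorem e0_le_nsq {G : MetricField 4} {x : E4} {Λ : ℝ} (hG : (G x).PosDef)
    (hΛ : ∀ p q, |G x p q| ≤ Λ) (X : Tn 4 2) :
    e0 (fun y => Matrix.of fun p q => X y ![p, q]) x ≤ (16 * Λ) ^ 2 * nsq G X x := by
  have h0 : 0 ≤ Λ := (abs_nonneg _).trans (hΛ 0 0)
  have := Ar.sum_sq_le_ipA hG (c := 16 * Λ) (by positivity) (fun v => by
    have := (le_abs_self _).trans (Jt.abs_bil_le hΛ v v)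
    refine this.trans_eq ?_
    push_cast; ring) (X x)
  refine le_trans (le_of_eq ?_) this
  rw [← (piFinTwoEquiv fun _ => Fin 4).symm.sum_comp, Fintype.sum_prod_type]
  rfl

end Crest.Agent.N207.NS.Cg

end
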