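import Crest.Agent.N207.N.Gs0
import Crest.Agent.N207.N.Gr1
import Crest.Agent.N207.N.Thb
import Crest.Agent.N207.N.Cmpg1_Mg
import Crest.Agent.N207.N.Gr2
import Crest.Agent.N207.N.Har

-- ▼ part N207/N/Dil1
section

/-!
# Row 207, block N (helper28): the dilation map of the leaf `DIL`, Euclidean part
-/

set_option autoImplicit false

open scoped ContDiff Topology
open Metric Set Filter
open Crest.GeometryTopology.CoordMetric
open Crest.Agent.N207.I Crest.Agent.N207.CB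

noncomputable section

namespace Crest.Agent.N207.NS.Dl

/-- jets of a smooth family that vanishes at `t = 0` -/
theorem fam_le1 {V : Type} [NormedAddCommGroup V] [NormedSpace ℝ V] {F : ℝ × E4 → V}
    (hF : ContDiff ℝ ∞ F) (h0 : ∀ x, F (0, x) = 0) (R : ℝ) (k : ℕ) :
    ∃ C : ℝ, 0 ≤ C ∧ ∀ t, |t| ≤ 1 → ∀ x : E4, ‖x‖ ≤ R →
      ‖iteratedFDeriv ℝ k (fun y => F (t, y)) x‖ ≤ C * |t| := by
  have h1 : ContDiff ℝ 1 (iteratedFDeriv ℝ k F) := hF.iteratedFDeriv_right (by exact_mod_cast le_top)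
  obtain ⟨K, hK⟩ := h1.contDiffOn.exists_lipschitzOnWith (s := closedBall 0 1 ×ˢ closedBall 0 R)
    one_ne_zero ((convex_closedBall _ _).prod (convex_closedBall _ _))
    ((isCompact_closedBall _ _).prod (isCompact_closedBall _ _))
  have e : ∀ t x, iteratedFDeriv ℝ k (fun y => F (t, y)) x =
      (iteratedFDeriv ℝ k F (t, x)).compContinuousLinearMap
        fun _ => ContinuousLinearMap.inr ℝ ℝ E4 := by
    intro t x
    have h2 : ContDiff ℝ ∞ fun z => F ((t, 0) + z) := hF.comp (by fun_prop)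
    have := (ContinuousLinearMap.inr ℝ ℝ E4).iteratedFDeriv_comp_right h2 x (i := k)
      (by exact_mod_cast le_top)
    rw [iteratedFDeriv_comp_add_left] at this
    simpa [Function.comp_def] using this
  refine ⟨K, K.2, fun t ht x hx => ?_⟩
  have e0 := e 0 x
  simp only [h0, iteratedFDeriv_fun_zero, Pi.zero_apply] at e0
  have e1 : iteratedFDeriv ℝ k (fun y => F (t, y)) x =
      (iteratedFDeriv ℝ k F (t, x) - iteratedFDeriv ℝ k F (0, x)).compContinuousLinearMap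
        fun _ => ContinuousLinearMap.inr ℝ ℝ E4 := by
    rw [e, ← sub_zero (ContinuousMultilinearMap.compContinuousLinearMap _ _), e0]; rfl
  have h3 := hK.dist_le_mul (t, x) ⟨by simpa using ht, by simpa using hx⟩ (0, x)
    ⟨by simp, by simpa using hx⟩
  rw [e1]
  refine (ContinuousMultilinearMap.norm_compContinuousLinearMap_le _ _).trans ?_
  rw [dist_eq_norm, Prod.dist_eq, dist_self, dist_zero_right, max_eq_left (norm_nonneg _)] at h3
  refine (mul_le_of_le_one_right (norm_nonneg _) ?_).trans h3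
  exact Finset.prod_le_one (fun _ _ => norm_nonneg _)
    fun _ _ => ContinuousLinearMap.norm_inr_le_one ℝ ℝ E4

theorem fam_le {V ι : Type} [NormedAddCommGroup V] [NormedSpace ℝ V] [Fintype ι]
    {F : ι → ℝ × E4 → V} (hF : ∀ i, ContDiff ℝ ∞ (F i)) (h0 : ∀ i x, F i (0, x) = 0) {R : ℝ}
    (hR : 1 ≤ R) (m : ℕ) : ∃ C : ℝ, 0 ≤ C ∧ ∀ t, |t| ≤ 1 → ∀ x : E4, ‖x‖ ≤ R → ∀ i, ∀ k ≤ m,
      ‖x‖ ^ k * ‖iteratedFDeriv ℝ k (fun y => F i (t, y)) x‖ ≤ C * |t| := by
  choose C h1 h2 using fun i k => fam_le1 (hF i) (h0 i) R k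
  have hs : ∀ i, 0 ≤ ∑ k ∈ Finset.range (m + 1), C i k := fun i =>
    Finset.sum_nonneg fun k _ => h1 i k
  refine ⟨R ^ m * ∑ i, ∑ k ∈ Finset.range (m + 1), C i k,
    mul_nonneg (by positivity) (Finset.sum_nonneg fun i _ => hs i), fun t ht x hx i k hk => ?_⟩
  rw [mul_assoc]
  refine mul_le_mul ((pow_le_pow_left₀ (norm_nonneg _) hx k).trans (pow_le_pow_right₀ hR hk))
    ((h2 i k t ht x hx).trans (mul_le_mul_of_nonneg_right ?_ (abs_nonneg _))) (norm_nonneg _)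
    (by positivity)
  exact (Finset.single_le_sum (fun k _ => h1 i k)
    (Finset.mem_range.2 (Nat.lt_succ_of_le hk))).trans
    (Finset.single_le_sum (fun i _ => hs i) (Finset.mem_univ i))

theorem lin_jet (a : ℝ) (x : E4) (k : ℕ) :
    ‖x‖ ^ k * ‖iteratedFDeriv ℝ k (fun y : E4 => a • y) x‖ ≤ |a| * ‖x‖ := by
  have e : fderiv ℝ (fun y : E4 => a • y) = fun _ => a • ContinuousLinearMap.id ℝ E4 :=
    funext fun y => ((hasFDerivAt_id y).const_smul a).fderiv
  rcases k with _ | _ | k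
  · simp [norm_smul]
  · rw [← norm_iteratedFDeriv_fderiv, e, norm_iteratedFDeriv_zero, norm_smul, mul_comm]
    simp
  · rw [← norm_iteratedFDeriv_fderiv, e, iteratedFDeriv_const_of_ne (Nat.succ_ne_zero _)]
    simp only [Pi.zero_apply, norm_zero, mul_zero]
    positivity

/-- the cut-off -/
def be (T0 : ℝ) (x : E4) : ℝ := Real.smoothTransition
  ((‖x‖ ^ 2 - Real.exp (T0 + 5 / 4) ^ 2) / (Real.exp (T0 + 7 / 4) ^ 2 - Real.exp (T0 + 5 / 4) ^ 2))

/-- the dilation -/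
def uu (T0 t : ℝ) (x : E4) : E4 := Real.exp (t * be T0 x) • x

variable {T0 t : ℝ} {x : E4}

theorem gap (T0 : ℝ) : 0 < Real.exp (T0 + 7 / 4) ^ 2 - Real.exp (T0 + 5 / 4) ^ 2 :=
  sub_pos.2 (pow_lt_pow_left₀ (Real.exp_lt_exp.2 (by linarith)) (Real.exp_pos _).le two_ne_zero)

theorem uu_lo (h : ‖x‖ ≤ Real.exp (T0 + 5 / 4)) : uu T0 t x = x := by
  rw [uu, be, Real.smoothTransition.zero_of_nonpos (div_nonpos_of_nonpos_of_nonneg
    (sub_nonpos.2 (pow_le_pow_left₀ (norm_nonneg _) h 2)) (gap T0).le)]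
  simp

theorem uu_hi (h : Real.exp (T0 + 7 / 4) ≤ ‖x‖) : uu T0 t x = Real.exp t • x := by
  rw [uu, be, Real.smoothTransition.one_of_one_le ((one_le_div (gap T0)).2
    (sub_le_sub_right (pow_le_pow_left₀ (Real.exp_pos _).le h 2) _)), mul_one]

theorem uu_zero (T0 : ℝ) (x : E4) : uu T0 0 x = x := by simp [uu]

theorem uu_sm (T0 : ℝ) : ContDiff ℝ ∞ fun p : ℝ × E4 => uu T0 p.1 p.2 := by
  have h1 : ContDiff ℝ ∞ (be T0) := Real.smoothTransition.contDiff.comp
    (((contDiff_norm_sq ℝ).sub contDiff_const).div_const _)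
  exact (contDiff_fst.mul (h1.comp contDiff_snd)).exp.smul contDiff_snd

theorem uu_sm1 (T0 t : ℝ) : ContDiff ℝ ∞ (uu T0 t) :=
  (uu_sm T0).comp (f := fun y : E4 => (t, y)) (by fun_prop)

theorem norm_uu (ht : |t| ≤ 1) (T0 : ℝ) (x : E4) :
    Real.exp (-1) * ‖x‖ ≤ ‖uu T0 t x‖ ∧ ‖uu T0 t x‖ ≤ Real.exp 1 * ‖x‖ := by
  have h1 : |t * be T0 x| ≤ 1 := by
    rw [abs_mul, be, abs_of_nonneg (Real.smoothTransition.nonneg _)]
    exact mul_le_one₀ ht (Real.smoothTransition.nonneg _) (Real.smoothTransition.le_one _)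
  rw [uu, norm_smul, Real.norm_of_nonneg (Real.exp_pos _).le]
  exact ⟨mul_le_mul_of_nonneg_right (Real.exp_le_exp.2 (abs_le.1 h1).1) (norm_nonneg _),
    mul_le_mul_of_nonneg_right (Real.exp_le_exp.2 (abs_le.1 h1).2) (norm_nonneg _)⟩

theorem uu_ge (ht : |t| ≤ 1) (h : Real.exp (T0 + 5 / 4) ≤ ‖x‖) :
    Real.exp (T0 + 1 / 4) ≤ ‖uu T0 t x‖ := by
  refine le_trans ?_ (norm_uu ht T0 x).1
  rw [show T0 + 1 / 4 = -1 + (T0 + 5 / 4) by ring, Real.exp_add]
  exact mul_le_mul_of_nonneg_left h (Real.exp_pos _).le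

theorem uu_le (ht : |t| ≤ 1) (h : ‖x‖ ≤ Real.exp (T0 + 2)) : ‖uu T0 t x‖ ≤ Real.exp (T0 + 3) := by
  refine (norm_uu ht T0 x).2.trans ?_
  rw [show T0 + 3 = 1 + (T0 + 2) by ring, Real.exp_add 1]
  exact mul_le_mul_of_nonneg_left h (Real.exp_pos _).le

theorem uu_iso (γ : Iso4) (T0 t : ℝ) (x : E4) : uu T0 t (γ x) = γ (uu T0 t x) := by
  simp only [uu, be, γ.norm_map, map_smul]

/-- `u - id` is small -/
theorem uu_near (h0 : 0 ≤ T0) : ∃ C : ℝ, 0 ≤ C ∧ ∀ t, |t| ≤ 1 → ∀ x : E4, 1 ≤ ‖x‖ → ∀ k ≤ 3,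
    ‖x‖ ^ k * ‖iteratedFDeriv ℝ k (fun y => uu T0 t y - y) x‖ ≤ C * |t| * ‖x‖ := by
  obtain ⟨C, h1, h2⟩ := fam_le (ι := Unit) (F := fun _ p => uu T0 p.1 p.2 - p.2)
    (fun _ => (uu_sm T0).sub contDiff_snd) (fun _ x => by simp [uu_zero])
    (R := Real.exp (T0 + 2)) (Real.one_le_exp (by linarith)) 3
  refine ⟨C + 2, by positivity, fun t ht x hx k hk => ?_⟩
  have a1 := abs_nonneg t
  by_cases h : ‖x‖ ≤ Real.exp (T0 + 2)
  · refine (h2 t ht x h () k hk).trans ?_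
    have := mul_nonneg h1 a1
    nlinarith
  · have e : (fun y => uu T0 t y - y) =ᶠ[𝓝 x] fun y => (Real.exp t - 1) • y := by
      filter_upwards [continuous_norm.continuousAt.eventually (lt_mem_nhds (not_le.1 h))] with y hy
      rw [uu_hi ((Real.exp_le_exp.2 (by linarith)).trans hy.le), sub_smul, one_smul]
    rw [(e.iteratedFDeriv ℝ k).self_of_nhds]
    refine (lin_jet _ x k).trans (mul_le_mul_of_nonneg_right ?_ (norm_nonneg _))
    have := Real.abs_exp_sub_one_le ht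
    nlinarith

/-- the pull-back of the flat metric is near the flat metric -/
theorem uu_flat (h0 : 0 ≤ T0) : ∃ C : ℝ, 0 ≤ C ∧ ∀ t, |t| ≤ 1 → ∀ x : E4,
    ‖x‖ ≤ Real.exp (T0 + 2) → ∀ a b, ∀ k ≤ 2, ‖x‖ ^ k * ‖iteratedFDeriv ℝ k
      (fun y => (Real.exp (-t) ^ 2 • pm (uu T0 t) (fun _ => 1) y - 1) a b) x‖ ≤ C * |t| := by
  refine (fam_le (ι := Fin 4 × Fin 4) (F := fun i p =>
      (Real.exp (-p.1) ^ 2 • pm (uu T0 p.1) (fun _ => 1) p.2 - 1) i.1 i.2)
    (fun i => ?_) (fun i x => ?_) (R := Real.exp (T0 + 2)) (Real.one_le_exp (by linarith)) 2).imp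
    fun C h => ⟨h.1, fun t ht x hx a b k hk => h.2 t ht x hx (a, b) k hk⟩
  · have h3 : ContDiff ℝ ∞ fun p : ℝ × E4 => fderiv ℝ (uu T0 p.1) p.2 :=
      ContDiff.fderiv (f := fun (p : ℝ × E4) y => uu T0 p.1 y) (m := ∞)
        ((uu_sm T0).comp (f := fun q : (ℝ × E4) × E4 => (q.1.1, q.2)) (by fun_prop))
        contDiff_snd (by exact_mod_cast le_top)
    have h4 : ∀ a i, ContDiff ℝ ∞ fun p : ℝ × E4 =>
        fderiv ℝ (uu T0 p.1) p.2 (EuclideanSpace.single a 1) i := fun a i =>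
      (EuclideanSpace.proj i : E4 →L[ℝ] ℝ).contDiff.comp (h3.clm_apply contDiff_const)
    simp only [Matrix.sub_apply, Matrix.smul_apply, pm_apply, smul_eq_mul]
    exact ((contDiff_fst.neg.exp.pow 2).mul (ContDiff.sum fun a _ => ContDiff.sum fun b _ =>
      ((h4 _ _).mul (h4 _ _)).mul contDiff_const)).sub contDiff_const
  · rw [pm_dil (a := 1) (Eventually.of_forall fun z => by rw [uu_zero, one_smul])]
    simp

theorem sq_exp (ht : |t| ≤ 1) : |Real.exp (-t) ^ 2 - 1| ≤ 8 * |t| := by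
  have h1 := Real.abs_exp_sub_one_le (x := -t) (by rwa [abs_neg])
  rw [abs_neg] at h1
  have h2 := (abs_le.1 h1).2
  rw [show Real.exp (-t) ^ 2 - 1 = (Real.exp (-t) - 1) * (Real.exp (-t) + 1) by ring, abs_mul,
    abs_of_pos (a := Real.exp (-t) + 1) (by positivity)]
  have := mul_le_mul h1 (show Real.exp (-t) + 1 ≤ 4 by linarith) (by positivity) (by positivity)
  linarith

end Crest.Agent.N207.NS.Dl

end
end

-- ▼ part N207/N/Dil2
section

/-!
# Row 207, block N (helper28): the leaf `DIL`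
-/

set_option autoImplicit false

open scoped ContDiff Topology
open Metric Set Filter
open Crest.GeometryTopology.CoordMetric
open Crest.Agent.N207.I Crest.Agent.N207.CB

noncomputable section

namespace Crest.Agent.N207.NS

namespace Dl

variable {M : Type*} {T : TD M} {g : T.V → Fam T} {L : T.V → ℝ} {w : T.V} {T0 t : ℝ} {x : E4}

theorem uw (h : T.Ok) (L : T.V → ℝ) (s : T.S) :
    U1 T L s ⊆ W1 T L s ∧ W1 T L s ⊆ (T.glob L).U s := by
  rcases s with a | w
  · exact ⟨ball_subset_ball (by norm_num), ball_subset_ball (by norm_num)⟩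
  · have := mul_pos h.r_pos (Real.exp_pos (L w))
    exact ⟨fun x hx => ⟨by linarith [hx.1], fun hw => by linarith [hx.2 hw]⟩,
      fun x hx => ⟨by linarith [hx.1], fun hw => by linarith [hx.2 hw]⟩⟩

theorem par_ne (h : T.Ok) (hw : w ≠ T.root) : w ≠ T.par w := fun e => by
  have := h.dep_par w hw
  rw [← e] at this; omega

theorem eps_alt (h : T.Ok) (L : T.V → ℝ) (w : T.V) (t : ℝ) (v : T.V) :
    T.eps (Function.update L w (L w + t)) v = T.eps L v ∨
      (T.eps (Function.update L w (L w + t)) v = Real.exp (-t) * T.eps L v ∧ T.dep w ≤ T.dep v) := by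
  induction v using h.ind with
  | h0 => exact Or.inl (by rw [h.eps_root, h.eps_root])
  | h1 v hv ih =>
    have hd := h.dep_par v hv
    rw [h.eps_kid _ hv, h.eps_kid L hv]
    by_cases e : v = w
    · subst e
      refine Or.inr ⟨?_, le_rfl⟩
      rw [ih.resolve_right fun h' => by omega, Function.update_self, neg_add, Real.exp_add]; ring
    · rw [Function.update_of_ne e]
      exact ih.imp (fun h' => by rw [h']) fun h' => ⟨by rw [h'.1]; ring, by omega⟩

theorem eps_w (h : T.Ok) (hw : w ≠ T.root) (L : T.V → ℝ) (t : ℝ) :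
    T.eps (Function.update L w (L w + t)) w / T.eps L w = Real.exp (-t) := by
  have hd := h.dep_par w hw
  rw [div_eq_iff (TD.eps_pos L w).ne', h.eps_kid _ hw, h.eps_kid L hw,
    (eps_alt h L w t (T.par w)).resolve_right fun h' => by omega, Function.update_self, neg_add,
    Real.exp_add]
  ring

theorem ep_sq (h : T.Ok) (ht : |t| ≤ 1) (L : T.V → ℝ) (w : T.V) (s : T.S) :
    |(ep T (Function.update L w (L w + t)) s / ep T L s) ^ 2 - 1| ≤ 8 * |t| := by
  rcases eps_alt h L w t (T.un s) with e | ⟨e, -⟩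
  · rw [ep, e, div_self (ep_pos L s).ne']; simp
  · rw [ep, e, mul_div_assoc, div_self (ep_pos L s).ne', mul_one]; exact sq_exp ht

theorem own_flat (hx : Real.exp (T0 + 1 / 10) ≤ ‖x‖) : gb T g T0 w (Sum.inr w) x = 1 := by
  have h1 : T0 + 1 / 10 ≤ Real.log ‖x‖ :=
    (Real.le_log_iff_exp_le ((Real.exp_pos _).trans_le hx)).2 hx
  have h2 : stp 0 (1 / 10) (tau T w w T0 x) = 1 := Real.smoothTransition.one_of_one_le
    ((one_le_div (by norm_num)).2 (by simp only [tau, if_true]; linarith))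
  simp only [gb, Sum.elim_inr, h2]; simp

theorem par_flat (h : T.Ok) (hw : w ≠ T.root) {L0 : ℝ} (hL : 2 * T0 + 4 ≤ L0) (h0 : 0 < ‖x‖)
    (hx : ‖x‖ ≤ Real.exp (T0 + 3)) :
    gb T g T0 (T.par w) (Sum.inr w) (Real.exp (-L0) • x) = 1 := by
  have h1 : Real.log ‖Real.exp (-L0) • x‖ ≤ -L0 + (T0 + 3) := by
    rw [norm_smul, Real.norm_of_nonneg (Real.exp_pos _).le, Real.log_mul (Real.exp_pos _).ne' h0.ne',
      Real.log_exp]
    linarith [(Real.log_le_iff_le_exp h0).2 hx]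
  have h2 : stp 0 (1 / 10) (tau T (T.par w) w T0 (Real.exp (-L0) • x)) = 1 :=
    Real.smoothTransition.one_of_one_le ((one_le_div (by norm_num)).2 (by
      simp only [tau, if_neg (par_ne h hw)]; linarith))
  simp only [gb, Sum.elim_inr, h2]; simp

theorem gbL_inr (hw : w ≠ T.root) (L : T.V → ℝ) (x : E4) : gbL T g T0 L (Sum.inr w) x =
    gb T g T0 w (Sum.inr w) x + (gb T g T0 (T.par w) (Sum.inr w) (Real.exp (-L w) • x) - 1) := by
  simp only [gbL, Sum.elim_inr, if_neg hw]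

/-- the family of maps -/
def uF (T : TD M) (w : T.V) (T0 t : ℝ) : T.S → E4 → E4 :=
  fun s => if s = Sum.inr w then uu T0 t else fun x => x

theorem uF_w : uF T w T0 t (Sum.inr w) = uu T0 t := if_pos rfl

theorem uF_ne {s : T.S} (hs : s ≠ Sum.inr w) : uF T w T0 t s = fun x => x := if_neg hs

theorem same {s : T.S} (hs : s ≠ Sum.inr w) (a : ℝ) :
    (T.glob (Function.update L w a)).c s = (T.glob L).c s ∧
      W1 T (Function.update L w a) s = W1 T L s ∧
      gbL T g T0 (Function.update L w a) s = gbL T g T0 L s ∧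
      ∀ x O, (T.glob L).c s x ≠ Sum.inr (w, O) := by
  rcases s with b | v
  · exact ⟨rfl, rfl, rfl, fun _ _ => Sum.inl_ne_inr⟩
  · have hv : v ≠ w := fun e => hs (congrArg _ e)
    refine ⟨?_, ?_, ?_, fun x O => ?_⟩
    · simp only [TD.glob, Sum.elim_inr, Function.update_of_ne hv]
    · simp only [W1, Sum.elim_inr, Function.update_of_ne hv]
    · simp only [gbL, Sum.elim_inr, Function.update_of_ne hv]
    · simp only [TD.glob, Sum.elim_inr]
      split_ifs <;> simp [hv]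

theorem e4 (h3 : 3 ≤ T0) {c : ℝ} (hc : 0 ≤ c) : 4 ≤ Real.exp (T0 + c) := by
  linarith [Real.add_one_le_exp (T0 + c)]

theorem cancel (L0 t : ℝ) (x : E4) :
    Real.exp (-(L0 + t)) • Real.exp t • x = Real.exp (-L0) • x := by
  rw [smul_smul, ← Real.exp_add]; congr 2; ring

theorem small (ht : |t| ≤ 1) (hk : Real.exp (T0 + 5) ≤ T.r / 4 * Real.exp (L w))
    (h : ‖x‖ ≤ Real.exp (T0 + 2)) : ‖uu T0 t x‖ ≤ T.r / 4 * Real.exp (L w + t) := by
  refine (uu_le ht h).trans ?_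
  have h1 : Real.exp (T0 + 3) ≤ Real.exp (T0 + 5) * Real.exp t := by
    rw [← Real.exp_add]; exact Real.exp_le_exp.2 (by linarith [(abs_le.1 ht).1])
  rw [Real.exp_add (L w), ← mul_assoc]
  exact h1.trans (mul_le_mul_of_nonneg_right hk (Real.exp_pos _).le)

theorem lt_iff (r L0 : ℝ) (x : E4) : r < ‖Real.exp (-L0) • x‖ ↔ r * Real.exp L0 < ‖x‖ := by
  rw [norm_smul, Real.norm_of_nonneg (Real.exp_pos _).le, Real.exp_neg, ← div_eq_inv_mul,
    lt_div_iff₀ (Real.exp_pos _)]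

theorem chart (hw : w ≠ T.root) (h3 : 3 ≤ T0) (ht : |t| ≤ 1)
    (hk : Real.exp (T0 + 5) ≤ T.r / 4 * Real.exp (L w)) (x : E4) :
    ((T.glob (Function.update L w (L w + t))).c (Sum.inr w) (uu T0 t x) =
      (T.glob L).c (Sum.inr w) x ∧ ∀ O, (T.glob L).c (Sum.inr w) x ≠ Sum.inr (w, O)) ∨
    ((T.glob L).c (Sum.inr w) x = Sum.inr (w, T.orb w x) ∧
      (T.glob (Function.update L w (L w + t))).c (Sum.inr w) (uu T0 t x) =
        Sum.inr (w, T.orb w (uu T0 t x))) := by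
  simp only [TD.glob, Sum.elim_inr, Function.update_self]
  by_cases h1 : ‖x‖ < 4
  · rw [uu_lo (h1.le.trans (e4 h3 (by norm_num)))]
    simp [h1]
  have h4 : ¬ ‖uu T0 t x‖ < 4 := by
    by_cases h : ‖x‖ ≤ Real.exp (T0 + 5 / 4)
    · rwa [uu_lo h]
    · exact not_lt.2 ((e4 h3 (by norm_num)).trans (uu_ge ht (not_le.1 h).le))
  by_cases h2 : T.r / 4 < ‖Real.exp (-L w) • x‖
  · have h5 : Real.exp (T0 + 7 / 4) ≤ ‖x‖ :=
      ((Real.exp_le_exp.2 (by linarith)).trans hk).trans ((lt_iff _ _ _).1 h2).le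
    rw [if_neg h4, if_neg h1, uu_hi h5, cancel]
    simp [hw, h2]
  · have h5 : ¬ T.r / 4 < ‖Real.exp (-(L w + t)) • uu T0 t x‖ := by
      by_cases h : ‖x‖ ≤ Real.exp (T0 + 2)
      · rw [lt_iff]; exact not_lt.2 (small ht hk h)
      · rwa [uu_hi ((Real.exp_le_exp.2 (by linarith)).trans (not_le.1 h).le), cancel]
    right
    rw [if_neg h4, if_neg h1, if_neg fun h => h2 h.2, if_neg fun h => h5 h.2]
    exact ⟨rfl, rfl⟩

theorem nid (h : T.Ok) (hw : w ≠ T.root) (h3 : 3 ≤ T0) (ht : |t| ≤ 1)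
    (hk : Real.exp (T0 + 5) ≤ T.r / 4 * Real.exp (L w)) {δ : ℝ} (hδ : 0 ≤ δ)
    (hn : ∀ x : E4, 1 ≤ ‖x‖ → ∀ k ≤ 3,
      ‖x‖ ^ k * ‖iteratedFDeriv ℝ k (fun y => uu T0 t y - y) x‖ ≤ δ * ‖x‖) :
    NId T L (Function.update L w (L w + t)) δ (uF T w T0 t) := by
  have hs := fun s (hs : s ≠ Sum.inr w) =>
    same (g := fun _ _ _ => 0) (T0 := T0) (L := L) hs (L w + t)
  refine ⟨fun s => ?_, fun s => ?_, fun s s' x _ y _ e => ?_, fun s x hx k hk => ?_,
    0, 0, fun x _ k _ => ?_⟩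
  · by_cases e : s = Sum.inr w
    · rw [e, uF_w]; exact (uu_sm1 T0 t).contDiffOn
    · rw [uF_ne e]; exact contDiffOn_id
  · by_cases e : s = Sum.inr w
    · subst e
      rw [uF_w]
      intro x hx
      have hr := h.r_pos
      refine ⟨?_, fun _ => ?_⟩
      · by_cases h1 : ‖x‖ ≤ Real.exp (T0 + 5 / 4)
        · rw [uu_lo h1]; linarith [hx.1]
        · linarith [uu_ge ht (not_le.1 h1).le, e4 h3 (show (0 : ℝ) ≤ 1 / 4 by norm_num)]
      · rw [Function.update_self]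
        have h2 := mul_pos hr (Real.exp_pos (L w + t))
        by_cases h1 : ‖x‖ ≤ Real.exp (T0 + 2)
        · linarith [small ht hk h1]
        · rw [uu_hi ((Real.exp_le_exp.2 (by linarith)).trans (not_le.1 h1).le), norm_smul,
            Real.norm_of_nonneg (Real.exp_pos _).le]
          have := mul_lt_mul_of_pos_left (hx.2 hw) (Real.exp_pos t)
          rw [Real.exp_add] at h2 ⊢
          linarith
    · rw [uF_ne e, (hs s e).2.1]; exact (uw h L s).1
  · by_cases e1 : s = Sum.inr w <;> by_cases e2 : s' = Sum.inr w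
    · subst e1 e2
      rw [uF_w]
      rcases chart hw h3 ht hk x with ⟨a1, a2⟩ | ⟨a1, a2⟩ <;>
        rcases chart hw h3 ht hk y with ⟨b1, b2⟩ | ⟨b1, b2⟩
      · rw [a1, b1, e]
      · exact absurd (e.trans b1) (a2 _)
      · exact absurd (e.symm.trans a1) (b2 _)
      · have e3 : T.orb w x = T.orb w y := by
          rw [a1, b1] at e; exact congrArg Prod.snd (Sum.inr.inj e)
        obtain ⟨γ, hγ, rfl⟩ : y ∈ T.orb w x := e3 ▸ TD.mem_orb w y
        rw [a2, b2, uu_iso, TD.orb_inv hγ]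
    · subst e1
      rw [uF_w, uF_ne e2, (hs _ e2).1]
      rcases chart hw h3 ht hk x with ⟨a1, -⟩ | ⟨a1, -⟩
      · rw [a1, e]
      · exact absurd (e.symm.trans a1) ((hs _ e2).2.2.2 _ _)
    · subst e2
      rw [uF_w, uF_ne e1, (hs _ e1).1]
      rcases chart hw h3 ht hk y with ⟨a1, -⟩ | ⟨a1, -⟩
      · rw [a1, e]
      · exact absurd (e.trans a1) ((hs _ e1).2.2.2 _ _)
    · rw [uF_ne e1, uF_ne e2, (hs _ e1).1, (hs _ e2).1]; exact e
  · by_cases e : s = Sum.inr w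
    · subst e
      rw [uF_w]
      exact hn x (by linarith [hx.1]) k hk
    · simp only [uF_ne e, sub_self, iteratedFDeriv_fun_zero, Pi.zero_apply, norm_zero, mul_zero]
      refine mul_nonneg hδ ?_
      cases s
      exacts [zero_le_one, norm_nonneg _]
  · simp [uF_ne (T := T) (s := Sum.inr T.root) fun e => hw (Sum.inr.inj e).symm]

theorem scal {H H' : MetricField 4} {c : ℝ} {a b : Fin 4} {k : ℕ}
    (hH : ContDiffAt ℝ ∞ (fun y => H y a b) x) (e : ∀ᶠ y in 𝓝 x, H' y = c • H y) :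
    ‖iteratedFDeriv ℝ k (fun y => (H' y - H y) a b) x‖ =
      |c - 1| * ‖iteratedFDeriv ℝ k (fun y => H y a b) x‖ := by
  have e1 : (fun y => (H' y - H y) a b) =ᶠ[𝓝 x] fun y => (c - 1) • H y a b :=
    e.mono fun y hy => by simp only [hy, Matrix.sub_apply, Matrix.smul_apply, smul_eq_mul]; ring
  rw [(e1.iteratedFDeriv ℝ k).self_of_nhds,
    iteratedFDeriv_const_smul_apply' (hH.of_le (by exact_mod_cast le_top)), norm_smul,
    Real.norm_eq_abs]

end Dl

open Dl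

variable {M : Type*} {T : TD M} {g : T.V → Fam T}

theorem dil (h : Std T g) (hG : GB T g) (hE : ELL T g) : DIL T g := by
  obtain ⟨T1, hG⟩ := hG
  obtain ⟨C0, hG⟩ := hG 0
  obtain ⟨δ, Λ, T2, hδ, hΛ, hE⟩ := hE
  have hr := h.ok.r_pos
  refine ⟨max (max T1 T2) (max 5 (5 - Real.log (T.r / 4))), fun T0 hT => ?_⟩
  simp only [max_le_iff] at hT
  obtain ⟨⟨t1, t2⟩, t3, -⟩ := hT
  obtain ⟨C1, c1, h1⟩ := uu_near (T0 := T0) (by linarith)
  obtain ⟨C2, c2, h2⟩ := uu_flat (T0 := T0) (by linarith)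
  refine ⟨C1 + C2 + 8 * Λ, by positivity, fun L hL w hw t ht => ?_⟩
  have a0 := abs_nonneg t
  have hLw := hL w hw
  have l1 := le_max_right (max T1 T2) (max 5 (5 - Real.log (T.r / 4)))
  have l2 := le_max_left (max T1 T2) (max 5 (5 - Real.log (T.r / 4)))
  simp only [max_le_iff] at l1 l2
  have hk : Real.exp (T0 + 5) ≤ T.r / 4 * Real.exp (L w) := by
    rw [← Real.exp_log (show 0 < T.r / 4 by positivity), ← Real.exp_add]
    exact Real.exp_le_exp.2 (by linarith [l1.2])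
  have hm := riem_of_rt ((hG T0 t1).2 L (hL.mono (by linarith [l2.1]))).2.1
  have hb : ∀ s, ∀ x ∈ U1 T L s, ∀ k ≤ 2, ∀ (a b : Fin 4) (H' : MetricField 4),
      (∀ᶠ y in 𝓝 x, H' y = (ep T (Function.update L w (L w + t)) s / ep T L s) ^ 2 •
        gbL T g T0 L s y) → scl T s x ^ k *
      ‖iteratedFDeriv ℝ k (fun y => (H' y - gbL T g T0 L s y) a b) x‖ ≤
        (C1 + C2 + 8 * Λ) * |t| := by
    intro s x hx k hk a b H' e
    have x1 := (uw h.ok L s).1 hx
    have x2 := (uw h.ok L s).2 x1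
    have := (hE T0 t2 L (hL.mono (by linarith [l2.2])) (gbL T g T0 L) s x x1 ((hm s).posDef x x2)
      fun p q => by simpa using hδ.le).2.2.2.2 k (by omega) a b
    rw [scal (((hm s).contDiffOn a b).contDiffAt ((hm s).isOpen.mem_nhds x2)) e, mul_left_comm]
    have hs : 0 ≤ scl T s x := by cases s; exacts [zero_le_one, norm_nonneg _]
    have := mul_le_mul (ep_sq h.ok ht L w s) this (by positivity) (by positivity)
    nlinarith [mul_nonneg c1 a0, mul_nonneg c2 a0]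
  have hL1 : 2 * T0 + 4 ≤ L w := by linarith [l1.1]
  have hL2 : 2 * T0 + 4 ≤ L w + t := by linarith [l1.1, (abs_le.1 ht).1]
  have ee : ∀ {a b : ℝ}, a ≤ b → Real.exp (T0 + a) ≤ Real.exp (T0 + b) := fun h =>
    Real.exp_le_exp.2 (by linarith)
  refine ⟨uF T w T0 t, nid h.ok hw (by linarith) ht hk (by positivity) fun x hx k hk =>
    (h1 t ht x hx k hk).trans (by gcongr; linarith), fun s hs x => by rw [uF_ne hs],
    fun x hx => by rw [uF_w, uu_lo (hx.trans (ee (by norm_num)))],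
    fun x hx => by rw [uF_w, uu_hi ((ee (by norm_num)).trans hx)], fun s x hx k hk a b => ?_⟩
  by_cases e : s = Sum.inr w
  swap
  · refine hb s x hx k hk a b _ (Eventually.of_forall fun y => ?_)
    rw [pb, uF_ne e, (same e _).2.2.1,
      pm_dil (a := 1) (Eventually.of_forall fun z => (one_smul _ _).symm)]
    simp
  subst e
  have x0 : 0 < ‖x‖ := by linarith [hx.1]
  have n0 := continuous_norm.continuousAt.eventually (lt_mem_nhds x0)
  have ew : ep T (Function.update L w (L w + t)) (Sum.inr w) / ep T L (Sum.inr w) =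
      Real.exp (-t) := eps_w h.ok hw L t
  by_cases r1 : ‖x‖ < Real.exp (T0 + 5 / 4)
  · refine hb _ x hx k hk a b _ ?_
    filter_upwards [n0, (continuous_norm.continuousAt.eventually
      (gt_mem_nhds r1)).eventually_nhds] with y y0 hy
    have y1 := hy.self_of_nhds.le.trans (ee (show (5 : ℝ) / 4 ≤ 3 by norm_num))
    rw [pb, uF_w, pm_dil (a := 1) (hy.mono fun z hz => by rw [uu_lo hz.le, one_smul]), one_smul,
      gbL_inr hw, gbL_inr hw, Function.update_self, par_flat h.ok hw hL1 y0 y1,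
      par_flat h.ok hw hL2 y0 y1, one_pow, one_smul]
  by_cases r2 : Real.exp (T0 + 7 / 4) < ‖x‖
  · have e1 : (fun y => (pb T L (Function.update L w (L w + t)) (uF T w T0 t)
        (gbL T g T0 (Function.update L w (L w + t))) (Sum.inr w) y -
          gbL T g T0 L (Sum.inr w) y) a b) =ᶠ[𝓝 x] fun _ => 0 := by
      filter_upwards [(continuous_norm.continuousAt.eventually
        (lt_mem_nhds r2)).eventually_nhds] with y hy
      have y1 := hy.self_of_nhds.le
      have y2 : Real.exp (T0 + 1 / 10) ≤ ‖Real.exp t • y‖ := by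
        rw [← uu_hi y1]; exact (ee (by norm_num)).trans (uu_ge ht ((ee (by norm_num)).trans y1))
      rw [pb, uF_w, ew, pm_dil (hy.mono fun z hz => uu_hi hz.le), smul_smul, ← mul_pow,
        ← Real.exp_add, neg_add_cancel, Real.exp_zero, one_pow, one_smul, gbL_inr hw, gbL_inr hw,
        Function.update_self, cancel, own_flat y2, own_flat ((ee (by norm_num)).trans y1), sub_self]
      rfl
    rw [(e1.iteratedFDeriv ℝ k).self_of_nhds]
    simp only [iteratedFDeriv_fun_zero, Pi.zero_apply, norm_zero, mul_zero]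
    positivity
  have r3 : Real.exp (T0 + 1) < ‖x‖ := (Real.exp_lt_exp.2 (by linarith)).trans_le (not_lt.1 r1)
  have r4 : ‖x‖ < Real.exp (T0 + 2) := (not_lt.1 r2).trans_lt (Real.exp_lt_exp.2 (by linarith))
  have e1 : (fun y => (pb T L (Function.update L w (L w + t)) (uF T w T0 t)
      (gbL T g T0 (Function.update L w (L w + t))) (Sum.inr w) y -
        gbL T g T0 L (Sum.inr w) y) a b) =ᶠ[𝓝 x]
      fun y => (Real.exp (-t) ^ 2 • pm (uu T0 t) (fun _ => 1) y - 1) a b := by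
    filter_upwards [n0, continuous_norm.continuousAt.eventually (lt_mem_nhds r3),
      continuous_norm.continuousAt.eventually (gt_mem_nhds r4)] with y y0 y1 y2
    have y3 : Real.exp (T0 + 1 / 10) ≤ ‖uu T0 t y‖ := by
      by_cases q : ‖y‖ ≤ Real.exp (T0 + 5 / 4)
      · rw [uu_lo q]; exact (ee (by norm_num)).trans y1.le
      · exact (ee (by norm_num)).trans (uu_ge ht (not_le.1 q).le)
    have y4 : gbL T g T0 (Function.update L w (L w + t)) (Sum.inr w) (uu T0 t y) = 1 := by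
      rw [gbL_inr hw, Function.update_self, own_flat y3,
        par_flat h.ok hw hL2 ((Real.exp_pos _).trans_le y3) (uu_le ht y2.le), sub_self, add_zero]
    have y5 : pm (uu T0 t) (gbL T g T0 (Function.update L w (L w + t)) (Sum.inr w)) y =
        pm (uu T0 t) (fun _ => 1) y := by
      ext p q; simp only [pm_apply, y4]
    rw [pb, uF_w, ew, y5, gbL_inr hw, own_flat ((ee (by norm_num)).trans y1.le),
      par_flat h.ok hw hL1 y0 (y2.le.trans (ee (by norm_num))), sub_self, add_zero]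
  rw [(e1.iteratedFDeriv ℝ k).self_of_nhds]
  refine (h2 t ht x r4.le a b k hk).trans ?_
  gcongr
  linarith

end Crest.Agent.N207.NS

end
end

-- ▼ part N207/N/Cmpt
section

/-!
# Row 207, block N (helper78): transport of integrals by maps near the identity
-/

set_option autoImplicit false

open scoped ContDiff Topology ENNReal
open Metric Set Filter MeasureTheory
open Crest.GeometryTopology.CoordMetric Crest.Agent.R202.Tens
open Crest.Agent.N207.I Crest.Agent.N207.Lg Crest.Agent.N207.CB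

noncomputable section

namespace Crest.Agent.N207.NS.Ct

variable {M : Type*} {T : TD M} {L : T.V → ℝ} {u : T.S → E4 → E4}

/-- the conclusion of `INT` for `L' = L` -/
def Inv (T : TD M) (L : T.V → ℝ) (u : T.S → E4 → E4) : Prop :=
  ∀ (H : T.S → MetricField 4) (f : T.S → E4 → ℝ), (T.glob L).IsMet H →
    (T.glob L).CompF f → (T.glob L).Intg T.χ H f →
    (gl1 T L).Intg T.χ (fun s => pm (u s) (H s)) (fun s x => f s (u s x)) ∧
      (gl1 T L).int T.χ (fun s => pm (u s) (H s)) (fun s x => f s (u s x)) =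
        (T.glob L).int T.χ H f

theorem int_of_IntL (c : Ch T L) {f : T.S → E4 → ℝ} (h : IntL T L f) (s : T.S) :
    IntegrableOn (fun x => T.χ s ((T.glob L).c s x) * f s x) ((T.glob L).U s) :=
  (h s).of_forall_sdiff_eq_zero ((c.ok.glob_ok c.long).isOpen s).measurableSet fun x hx => by
    by_contra h
    exact hx.2 (c.gK_U1 s (c.χ_supp hx.1 (left_ne_zero_of_mul h)))

theorem intL_pb (c : Ch T L) (hint : Inv T L u) {H : Fam T} (hH : (T.glob L).IsMet (rt T L H))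
    {f : T.S → E4 → ℝ} (hf : (T.glob L).CompF fun s x => (ep T L s ^ 2)⁻¹ * f s x)
    (hI : IntL T L fun s x => sq (H s) x * f s x) :
    IntL T L (fun s x => sq (pm (u s) (H s)) x * f s (u s x)) ∧
      intL T L (fun s x => sq (pm (u s) (H s)) x * f s (u s x)) =
        intL T L fun s x => sq (H s) x * f s x := by
  have hA := c.ok.glob_ok c.long
  have e1 : ∀ s x, (T.glob L).den T.χ (rt T L H) s x * ((ep T L s ^ 2)⁻¹ * f s x) = ep T L s ^ 2 *
      (Nat.card (T.grp s) : ℝ)⁻¹ * (T.χ s ((T.glob L).c s x) * (sq (H s) x * f s x)) :=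
    fun s x => by
      change (Nat.card (T.grp s) : ℝ)⁻¹ * (_ * sq (fun z => ep T L s ^ 2 • H s z) x) * _ = _
      have := (ep_pos L s).ne'
      rw [sq_cs]; field_simp
  have e2 : ∀ s x, (gl1 T L).den T.χ (fun s => pm (u s) (rt T L H s)) s x *
      ((ep T L s ^ 2)⁻¹ * f s (u s x)) = ep T L s ^ 2 * (Nat.card (T.grp s) : ℝ)⁻¹ *
        (T.χ s ((T.glob L).c s x) * (sq (pm (u s) (H s)) x * f s (u s x))) := fun s x => by
    change (Nat.card (T.grp s) : ℝ)⁻¹ * (T.χ s ((T.glob L).c s x) *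
      sq (pm (u s) fun z => ep T L s ^ 2 • H s z) x) * _ = _
    have := (ep_pos L s).ne'
    rw [pm_cs, sq_cs]; field_simp
  obtain ⟨i1, i2⟩ := hint (rt T L H) _ hH hf fun s => by
    simp only [e1]; exact (int_of_IntL c hI s).const_mul _
  refine ⟨fun s => ?_, ?_⟩
  · have h0 : ep T L s ^ 2 * (Nat.card (T.grp s) : ℝ)⁻¹ ≠ 0 :=
      mul_ne_zero (pow_pos (ep_pos L s) 2).ne' (inv_ne_zero (Atl.card_pos hA s).ne')
    have h1 := (i1 s).const_mul (ep T L s ^ 2 * (Nat.card (T.grp s) : ℝ)⁻¹)⁻¹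
    simp only [e2, inv_mul_cancel_left₀ h0] at h1
    exact h1
  · simp only [Atl.int, e1, e2, integral_const_mul, c.int_U] at i2
    simp only [intL, ← mul_assoc]
    simp only [← mul_assoc] at i2
    exact i2

theorem matT_pm (u : E4 → E4) (X : MetricField 4) : matT (pm u X) = pullT u (matT X) :=
  funext fun _ => arr2_ext fun _ _ => rfl

theorem rel_pm (u : E4 → E4) (V : Set E4) (X : MetricField 4) : Rel u V (matT (pm u X)) (matT X) :=
  fun y _ => congrFun (matT_pm u X) y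

theorem ip_rt (b X Y : Fam T) (s : T.S) (x : E4) :
    ip (rt T L b s) (matT (rt T L X s)) (matT (rt T L Y s)) x =
      ip (b s) (matT (X s)) (matT (Y s)) x := by
  have h := (pow_pos (ep_pos L s) 2).ne'
  refine (N207.M.ip_smul_met h (b s) _ _ x).trans ?_
  simp only [ip, ipA_two, matT, rt, Matrix.smul_apply, smul_eq_mul, Finset.mul_sum]
  refine Finset.sum_congr rfl fun _ _ => Finset.sum_congr rfl fun _ _ =>
    Finset.sum_congr rfl fun _ _ => Finset.sum_congr rfl fun _ _ => ?_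
  have := (ep_pos L s).ne'
  field_simp


theorem intL_prL (c : Ch T L) {b Φ k : Fam T} {v : T.V} {d : ℝ} (hb : Met1 T L b)
    (hΦ : ∀ s a b, ContinuousOn (fun x => Φ s x a b) (U1 T L s))
    (hk : ∀ s a b, ContinuousOn (fun x => k s x a b) (U1 T L s))
    (hz : ∀ s, ∀ x ∈ U1 T L s, ¬ InK T L v d s x → Φ s x = 0) :
    IntL T L fun s x => sr T L v s * (sq (b s) x * ip (b s) (matT (Φ s)) (matT (k s)) x) := by
  refine c.intL_of_supp (v := v) (d := d) (fun s => continuousOn_const.mul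
    ((sm_sqrt_det (hb.riem s)).continuousOn.mul ?_)) fun s x hx hn => ?_
  · unfold ip
    simp only [ipA_two, matT]
    refine continuousOn_finsetSum _ fun _ _ => continuousOn_finsetSum _ fun _ _ =>
      continuousOn_finsetSum _ fun _ _ => continuousOn_finsetSum _ fun _ _ =>
      ((sm_inv (hb.riem s) _ _).continuousOn.mul (sm_inv (hb.riem s) _ _).continuousOn).mul
        ((hΦ s _ _).mul (hk s _ _))
  · simp [ip, ipA_two, matT, hz s x hx hn]

theorem prL_sub (c : Ch T L) {b Φ k k' : Fam T} {v : T.V} {d : ℝ} (hb : Met1 T L b)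
    (hΦ : ∀ s a b, ContinuousOn (fun x => Φ s x a b) (U1 T L s))
    (hk : ∀ s a b, ContinuousOn (fun x => k s x a b) (U1 T L s))
    (hk' : ∀ s a b, ContinuousOn (fun x => k' s x a b) (U1 T L s))
    (hz : ∀ s, ∀ x ∈ U1 T L s, ¬ InK T L v d s x → Φ s x = 0) :
    prL T L b v Φ (k - k') = prL T L b v Φ k - prL T L b v Φ k' := by
  rw [prL, prL, prL, ← intL_sub (intL_prL c hb hΦ hk hz) (intL_prL c hb hΦ hk' hz)]
  congr 1
  funext s x
  simp only [ip, ipA_two, matT, Pi.sub_apply, Matrix.sub_apply, mul_sub,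
    Finset.sum_sub_distrib]

/-- invariance of the pairing -/
theorem prL_pb (c : Ch T L) (hint : Inv T L u) {b Φ k : Fam T} {v : T.V} {d : ℝ}
    (hb : (T.glob L).IsMet (rt T L b))
    (p : ∀ s, Pull (pm (u s) (b s)) (b s) (u s) (U1 T L s) ((T.glob L).U s))
    (hΦ : (T.glob L).Sec fun s => matT (rt T L Φ s)) (hk : (T.glob L).Sec fun s => matT (rt T L k s))
    (hz : ∀ s, ∀ x ∈ U1 T L s, ¬ InK T L v d s x → Φ s x = 0) :
    prL T L (pb T L L u b) v (pb T L L u Φ) (pb T L L u k) = prL T L b v Φ k := by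
  have h1 := intL_prL c (c.met1 hb) (fun s a b => (sm_of_rt ((c.sec1 hΦ).sm s) a b).continuousOn)
    (fun s a b => (sm_of_rt ((c.sec1 hk).sm s) a b).continuousOn) hz
  have h2 := (intL_pb c hint hb (f := fun s x => sr T L v s * ip (b s) (matT (Φ s)) (matT (k s)) x)
    (by
      have := (hΦ.compat.ip (c.ok.glob_ok c.long) hb hk.compat).map fun t => (T.eps L v ^ 2)⁻¹ * t
      convert this using 3 with s x
      have := (ep_pos L s).ne'
      rw [ip_rt, sr]; field_simp)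
    (by simpa only [mul_left_comm] using h1)).2
  simp only [prL, Cg.pb_self]
  refine (c.intL_congr fun s x hx => ?_).trans (h2.trans (by simp only [mul_left_comm]))
  rw [(rel_pm _ _ _).ip (p s) (rel_pm _ _ _) hx, mul_left_comm]

theorem gau_eq (b G : MetricField 4) (x : E4) :
    gau (sq G x) (iv G x) (TG b G x) = sq G x * (1 / 2 * nsq G (gauT b G) x) := by
  rw [nsq_gauT, gau]; ring

/-- invariance of the norm of the gauge vector -/
theorem BB_pb (c : Ch T L) (hint : Inv T L u) {b G : Fam T}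
    (hb : (T.glob L).IsMet (rt T L b)) (hG : (T.glob L).IsMet (rt T L G))
    (p : ∀ s, Pull (pm (u s) (b s)) (b s) (u s) (U1 T L s) ((T.glob L).U s))
    (q : ∀ s, Pull (pm (u s) (G s)) (G s) (u s) (U1 T L s) ((T.glob L).U s))
    (hI : IntL T L fun s x => gau (sq (G s) x) (iv (G s) x) (TG (b s) (G s) x)) :
    BB T L (pb T L L u b) (pb T L L u G) = BB T L b G := by
  have hA := c.ok.glob_ok c.long
  simp only [gau_eq] at hI
  have h2 := (intL_pb c hint hG (f := fun s x => 1 / 2 * nsq (G s) (gauT (b s) (G s)) x)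
    (by
      have h3 : (T.glob L).Compat fun s => gauT (rt T L b s) (rt T L G s) := fun a a' x F t => by
        obtain ⟨V, h1, h2, h3, -⟩ := t.exists_nbhd hA
        exact rel_gauT (hG.pull hA h1 h3) (hb.pull hA h1 h3) x h2
      have := (h3.nsq hA hG).map fun t => 1 / 2 * t
      convert this using 3 with s x
      have h := pow_pos (ep_pos L s) 2
      rw [show nsq (rt T L G s) (gauT (rt T L b s) (rt T L G s)) x = _ from
        (congrArg (nsq _ · x) (gauT_cs h h (b s) (G s))).trans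
          (N207.M.nsq_smul_met h.ne' (G s) _ x)]
      ring) hI).2
  simp only [BB, Cg.pb_self, gau_eq]
  refine (c.intL_congr fun s x hx => ?_).trans h2
  rw [nsq, nsq, (rel_gauT (q s) (p s)).ip (q s) (rel_gauT (q s) (p s)) hx]

theorem rt_nrm (G : T.S → MetricField 4) : rt T L (T.nrm L G) = G := by
  funext s x
  exact smul_inv_smul₀ (pow_pos (ep_pos L s) 2).ne' _

theorem adm_flat (c : Ch T L) {g : T.V → Fam T} {T0 δ : ℝ} {G : T.S → MetricField 4}
    (hG : (T.glob L).IsMet G) (hF : Sk.Flat T G)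
    (h : Cls T (U1 T L) 2 δ (T.nrm L G) (gbL T g T0 L)) : Adm T g T0 L δ (T.nrm L G) := by
  refine ⟨c.met1 (by rwa [rt_nrm]), h, ?_⟩
  obtain ⟨R, hR⟩ := hF
  refine ⟨0, R + 1, fun x hx a b => ?_⟩
  have e : (fun y => (T.nrm L G (Sum.inr T.root) y - 1) a b) =ᶠ[𝓝 x] fun _ => 0 := by
    filter_upwards [(isOpen_lt continuous_const continuous_norm).mem_nhds
      (show R < ‖x‖ by linarith)] with y hy
    simp [TD.nrm, TD.un, c.ok.eps_root, hR y (le_of_lt hy)]
  beta_reduce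
  rw [e.fderiv_eq, e.eq_of_nhds]
  simp

/-- the weighted `L²` norm of the Ricci tensor -/
theorem ric_EE (c : Ch T L) {G : T.S → MetricField 4} (hG : (T.glob L).IsMet G) {E : ℝ}
    (hE : Sk.EE T L G ≤ ENNReal.ofReal (E ^ 2)) :
    IntL T L (fun s x => scl T s x ^ 2 *
      (sq (T.nrm L G s) x * nsq (T.nrm L G s) (ricT (T.nrm L G s)) x)) ∧
    intL T L (fun s x => scl T s x ^ 2 *
      (sq (T.nrm L G s) x * nsq (T.nrm L G s) (ricT (T.nrm L G s)) x)) ≤ E ^ 2 := by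
  have hA := c.ok.glob_ok c.long
  have hm : Met1 T L (T.nrm L G) := c.met1 (by rwa [rt_nrm])
  set f : T.S → E4 → ℝ := fun s x => T.χ s ((T.glob L).c s x) * (scl T s x ^ 2 *
    (sq (T.nrm L G s) x * nsq (T.nrm L G s) (ricT (T.nrm L G s)) x)) with hf
  set a : T.S → ℝ := fun s => ep T L s ^ 2 * (Nat.card (T.grp s) : ℝ)⁻¹ with ha
  have a0 : ∀ s, 0 < a s := fun s =>
    mul_pos (pow_pos (ep_pos L s) 2) (inv_pos.2 (Atl.card_pos hA s))
  have f0 : ∀ s, ∀ x ∈ U1 T L s, 0 ≤ f s x := fun s x hx => mul_nonneg (c.χ_nonneg _ _)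
    (mul_nonneg (sq_nonneg _) (mul_nonneg (Real.sqrt_nonneg _)
      (Ar.ipA_nonneg ((hm.riem s).posDef x hx) (ricT (T.nrm L G s) x))))
  have fc : ∀ s, ContinuousOn (f s) (U1 T L s) := fun s => (c.χ_sm s).continuousOn.mul
    (((scl_cont s).pow 2).continuousOn.mul ((sm_sqrt_det (hm.riem s)).continuousOn.mul
      ((SmT.ricT (hm.riem s)).nsq (hm.riem s)).continuousOn))
  have e : ∀ s x, ENNReal.ofReal ((T.glob L).den T.χ G s x) *
      ENNReal.ofReal (Sk.rw T L s x ^ 2 * nsq (G s) (ricT (G s)) x) =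
        ENNReal.ofReal (a s * f s x) := fun s x => by
    rw [← ENNReal.ofReal_mul (show 0 ≤ (T.glob L).den T.χ G s x from mul_nonneg (by positivity)
      (mul_nonneg (c.χ_nonneg _ _) (Real.sqrt_nonneg _)))]
    congr 1
    have h := (ep_pos L s).ne'
    have h2 : (ep T L s ^ 2)⁻¹ ≠ 0 := by positivity
    have e1 : ricT (T.nrm L G s) = ricT (G s) := by
      funext y I; exact ricci_csmul h2 (G s) y _ _
    have e2 : Sk.rw T L s x = ep T L s * scl T s x := by cases s <;> rfl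
    have e3 := sq_cs (ep T L s ^ 2)⁻¹ (G s) x
    have e4 := N207.M.nsq_smul_met h2 (G s) (ricT (G s)) x
    simp only [hf, ha, e1, e2]
    rw [show sq (T.nrm L G s) x = _ from e3, show nsq (T.nrm L G s) (ricT (G s)) x = _ from e4]
    change (Nat.card (T.grp s) : ℝ)⁻¹ * (_ * sq (G s) x) * _ = _
    field_simp
  simp only [Sk.EE, Atl.lint, e] at hE
  have h1 : ∑ s, ∫⁻ x in U1 T L s, ENNReal.ofReal (a s * f s x) ≤ ENNReal.ofReal (E ^ 2) :=
    (Finset.sum_le_sum fun s _ => lintegral_mono_set (c.U1_U s)).trans hE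
  have n0 : ∀ s, 0 ≤ᵐ[volume.restrict (U1 T L s)] fun x => a s * f s x := fun s =>
    (ae_restrict_iff' (c.op1 s).measurableSet).2 (Eventually.of_forall fun x hx =>
      mul_nonneg (a0 s).le (f0 s x hx))
  have i1 : ∀ s, IntegrableOn (fun x => a s * f s x) (U1 T L s) := fun s =>
    (lintegral_ofReal_ne_top_iff_integrable ((continuousOn_const.mul (fc s)).aestronglyMeasurable
      (c.op1 s).measurableSet) (n0 s)).1 (ne_top_of_le_ne_top ENNReal.ofReal_ne_top
        ((Finset.single_le_sum (f := fun s => ∫⁻ x in U1 T L s, ENNReal.ofReal (a s * f s x))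
          (fun _ _ => zero_le) (Finset.mem_univ s)).trans h1))
  refine ⟨fun s => ?_, ?_⟩
  · have := (i1 s).const_mul (a s)⁻¹
    simp only [inv_mul_cancel_left₀ (a0 s).ne'] at this
    exact this
  · simp only [← ofReal_integral_eq_lintegral_ofReal (i1 _) (n0 _)] at h1
    rw [← ENNReal.ofReal_sum_of_nonneg fun s _ => integral_nonneg_of_ae (n0 s),
      ENNReal.ofReal_le_ofReal_iff (sq_nonneg _)] at h1
    refine le_of_eq_of_le (Finset.sum_congr rfl fun s _ => ?_) h1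
    rw [integral_const_mul, ha, mul_assoc]

end Crest.Agent.N207.NS.Ct

end
end

-- ▼ part N207/N/Cmpt2
section

/-!
# Row 207, block N (helper78): the constraints of the comparison vanish
-/

set_option autoImplicit false

open scoped ContDiff Topology ENNReal
open Metric Set Filter MeasureTheory
open Crest.GeometryTopology.CoordMetric Crest.Agent.R202.Tens
open Crest.Agent.N207.I Crest.Agent.N207.Lg Crest.Agent.N207.CB

noncomputable section

namespace Crest.Agent.N207.NS.Ct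

variable {M : Type*} {T : TD M} {L : T.V → ℝ} {u : T.S → E4 → E4}

theorem pb_sub (L' : T.V → ℝ) (H H' : Fam T) :
    pb T L L' u (H - H') = pb T L L' u H - pb T L L' u H' := by
  funext s x
  ext p q
  simp only [pb, pm_apply, Pi.sub_apply, Matrix.sub_apply, Matrix.smul_apply, smul_eq_mul, mul_sub,
    Finset.sum_sub_distrib]

theorem sec_sub {H H' : Fam T} (h : (T.glob L).IsMet (rt T L H)) (h' : (T.glob L).IsMet (rt T L H')) :
    (T.glob L).Sec fun s => matT (rt T L (H - H') s) :=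
  ((Atl.Sec.met h).sub (Atl.Sec.met h')).congr fun s x _ => by
    funext I; simp [matT, rt, mul_sub]

theorem prl_zero (c : Ch T L) (hint : Inv T L u) {g : T.V → Fam T} {κ : T.V → Type}
    [∀ v, Fintype (κ v)] {ψ : ∀ v, κ v → Fam T} {T0 δ d : ℝ} {μ : (Σ v, κ v) → ℝ} {G G' : Fam T}
    (hb : (T.glob L).IsMet (rt T L (gbL T g T0 L)))
    (p1 : ∀ X : Fam T, (T.glob L).Sec (fun s => matT (rt T L X s)) →
      (gl1 T L).Sec fun s => matT (rt T L (pb T L L u X) s))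
    (p2 : Met1 T L (pb T L L u (gbL T g T0 L)) ∧ ∀ s, Pull (pm (u s) (gbL T g T0 L s))
      (gbL T g T0 L s) (u s) (U1 T L s) ((T.glob L).U s))
    (hin : ∀ s v d, ∀ x ∈ U1 T L s, InK T L v d s (u s x) → InK T L v (d + 1) s x)
    (hG : Met1 T L G) (h : LS T g T0 κ ψ δ L (th T g κ ψ T0 L u G) μ G') (j : Σ v, κ v)
    (t1 : (T.glob L).Sec fun s => matT (rt T L (toL T L j.1 (ψ j.1 j.2)) s))
    (t3 : ∀ s, ∀ x ∈ (T.glob L).U s, ¬ InK T L j.1 d s x → toL T L j.1 (ψ j.1 j.2) s x = 0)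
    (t6 : ∀ k : Fam T, (∀ s a b, ContinuousOn (fun y => k s y a b) (U1 T L s)) →
      prL T L (gbL T g T0 L) j.1 (toL T L j.1 (ψ j.1 j.2)) k =
        T.eps L j.1 ^ 2 * pair T g j.1 (ψ j.1 j.2) (loc T L j.1 k)) :
    prL T L (pb T L L u (gbL T g T0 L)) j.1 (pb T L L u (toL T L j.1 (ψ j.1 j.2)))
      (G - pb T L L u G') = 0 := by
  have hs := sec_sub (ls_met h) hb
  have e : G - pb T L L u G' =
      (G - pb T L L u (gbL T g T0 L)) - pb T L L u (G' - gbL T g T0 L) := by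
    rw [pb_sub]; abel
  have he := (pow_pos (TD.eps_pos L j.1) 2).ne'
  rw [e, prL_sub c (d := d + 1) p2.1 (fun s a b => (sm_of_rt ((p1 _ t1).sm s) a b).continuousOn)
    (fun s a b => (sm_of_rt ((hG.sec_sub p2.1).sm s) a b).continuousOn)
    (fun s a b => (sm_of_rt ((p1 _ hs).sm s) a b).continuousOn) (fun s x hx hn => by
      rw [Cg.pb_self]
      exact pm_zero (t3 s _ ((p2.2 s).maps x hx) fun e => hn (hin s _ _ x hx e))),
    prL_pb c hint hb p2.2 t1 hs fun s x hx => t3 s x (c.U1_U s hx),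
    t6 _ fun s a b => (sm_of_rt ((c.sec1 hs).sm s) a b).continuousOn, h.con j, th,
    mul_div_cancel₀ _ he, sub_self]

theorem intL_en (c : Ch T L) {H H' : Fam T} (h : Met1 T L H) (h' : Met1 T L H')
    (i : ∀ s, IntegrableOn (en T (H - H') s) (K1 T L s)) :
    IntL T L (en T (H - H')) ∧ intL T L (en T (H - H')) ≤ En T L (H - H') :=
  c.intL_le_K1 (c.en_cont fun s a b => sm_of_rt ((h.sec_sub h').sm s) a b)
    (fun _ _ _ => add_nonneg (e1_nn _ _) (div_nonneg (e0_nn _ _) (sq_nonneg _))) i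

theorem gau_intL (c : Ch T L) {b G : Fam T} {f : T.S → E4 → ℝ} (hb : Met1 T L b) (hG : Met1 T L G)
    (hf : IntL T L f) (h : ∀ s, ∀ x ∈ U1 T L s,
      gau (sq (G s) x) (iv (G s) x) (TG (b s) (G s) x) ≤ f s x) :
    IntL T L fun s x => gau (sq (G s) x) (iv (G s) x) (TG (b s) (G s) x) := by
  refine c.IntL_of_le hf (fun s => ?_) fun s x hx => ?_
  · simp only [gau_eq]
    exact (sm_sqrt_det (hG.riem s)).continuousOn.mul (continuousOn_const.mul
      ((smT_gauT (hb.riem s) (hG.riem s)).nsq (hG.riem s)).continuousOn)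
  · rw [abs_of_nonneg]
    · exact h s x hx
    · rw [gau_eq]
      exact mul_nonneg (Real.sqrt_nonneg _) (mul_nonneg (by norm_num)
        (Ar.ipA_nonneg ((hG.riem s).posDef x hx) (gauT (b s) (G s) x)))

/-- the gauge vector of the family is controlled by the energy of the difference -/
theorem bb_bound (c : Ch T L) (hint : Inv T L u) {b G g1 : Fam T} {C C' : ℝ} (hC : 0 ≤ C)
    (hb : (T.glob L).IsMet (rt T L b)) (hG : (T.glob L).IsMet (rt T L G))
    (p : Met1 T L (pb T L L u b) ∧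
      ∀ s, Pull (pm (u s) (b s)) (b s) (u s) (U1 T L s) ((T.glob L).U s))
    (q : Met1 T L (pb T L L u G) ∧
      ∀ s, Pull (pm (u s) (G s)) (G s) (u s) (U1 T L s) ((T.glob L).U s))
    (h1 : Met1 T L g1) (i1 : ∀ s, IntegrableOn (en T (G - b) s) (K1 T L s))
    (i2 : ∀ s, IntegrableOn (en T (g1 - pb T L L u G) s) (K1 T L s))
    (e1 : ∀ s, ∀ x ∈ U1 T L s,
      gau (sq (G s) x) (iv (G s) x) (TG (b s) (G s) x) ≤ C' * en T (G - b) s x)
    (e2 : ∀ s, ∀ x ∈ U1 T L s, gau (sq (pb T L L u G s) x) (iv (pb T L L u G s) x)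
      (TG (pb T L L u b s) (pb T L L u G s) x) ≤ C * en T (g1 - pb T L L u G) s x) :
    BB T L b G ≤ C * En T L (g1 - pb T L L u G) := by
  have a1 := intL_en c (c.met1 hG) (c.met1 hb) i1
  have a2 := intL_en c h1 q.1 i2
  rw [← BB_pb c hint hb hG p.2 q.2 (gau_intL c (c.met1 hb) (c.met1 hG) (a1.1.smul C') e1)]
  refine (c.intL_mono (gau_intL c p.1 q.1 (a2.1.smul C) e2) (a2.1.smul C) e2).trans ?_
  rw [intL_smul]
  exact mul_le_mul_of_nonneg_left a2.2 hC

theorem fv_cont {b G k : MetricField 4} {U : Set E4} (hb : IsRiemannianOn b U)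
    (hG : IsRiemannianOn G U) (hk : ∀ p q, ContDiffOn ℝ ∞ (fun x => k x p q) U) :
    ContinuousOn (fv b G k) U :=
  ((sm_sqrt_det hG).continuousOn.mul ((smT_ktT hG (K := k) fun I => hk (I 0) (I 1)).ip hG
    (smT_redT hb hG)).continuousOn).congr fun x hx =>
      tr2_vG_eq (hG.posDef x hx).det_pos.ne' (g_sy_ev hG hx).self_of_nhds k (redT b G)

/-- the first variation at a metric with small Ricci curvature -/
theorem fv_bound (c : Ch T L) {b g1 g2 : Fam T} {R : T.S → E4 → ℝ} {C : ℝ} (hC : 0 ≤ C)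
    (hb : Met1 T L b) (h1 : Met1 T L g1) (h2 : Met1 T L g2) (hR : IntL T L R)
    (i : ∀ s, IntegrableOn (en T (g1 - g2) s) (K1 T L s))
    (e : ∀ s, ∀ x ∈ U1 T L s,
      |fv (b s) (g1 s) (g2 s - g1 s) x| ≤ C * (en T (g1 - g2) s x + R s x)) :
    IntL T L (fun s => fv (b s) (g1 s) (g2 s - g1 s)) ∧
      |intL T L fun s => fv (b s) (g1 s) (g2 s - g1 s)| ≤ C * (En T L (g1 - g2) + intL T L R) := by
  have a := intL_en c h1 h2 i
  have a2 := (a.1.add hR).smul C
  have a3 : IntL T L fun s => fv (b s) (g1 s) (g2 s - g1 s) :=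
    c.IntL_of_le a2 (fun s => fv_cont (hb.riem s) (h1.riem s) fun p q =>
    ((h2.riem s).contDiffOn p q).sub ((h1.riem s).contDiffOn p q)) e
  have a4 : intL T L (fun s x => C * (en T (g1 - g2) s x + R s x)) ≤
      C * (En T L (g1 - g2) + intL T L R) := by
    rw [intL_smul, intL_add a.1 hR]
    exact mul_le_mul_of_nonneg_left (by linarith [a.2]) hC
  refine ⟨a3, abs_le.2 ⟨?_, (c.intL_mono a3 a2 fun s x hx => (abs_le.1 (e s x hx)).2).trans a4⟩⟩
  have a5 := c.intL_mono (a2.smul (-1)) a3 fun s x hx => by linarith [(abs_le.1 (e s x hx)).1]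
  rw [intL_smul] at a5
  linarith

end Crest.Agent.N207.NS.Ct

end
end

-- ▼ part N207/N/Cmpg2
section

/-!
# Row 207, block N (helper38): the data fed to `Cmp` in the proof of `Cmpg`
-/

set_option autoImplicit false

open scoped ContDiff Topology
open Metric Set Filter MeasureTheory
open Crest.GeometryTopology.CoordMetric
open Crest.Agent.N207.I Crest.Agent.N207.Lg Crest.Agent.N207.CB

noncomputable section

namespace Crest.Agent.N207.NS.Cg

variable {M : Type*} {T : TD M} {L : T.V → ℝ} {g : T.V → Fam T} {T0 δ Λ C P : ℝ}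
  {u : T.S → E4 → E4}

/-- the conclusion of `ELL` -/
def EB (T : TD M) (g : T.V → Fam T) (T0 : ℝ) (L : T.V → ℝ) (δ Λ : ℝ) : Prop :=
  ∀ (H : Fam T) (s : T.S), ∀ x ∈ W1 T L s, (H s x).PosDef →
    (∀ p q, |H s x p q - gbL T g T0 L s x p q| ≤ δ) →
    (∀ p q, |H s x p q| ≤ Λ ∧ |(H s x)⁻¹ p q| ≤ Λ) ∧ Λ⁻¹ ≤ sq (H s) x ∧ sq (H s) x ≤ Λ ∧
    (∀ ξ : Fin 4 → ℝ, Λ⁻¹ * ∑ i, ξ i ^ 2 ≤ ∑ i, ∑ j, (H s x)⁻¹ i j * ξ i * ξ j) ∧
    ∀ k ≤ 3, ∀ p q, scl T s x ^ k * ‖iteratedFDeriv ℝ k (fun y => gbL T g T0 L s y p q) x‖ ≤ Λ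

/-- the conclusion of `PULL2` for `L' = L` -/
def PB2 (T : TD M) (L : T.V → ℝ) (u : T.S → E4 → E4) (C δ : ℝ) : Prop :=
  ∀ (X : Fam T) (P : ℝ) (s : T.S),
    ((∀ a b, ContinuousOn (fun y => X s y a b) (W1 T L s)) →
      ∀ a b, ContinuousOn (fun y => pm (u s) (X s) y a b) (U1 T L s)) ∧
    (∀ x ∈ U1 T L s, (∀ a b, |X s (u s x) a b| ≤ P) → ∀ a b, |pm (u s) (X s) x a b| ≤ C * P) ∧
    (L = L → (∀ a b, ContDiffOn ℝ 1 (fun y => X s y a b) (W1 T L s)) → Cls T (W1 T L) 1 P X 0 →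
      ∀ x ∈ U1 T L s, ∀ a b, |pm (u s) (X s) x a b - X s x a b| ≤ C * δ * P) ∧
    (L = L → ∀ v c, ∀ x ∈ U1 T L s, InK T L v c s (u s x) → InK T L v (c + 1) s x)

theorem adm_bd (c : Ch T L) (hE : EB T g T0 L δ Λ) (hb : Met1 T L (gbL T g T0 L)) (hδ : δ ≤ Λ)
    {H : Fam T} (h : Adm T g T0 L δ H) (s : T.S) {x : E4} (hx : x ∈ U1 T L s) :
    (∀ p q, |H s x p q| ≤ 2 * Λ ∧ |(H s x)⁻¹ p q| ≤ 2 * Λ ∧
      scl T s x * ‖iteratedFDeriv ℝ 1 (fun y => H s y p q) x‖ ≤ 2 * Λ) ∧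
      Λ⁻¹ ≤ sq (H s) x ∧ sq (H s) x ≤ 2 * Λ := by
  obtain ⟨e1, e2, e3, -, e5⟩ := hE H s x (c.U1_W1 s hx) (Met1.pos h.met hx) (h.near.val hx)
  have h0 : 0 ≤ Λ := (abs_nonneg _).trans (e1 0 0).1
  refine ⟨fun p q => ⟨by linarith [(e1 p q).1], by linarith [(e1 p q).2], ?_⟩, e2, by linarith⟩
  have k1 := h.near s x hx 1 (by norm_num) p q
  have k2 := e5 1 (by norm_num) p q
  have hn := (c.op1 s).mem_nhds hx
  have d1 : ContDiffAt ℝ 1 (fun y => (H s y - gbL T g T0 L s y) p q) x :=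
    ((h.met.sm_sub hb s p q).contDiffAt hn).of_le (by simp)
  have d2 : ContDiffAt ℝ 1 (fun y => gbL T g T0 L s y p q) x :=
    (((hb.riem s).contDiffOn p q).contDiffAt hn).of_le (by simp)
  have e : (fun y => H s y p q) = (fun y => (H s y - gbL T g T0 L s y) p q) +
      fun y => gbL T g T0 L s y p q := by funext y; simp
  rw [e, iteratedFDeriv_add_apply d1 d2]
  rw [pow_one] at k1 k2
  have := mul_le_mul_of_nonneg_left (norm_add_le
    (iteratedFDeriv ℝ 1 (fun y => (H s y - gbL T g T0 L s y) p q) x)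
    (iteratedFDeriv ℝ 1 (fun y => gbL T g T0 L s y p q) x)) (scl_nn (T := T) s x)
  rw [mul_add] at this
  linarith

theorem dec_mono {k : MetricField 4} {p q : ℝ} (h : Dec p k) (e : q ≤ p) : Dec q k := by
  obtain ⟨C, R, h⟩ := h
  refine ⟨|C|, max R 1, fun x hx a b => ?_⟩
  have h1 : 1 ≤ ‖x‖ := (le_max_right _ _).trans hx
  obtain ⟨k1, k2⟩ := h x ((le_max_left _ _).trans hx) a b
  exact ⟨k1.trans (mul_le_mul (le_abs_self _) (Real.rpow_le_rpow_of_exponent_le h1 (by linarith))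
    (by positivity) (abs_nonneg _)), k2.trans (mul_le_mul (le_abs_self _)
      (Real.rpow_le_rpow_of_exponent_le h1 (by linarith)) (by positivity) (abs_nonneg _))⟩

variable {v : T.V} {ψ : Fam T} {d : ℝ}

theorem prt_pb (c : Ch T L) (hu : ∀ s, MapsTo (u s) (U1 T L s) (W1 T L s)) (h2 : PB2 T L u C δ)
    (t1 : (T.glob L).Sec fun s => matT (rt T L (toL T L v ψ) s))
    (t3 : ∀ s, ∀ x ∈ (T.glob L).U s, ¬ InK T L v (d + 1) s x → toL T L v ψ s x = 0)
    (t4 : Cls T (W1 T L) 1 P (toL T L v ψ) 0) :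
    Prt T L v (d + 2) (C * δ * P) ψ (pb T L L u (toL T L v ψ)) := by
  rw [pb_self]
  have hs : ∀ s a b, ContDiffOn ℝ ∞ (fun y => toL T L v ψ s y a b) (W1 T L s) := fun s a b =>
    (sm_of_rt (t1.sm s) a b).mono (c.W1_U s)
  refine ⟨fun s => (h2 _ 0 s).1 fun a b => (hs s a b).continuousOn, fun s =>
    (h2 _ P s).2.2.1 rfl (fun a b => (hs s a b).of_le (by simp)) t4, fun s x hx hn => ?_⟩
  refine pm_zero_at (t3 s _ (c.W1_U s (hu s hx)) fun e => hn ?_)
  have := (h2 0 0 s).2.2.2 rfl v (d + 1) x hx e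
  rwa [add_assoc, one_add_one_eq_two] at this

theorem prt_pp (hM : MUL) (c : Ch T L) (hu : ∀ s, MapsTo (u s) (U1 T L s) (W1 T L s))
    (h2 : PB2 T L u C δ) {b G : Fam T} (hb : (T.glob L).IsMet (rt T L b))
    (hG : (T.glob L).IsMet (rt T L G)) {σ η : ℝ} (hσ : σ = 1 ∨ σ = -1)
    (t1 : (T.glob L).Sec fun s => matT (rt T L (toL T L v ψ) s))
    (t3 : ∀ s, ∀ x ∈ (T.glob L).U s, ¬ InK T L v (d + 1) s x → toL T L v ψ s x = 0)
    (t4 : Cls T (W1 T L) 1 P (toL T L v ψ) 0)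
    (t5 : ∀ s, ∀ x ∈ (T.glob L).U s, TRg (b s x) (toL T L v ψ s x) = σ • toL T L v ψ s x)
    (hn : ∀ s, ∀ x ∈ W1 T L s, ∀ p q, |PsT (b s) (G s) (toL T L v ψ s) x p q -
      PsT (b s) (b s) (toL T L v ψ s) x p q| ≤ η) :
    Prt T L v (d + 2) (C * η + C * δ * P) ψ
      fun s x => σ • pm (u s) (PsT (b s) (G s) (toL T L v ψ s)) x := by
  have k := prt_pb c hu h2 t1 t3 t4
  rw [pb_self] at k
  have hs : ∀ s a b, ContinuousOn (fun y => toL T L v ψ s y a b) ((T.glob L).U s) := fun s a b =>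
    (sm_of_rt (t1.sm s) a b).continuousOn
  have s1 : |σ| = 1 := by rcases hσ with e | e <;> simp [e]
  have s2 : σ * σ = 1 := by rcases hσ with e | e <;> simp [e]
  refine ⟨fun s a a' => continuousOn_const.mul ((h2 (fun s => PsT (b s) (G s) (toL T L v ψ s))
    0 s).1 (fun p q => (cont_PsT (riem_of_rt hb s) (riem_of_rt hG s) (hs s) p q).mono
      (c.W1_U s)) a a'), fun s x hx a a' => ?_, fun s x hx hi => ?_⟩
  · have hy := hu s hx
    have k1 := k.near s x hx a a'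
    have k2 := (h2 (fun s y => σ • PsT (b s) (G s) (toL T L v ψ s) y - toL T L v ψ s y) η s).2.1
      x hx (fun p q => by
        have e1 := hn s _ hy p q
        rw [hM.2.1 _ _ _ ((riem_of_rt hb s).posDef _ (c.W1_U s hy)), t5 s _ (c.W1_U s hy)] at e1
        have : (σ • PsT (b s) (G s) (toL T L v ψ s) (u s x) - toL T L v ψ s (u s x)) p q =
            σ * (PsT (b s) (G s) (toL T L v ψ s) (u s x) p q - (σ • toL T L v ψ s (u s x)) p q) := by
          simp only [Matrix.sub_apply, Matrix.smul_apply, smul_eq_mul]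
          linear_combination (toL T L v ψ s (u s x) p q) * s2
        rw [this, abs_mul, s1, one_mul]
        exact e1) a a'
    have e : pm (u s) (fun y => σ • PsT (b s) (G s) (toL T L v ψ s) y - toL T L v ψ s y) x a a' =
        (σ • pm (u s) (PsT (b s) (G s) (toL T L v ψ s)) x) a a' - pm (u s) (toL T L v ψ s) x a a' := by
      simp only [Matrix.smul_apply, smul_eq_mul, pm_apply, Matrix.sub_apply, Finset.mul_sum,
        ← Finset.sum_sub_distrib]
      exact Finset.sum_congr rfl fun i _ => Finset.sum_congr rfl fun j _ => by ring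
    rw [e] at k2
    exact (abs_sub_le _ _ _).trans (add_le_add k2 k1)
  · have e : toL T L v ψ s (u s x) = 0 := t3 s _ (c.W1_U s (hu s hx)) fun e => hi (by
      have := (h2 0 0 s).2.2.2 rfl v (d + 1) x hx e
      rwa [add_assoc, one_add_one_eq_two] at this)
    rw [pm_zero_at (by simp [PsT, TRg, tr2, e]), smul_zero]

theorem Prt.mono {δ' : ℝ} {Φ : Fam T} (h : Prt T L v d δ ψ Φ) (e : δ ≤ δ') : Prt T L v d δ' ψ Φ :=
  ⟨h.cont, fun s x hx a b => (h.near s x hx a b).trans e, h.supp⟩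

/-- the equation -/
theorem eqn (c : Ch T L) {ι : Type} [Fintype ι] {b G g1 : Fam T} {m σ : ι → ℝ} {r : ι → T.S → ℝ}
    {Y : ι → Fam T} (hσ : ∀ j, σ j = 1 ∨ σ j = -1)
    (p : ∀ s, R202.Tens.Pull (pm (u s) (b s)) (b s) (u s) (U1 T L s) ((T.glob L).U s))
    (q : ∀ s, R202.Tens.Pull (pm (u s) (G s)) (G s) (u s) (U1 T L s) ((T.glob L).U s))
    (h0 : ∀ s, ∀ x ∈ U1 T L s, gauT (pm (u s) (b s)) (g1 s) x = 0)
    (h : ∀ s, ∀ x ∈ (T.glob L).U s, ∀ i j,
      redT (b s) (G s) x ![i, j] = -∑ l, m l * (r l s * Y l s x i j))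
    (s : T.S) {x : E4} (hx : x ∈ U1 T L s) (i j : Fin 4) :
    redT (pb T L L u b s) (g1 s) x ![i, j] - redT (pb T L L u b s) (pb T L L u G s) x ![i, j] =
      ricT (g1 s) x ![i, j] + ∑ l, σ l * m l * (r l s * (σ l • pm (u s) (Y l s) x) i j) := by
  simp only [pb_self]
  rw [redT_of_gauT (by filter_upwards [(c.op1 s).mem_nhds hx] with y hy using h0 s y hy),
    redT_pm (q s) (p s) hx, pm_sum (m := fun l => -(m l * r l s)) (Y := fun l => Y l s)
      (fun i j => by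
        refine (h s _ ((p s).maps x hx) i j).trans ?_
        rw [← Finset.sum_neg_distrib]
        exact Finset.sum_congr rfl fun l _ => by ring), sub_eq_add_neg, ← Finset.sum_neg_distrib]
  congr 1
  refine Finset.sum_congr rfl fun l _ => ?_
  have s2 : σ l * σ l = 1 := by rcases hσ l with e | e <;> simp [e]
  simp only [Matrix.smul_apply, smul_eq_mul]
  linear_combination (-(m l * r l s * pm (u s) (Y l s) x i j)) * s2

/-- the Ricci term -/
theorem ric_bd (c : Ch T L) {g1 : Fam T} {E : ℝ} (h1 : Met1 T L g1) (hΛ : 0 < Λ)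
    (hb : ∀ s, ∀ x ∈ U1 T L s, (∀ p q, |g1 s x p q| ≤ 2 * Λ) ∧ Λ⁻¹ ≤ sq (g1 s) x)
    (h : IntL T L (fun s x => scl T s x ^ 2 * (sq (g1 s) x * nsq (g1 s) (ricT (g1 s)) x)) ∧
      intL T L (fun s x => scl T s x ^ 2 * (sq (g1 s) x * nsq (g1 s) (ricT (g1 s)) x)) ≤ E ^ 2) :
    IntL T L (fun s x => scl T s x ^ 2 * e0 (fun y => Matrix.of fun p q => ricT (g1 s) y ![p, q]) x) ∧
    intL T L (fun s x => scl T s x ^ 2 * e0 (fun y => Matrix.of fun p q => ricT (g1 s) y ![p, q]) x)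
      ≤ 1024 * Λ ^ 3 * E ^ 2 := by
  have key : ∀ s, ∀ x ∈ U1 T L s,
      scl T s x ^ 2 * e0 (fun y => Matrix.of fun p q => ricT (g1 s) y ![p, q]) x ≤
      1024 * Λ ^ 3 * (scl T s x ^ 2 * (sq (g1 s) x * nsq (g1 s) (ricT (g1 s)) x)) := fun s x hx => by
    have e1 := e0_le_nsq (Met1.pos h1 hx) (hb s x hx).1 (ricT (g1 s))
    have e2 : 1 ≤ Λ * sq (g1 s) x := by
      have := mul_le_mul_of_nonneg_left (hb s x hx).2 hΛ.le
      rwa [mul_inv_cancel₀ hΛ.ne'] at this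
    have e3 : 0 ≤ nsq (g1 s) (ricT (g1 s)) x := Ar.ipA_nonneg (Met1.pos h1 hx) (ricT (g1 s) x)
    rw [mul_left_comm]
    refine mul_le_mul_of_nonneg_left (e1.trans ?_) (sq_nonneg _)
    calc _ = (16 * (2 * Λ)) ^ 2 * nsq (g1 s) (ricT (g1 s)) x * 1 := (mul_one _).symm
      _ ≤ (16 * (2 * Λ)) ^ 2 * nsq (g1 s) (ricT (g1 s)) x * (Λ * sq (g1 s) x) :=
          mul_le_mul_of_nonneg_left e2 (by positivity)
      _ = _ := by ring
  have i1 := c.IntL_of_le (f := fun s x => scl T s x ^ 2 *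
      e0 (fun y => Matrix.of fun p q => ricT (g1 s) y ![p, q]) x) (h.1.smul (1024 * Λ ^ 3))
    (fun s => ((scl_cont s).continuousOn.pow 2).mul (e0_cont fun a b =>
      (AI.smT_ricT (h1.riem s) ![a, b]).continuousOn))
    fun s x hx => by
      rw [abs_of_nonneg (mul_nonneg (sq_nonneg _) (e0_nn _ _))]; exact key s x hx
  refine ⟨i1, (c.intL_mono i1 (h.1.smul _) key).trans ?_⟩
  rw [intL_smul]
  exact mul_le_mul_of_nonneg_left h.2 (by positivity)

end Crest.Agent.N207.NS.Cg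

end
end

-- ▼ part N207/N/Cmpg

/-!
# Row 207, block N (helper38): `Cmpg`, comparison of a gauged metric with the family
-/

set_option autoImplicit false

open scoped ContDiff Topology
open Metric Set Filter MeasureTheory
open Crest.GeometryTopology.CoordMetric
open Crest.Agent.N207.I Crest.Agent.N207.Lg Crest.Agent.N207.CB

noncomputable section

namespace Crest.Agent.N207.NS

namespace Cg

variable {M : Type*} {T : TD M} {L L' : T.V → ℝ}

theorem nid_mono {δ δ' : ℝ} {u : T.S → E4 → E4} (h : NId T L L' δ u) (e : δ ≤ δ') :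
    NId T L L' δ' u := ⟨h.sm, h.maps, h.compat, fun s x hx k hk => (h.near s x hx k hk).trans
      (mul_le_mul_of_nonneg_right e (scl_nn s x)), h.dec⟩

theorem en_int (c : Ch T L) {H H' : Fam T} (h : Met1 T L H) (h' : Met1 T L H')
    (d : DecR T (3 / 2) H) (d' : DecR T (3 / 2) H') (s : T.S) :
    IntegrableOn (en T (H - H') s) (K1 T L s) := by
  have := Hr.int_K1 c.ok (k := H - H') (fun s a b => (h.sm_sub h' s a b).of_le (by simp))
    (dec_sub h h' d d') s
  exact this.1.add this.2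

theorem fin_alg {S A a1 a2 f e m B C1 C2 C3 K R E : ℝ} (h1 : 0 ≤ C1) (h2 : 0 ≤ C2) (h3 : 0 ≤ C3)
    (hK : 0 ≤ K) (hR : 0 ≤ R) (hE : 0 ≤ E) (he : 0 ≤ e) (hm : 0 ≤ m) {r : ℝ} (hr : r ≤ R * E)
    (k0 : e + m ≤ C1 * (r + 0)) (k1 : a1 = S) (k2 : a2 = A) (k3 : |a2 - a1 - f| ≤ C2 * e)
    (k4 : |f| ≤ K * (e + r)) (k5 : B ≤ C3 * e) :
    |S - A| ≤ ((C2 + K + C3 + 1) * (C1 * R) + K * R + 1) * E ∧
      m ≤ ((C2 + K + C3 + 1) * (C1 * R) + K * R + 1) * E ∧
      B ≤ ((C2 + K + C3 + 1) * (C1 * R) + K * R + 1) * E := by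
  subst k1 k2
  have e1 : e + m ≤ C1 * R * E := by
    rw [add_zero] at k0; rw [mul_assoc]; exact k0.trans (mul_le_mul_of_nonneg_left hr h1)
  generalize hD : C1 * R * E = D at e1
  have e2 : ((C2 + K + C3 + 1) * (C1 * R) + K * R + 1) * E =
      C2 * D + K * D + C3 * D + D + K * (R * E) + E := by rw [← hD]; ring
  have e3 : e ≤ D := by linarith
  have p2 := mul_le_mul_of_nonneg_left e3 h2
  have p3 := mul_le_mul_of_nonneg_left e3 h3
  have p4 := mul_le_mul_of_nonneg_left e3 hK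
  have p5 := mul_le_mul_of_nonneg_left hr hK
  have q2 := mul_nonneg h2 he
  have q3 := mul_nonneg h3 he
  have q4 := mul_nonneg hK he
  have q5 := mul_nonneg hK (mul_nonneg hR hE)
  rw [e2, mul_add] at *
  rw [abs_le] at k3 k4 ⊢
  refine ⟨⟨?_, ?_⟩, ?_, ?_⟩ <;> linarith [k3.1, k3.2, k4.1, k4.2]

end Cg

open Cg

variable {M : Type*} {T : TD M} {g : T.V → Fam T}

theorem cmpg (h : Std T g) (hM : MUL) (hC : CHI T) (hG : GB T g) (hE : ELL T g) (hP : PULL T g)
    (hP2 : PULL2 T) (hI : INT T) (hA : ACT T) (hT : TAY T g) {κ : T.V → Type}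
    [∀ v, Fintype (κ v)] {ψ : ∀ v, κ v → Fam T} {d : ℝ} (hc : Cmp T g κ ψ d)
    (ht : Tol T g κ ψ d) : Cmpg T g κ ψ := by
  obtain ⟨T1, hC⟩ := hC.ch h.ok
  obtain ⟨δ2, C2, T2, hδ2, hC2, hT⟩ := hT
  obtain ⟨T3, hG⟩ := hG
  obtain ⟨C3, hG⟩ := hG 0
  obtain ⟨δ4, Λ, T4, hδ4, hΛ, hE⟩ := hE
  obtain ⟨δ5, C5, T5, hδ5, hC5, hP⟩ := hP
  obtain ⟨δ6, C6, T6, hδ6, hC6, hP2⟩ := hP2
  obtain ⟨P, T7, hP7, ht⟩ := ht
  obtain ⟨δ8, T8, hδ8, hI⟩ := hI
  obtain ⟨δ9, C9, T9, hδ9, hC9, hc⟩ := hc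
  obtain ⟨CM, hCM, hM3⟩ := hM.2.2 Λ
  obtain ⟨Cg, hCg, hg⟩ := gau_le (2 * Λ)
  obtain ⟨Tm, m0, m1, m2, m3, m4, m5, m6, m7, m8, m9⟩ : ∃ Tm : ℝ, 0 ≤ Tm ∧ T1 ≤ Tm ∧ T2 ≤ Tm ∧
      T3 ≤ Tm ∧ T4 ≤ Tm ∧ T5 ≤ Tm ∧ T6 ≤ Tm ∧ T7 ≤ Tm ∧ T8 ≤ Tm ∧ T9 ≤ Tm :=
    ⟨max 0 (max T1 (max T2 (max T3 (max T4 (max T5 (max T6 (max T7 (max T8 T9)))))))), by simp⟩
  have hΛ0 : 0 < Λ := by linarith
  obtain ⟨η, hη, n2, n4, n9, nΛ⟩ : ∃ η : ℝ, 0 < η ∧ η ≤ δ2 ∧ η ≤ δ4 ∧ η ≤ δ9 ∧ η ≤ Λ :=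
    ⟨min δ2 (min δ4 (min δ9 Λ)), by positivity, by simp⟩
  obtain ⟨δ, hδ, dK, d5, d6, d8⟩ : ∃ δ : ℝ, 0 < δ ∧ δ * (4 + 5 * C5 + C6 * P * (4 * CM + 1)) ≤ η ∧
      δ ≤ δ5 ∧ δ ≤ δ6 ∧ δ ≤ δ8 :=
    ⟨min (η / (4 + 5 * C5 + C6 * P * (4 * CM + 1))) (min δ5 (min δ6 δ8)), by positivity,
      (le_div_iff₀ (by positivity)).1 (min_le_left _ _), by simp⟩
  have q1 : 0 ≤ C5 * δ := by positivity
  have q2 : 0 ≤ C6 * δ * P := by positivity
  have q3 : 0 ≤ C6 * (CM * (4 * δ) * P) := by positivity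
  have a1 : 4 * δ ≤ η := by linarith
  have a2 : C5 * (4 * δ) + C5 * δ ≤ η := by linarith
  have a3 : C6 * (CM * (4 * δ) * P) + C6 * δ * P ≤ η := by linarith
  refine ⟨δ, Tm, hδ, fun T0 h0 => ⟨(C2 + 192 * (2 * Λ) ^ 3 + Cg + 1) * (C9 * (1024 * Λ ^ 3)) +
    192 * (2 * Λ) ^ 3 * (1024 * Λ ^ 3) + 1, by positivity,
    fun L hL G u E μ G' hGm hF hn hu hz hE0 hEE hS => ?_⟩⟩
  have c := hC L (hL.mono (by linarith))
  have hb0 := ((hG T0 (by linarith)).2 L (hL.mono (by linarith))).2.1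
  have hE : EB T g T0 L δ4 Λ := hE T0 (by linarith) L (hL.mono (by linarith))
  have hE' : EB T g T0 L η Λ := fun H s x hx k1 k2 => hE H s x hx k1 fun p q => (k2 p q).trans n4
  obtain ⟨p1, p2, p3, p4, p5, p6, p7⟩ := hP T0 (by linarith) L L (hL.mono (by linarith))
    (hL.mono (by linarith)) δ u d5 hu
  have hP2 : PB2 T L u C6 δ := hP2 L L (hL.mono (by linarith)) (hL.mono (by linarith)) δ u d6 hu
  have hI : Ct.Inv T L u := hI L L (hL.mono (by linarith)) (hL.mono (by linarith)) u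
    (nid_mono hu d8)
  have ht := ht T0 (by linarith) L (hL.mono (by linarith))
  have hT := hT T0 (by linarith) L (hL.mono (by linarith))
  have hc := hc T0 (by linarith) L (hL.mono (by linarith))
  clear hC hG hP
  have pb0 := p2 _ hb0
  have pG := p2 _ (ls_met hS)
  have A0 : Adm T g T0 L η (gbL T g T0 L) := gb_adm c hb0 hη.le
  have A' : Adm T g T0 L η G' := (ls_adm c hS).mono a1
  have Ab : Adm T g T0 L η (pb T L L u (gbL T g T0 L)) :=
    ⟨pb0.1, (p4 rfl).mono (by linarith), dec_mono p6 (by norm_num)⟩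
  have A1 : Adm T g T0 L η (T.nrm L G) := (Ct.adm_flat c hGm hF hn).mono (by linarith)
  have A2 : Adm T g T0 L η (pb T L L u G') := by
    refine ⟨pG.1, Cls.mono (Cls.add ?_ (p4 rfl) c.op1 (pG.1.sm_sub pb0.1)
      (pb0.1.sm_sub A0.met)) a2, p5 _ (ls_met hS) (ls_dec hS)⟩
    rw [pb_self, pb_self]
    exact p3 _ _ _ (fun s a b => (((riem_of_rt (ls_met hS) s).contDiffOn a b).sub
      ((riem_of_rt hb0 s).contDiffOn a b)).mono (c.W1_U s)) (ls_cls c hS)
  have bd := fun {H : Fam T} (k : Adm T g T0 L η H) => adm_bd c hE' A0.met nΛ k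
  choose σ hσ t5 using fun j : Σ v, κ v => (ht j.1 j.2).2.2.2.2.1
  have r1 := ric_bd c A1.met hΛ0 (fun s x hx => ⟨fun p q => ((bd A1 s hx).1 p q).1,
    (bd A1 s hx).2.1⟩) (Ct.ric_EE c hGm hEE)
  have key := hc _ _ _ (fun s y => Matrix.of fun p q => ricT (T.nrm L G s) y ![p, q])
    (fun j s x => σ j • pm (u s) (PsT (gbL T g T0 L s) (G' s) (toL T L j.1 (ψ j.1 j.2) s)) x)
    (fun j => pb T L L u (toL T L j.1 (ψ j.1 j.2))) (fun j => σ j * μ j)
    (Ab.mono n9) (A1.mono n9) (A2.mono n9)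
    (fun j => Prt.mono (prt_pp hM c hu.maps hP2 hb0 (ls_met hS) (hσ j) (ht j.1 j.2).1
      (ht j.1 j.2).2.2.1 (ht j.1 j.2).2.2.2.1 (t5 j) (η := CM * (4 * δ) * P) fun s x hx => by
        have z0 := (riem_of_rt hb0 s).posDef x (c.W1_U s hx)
        have z1 := (riem_of_rt (ls_met hS) s).posDef x (c.W1_U s hx)
        have y0 := (hE' _ s x hx z0 fun p q => by simpa using hη.le).1
        have y1 := (hE' _ s x hx z1 fun p q => ((ls_cls c hS).val hx p q).trans a1).1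
        exact hM3 _ _ _ _ x _ _ z0 z1 z0 (by simpa using ⟨y0, y1, y0⟩)
          (fun p q => by simpa using (ht j.1 j.2).2.2.2.1.val hx p q) ((ls_cls c hS).val hx))
      (a3.trans n9))
    (fun j => Prt.mono (prt_pb c hu.maps hP2 (ht j.1 j.2).1 (ht j.1 j.2).2.2.1
      (ht j.1 j.2).2.2.2.1) (by linarith))
    (fun s x hx i j => eqn c hσ pb0.2 pG.2 hz
      (fun s x hx => ls_red hM hb0 (fun v j => (ht v j).2.1) hS s hx) s hx i j) r1.1
  have z1 : ∑ j : Σ v, κ v, (prL T L (pb T L L u (gbL T g T0 L)) j.1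
      (pb T L L u (toL T L j.1 (ψ j.1 j.2))) (T.nrm L G - pb T L L u G') / T.eps L j.1) ^ 2 = 0 :=
    Finset.sum_eq_zero fun j _ => by
      rw [Ct.prl_zero c hI hb0 p1 pb0 (fun s => (hP2 0 0 s).2.2.2 rfl) A1.met hS j (ht j.1 j.2).1
        (ht j.1 j.2).2.2.1 (ht j.1 j.2).2.2.2.2.2.1]
      simp
  have z2 : ∑ j : Σ v, κ v, T.eps L j.1 ^ 2 * (σ j * μ j) ^ 2 = mu2 T κ L μ :=
    Finset.sum_congr rfl fun j _ => by rcases hσ j with e | e <;> simp [e]
  rw [z1, z2] at key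
  have hs : ∀ s, ∀ x ∈ U1 T L s, 0 < scl T s x := fun s x hx =>
    one_pos.trans_le (c.cell s x (c.U1_W1 s hx)).1
  have i12 := en_int c A1.met A2.met A1.dec A2.dec
  have hz' : ∀ s, ∀ x ∈ U1 T L s, gauT (pb T L L u (gbL T g T0 L) s) (T.nrm L G s) x = 0 := by
    rw [pb_self]; exact hz
  have gl : ∀ {b g1 g2 : Fam T}, Adm T g T0 L η b → Adm T g T0 L η g1 → Adm T g T0 L η g2 →
      (∀ s, ∀ x ∈ U1 T L s, gauT (b s) (g1 s) x = 0) → ∀ s, ∀ x ∈ U1 T L s,
      gau (sq (g2 s) x) (iv (g2 s) x) (TG (b s) (g2 s) x) ≤ Cg * en T (g2 - g1) s x :=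
    fun k0 k1 k2 k s x hx => (le_abs_self _).trans (hg _ _ _ _ x _ (k0.met.riem s) (k1.met.riem s)
      (k2.met.riem s) hx (hs s x hx) (List.forall_mem_cons.2 ⟨(bd k0 s hx).1,
        List.forall_mem_cons.2 ⟨(bd k1 s hx).1, List.forall_mem_singleton.2 (bd k2 s hx).1⟩⟩) (bd k2 s hx).2.2 (k s x hx))
  have k5 := Ct.bb_bound c hI hCg.le hb0 (ls_met hS) pb0 pG A1.met
    (en_int c A'.met A0.met A'.dec A0.dec) i12
    (gl A0 A0 A' fun s x hx => (Lg.C2.of_riem (A0.met.riem s) hx).gauT_self)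
    (by rw [← en_symm]; exact gl Ab A1 A2 hz')
  obtain ⟨f1, k4⟩ := Ct.fv_bound c (C := 192 * (2 * Λ) ^ 3) (by positivity) Ab.met A1.met A2.met
    r1.1 i12 fun s x hx => by
      have e1 : redT (pb T L L u (gbL T g T0 L) s) (T.nrm L G s) x = ricT (T.nrm L G s) x :=
        redT_of_gauT (by filter_upwards [(c.op1 s).mem_nhds hx] with y hy using hz' s y hy)
      have e2 := fv_le (s := sq (T.nrm L G s) x) (H := iv (T.nrm L G s) x)
        ((abs_of_nonneg (Real.sqrt_nonneg _)).trans_le (bd A1 s hx).2.2)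
        (fun p q => ((bd A1 s hx).1 p q).2.1) (hs s x hx) (pb T L L u G' s - T.nrm L G s)
        (fun y => Matrix.of fun p q => ricT (T.nrm L G s) y ![p, q]) x
      rw [fv, e1, ← en_symm]
      refine e2.trans (mul_le_mul_of_nonneg_left (add_le_add_left ?_ _) (by positivity))
      exact le_add_of_nonneg_left (e1_nn _ _)
  obtain ⟨l1, l2⟩ := (hA L c.long).1 _ G pb0.1 p6 p7 hGm hF
  have l3 : ∀ s, ∀ x ∈ U1 T L s, fgfF (pb T L L u (gbL T g T0 L) s) (T.nrm L G s) x =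
      lagF (pb T L L u (gbL T g T0 L) s) (T.nrm L G s) x := fun s x hx => fgfF_of_gauT (hz' s x hx)
  obtain ⟨-, k3⟩ := hT _ _ _ (Ab.mono n2) p7 (A1.mono n2) (A2.mono n2) (c.IntL_congr l1 l3) f1
  rw [En_symm] at k3
  exact fin_alg hC9.le hC2.le hCg.le (by positivity) (by positivity) (sq_nonneg E)
    (Finset.sum_nonneg fun s _ => mul_nonneg (sq_nonneg _) (integral_nonneg fun x =>
      add_nonneg (e1_nn _ _) (div_nonneg (e0_nn _ _) (sq_nonneg _))))
    (Finset.sum_nonneg fun j _ => by positivity) r1.2 key ((c.intL_congr l3).trans l2)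
    (act_pb (c.ok.glob_ok c.long) c.op1 hb0 (ls_met hS) pb0.2 pG.2 hS.int hI).2 k3 k4 k5

end Crest.Agent.N207.NS

end
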