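import Crest.Agent.N207.N.St3
import Crest.Agent.N207.Ga.Defs
import Crest.Agent.N207.I.Car3
import Crest.Agent.N207.N.Chi
import Crest.Agent.N207.O.Ost
import Crest.Agent.N207.N.Gs0
import Crest.Agent.N207.N.Gr1
import Crest.Agent.N207.Ga.Met2
import Crest.Agent.N207.N.Gr2
import Crest.Agent.N207.A.Arr

-- ▼ part N207/N/Swl1
section

/-!
# Row 207, block N (helper9): small lemmas for the glue `swl`
-/

set_option autoImplicit false

open scoped ContDiff Topology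
open Metric Set Filter MeasureTheory
open Crest.GeometryTopology.CoordMetric
open Crest.Agent.N207.I Crest.Agent.N207.Lg Crest.Agent.N207.CB

noncomputable section

namespace Crest.Agent.N207.NS

/-- a bound on real increments bounds the complex derivative -/
theorem norm_deriv_le_of_real {φ : ℂ → ℂ} {z A B τ : ℝ} (hA : 0 ≤ A) (hτ : 0 < τ)
    (h : ∀ t : ℝ, |t| ≤ τ → ‖φ ((z + t : ℝ) : ℂ) - φ z‖ ≤ A * |t| + B * t ^ 2) :
    ‖deriv φ z‖ ≤ A := by
  by_cases hd : DifferentiableAt ℂ φ z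
  swap
  · rw [deriv_zero_of_not_differentiableAt hd, norm_zero]; exact hA
  have h1 : HasDerivAt (fun y : ℝ => φ (y : ℂ)) (deriv φ z) z := by
    simpa using hd.hasDerivAt.comp_ofReal
  refine le_of_forall_pos_le_add fun ε hε => ?_
  refine h1.le_of_lip' (by positivity) ?_
  have e1 : ∀ᶠ y : ℝ in 𝓝 z, |y - z| ≤ min τ (ε / (|B| + 1)) := by
    have : closedBall z (min τ (ε / (|B| + 1))) ∈ 𝓝 z :=
      closedBall_mem_nhds _ (lt_min hτ (by positivity))
    filter_upwards [this] with y hy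
    simpa [Real.dist_eq] using hy
  filter_upwards [e1] with y hy
  have h2 := h (y - z) (hy.trans (min_le_left _ _))
  rw [add_sub_cancel] at h2
  have h3 : |y - z| ≤ ε / (|B| + 1) := hy.trans (min_le_right _ _)
  rw [le_div_iff₀ (by positivity)] at h3
  have h4 : B * (y - z) ^ 2 ≤ ε * |y - z| := by
    have : B * (y - z) ^ 2 ≤ (|y - z| * (|B| + 1)) * |y - z| := by
      rw [← sq_abs (y - z)]
      nlinarith [le_abs_self B, abs_nonneg (y - z), sq_nonneg |y - z|]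
    exact this.trans (mul_le_mul_of_nonneg_right h3 (abs_nonneg _))
  rw [Real.norm_eq_abs]
  linarith

variable {M : Type*} {T : TD M} {L L' : T.V → ℝ}

/-- `L` and `L'` agree off the root -/
def Agr (T : TD M) (L L' : T.V → ℝ) : Prop := ∀ w, w ≠ T.root → L w = L' w

theorem Agr.glob (h : Agr T L L') : T.glob L = T.glob L' := by
  unfold TD.glob
  congr 1
  · congr 1
    funext w x
    by_cases hw : w = T.root
    · simp [hw]
    · rw [h w hw]
  · congr 1
    funext w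
    by_cases hw : w = T.root
    · simp [hw]
    · rw [h w hw]

theorem Agr.eps (h : Agr T L L') (hT : T.Ok) : T.eps L = T.eps L' := by
  funext v
  induction v using hT.ind with
  | h0 => rw [hT.eps_root, hT.eps_root]
  | h1 w hw ih => rw [hT.eps_kid L hw, hT.eps_kid L' hw, ih, h w hw]

theorem Agr.gK (h : Agr T L L') : T.gK L = T.gK L' := by
  unfold TD.gK
  congr 1
  funext w
  by_cases hw : w = T.root
  · simp [hw]
  · rw [h w hw]

theorem Agr.gbL (h : Agr T L L') (g : T.V → Fam T) (T0 : ℝ) : gbL T g T0 L = gbL T g T0 L' := by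
  unfold CB.gbL
  congr 1
  funext w x
  by_cases hw : w = T.root
  · simp [hw]
  · rw [h w hw]

theorem Agr.toL (h : Agr T L L') (v : T.V) (X : Fam T) : toL T L v X = toL T L' v X := by
  unfold CB.toL
  congr 1
  funext w x
  by_cases hw : w = T.root
  · simp [hw, TD.kid]
  · rw [h w hw]

theorem Agr.pair (h : Agr T L L') (g : T.V → Fam T) (v : T.V) (X Y : Fam T) :
    pair T g v X (loc T L v Y) = pair T g v X (loc T L' v Y) := by
  unfold CB.pair Atl.int
  refine Finset.sum_congr rfl fun s _ => ?_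
  rcases s with a | w
  · rfl
  · by_cases hw : w = T.root
    · by_cases hv : w = v
      · have : loc T L v Y (Sum.inr w) = loc T L' v Y (Sum.inr w) := by
          funext x; simp [loc, hv]
        simp only [this]
      · have : (T.core v).U (Sum.inr w) = ∅ := by
          ext x; rw [TD.mem_core_inn hv]; simp [TD.kid, hw]
        simp [this]
    · have : loc T L v Y (Sum.inr w) = loc T L' v Y (Sum.inr w) := by
        funext x; simp [loc, h w hw]
      simp only [this]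

theorem Agr.actL (h : Agr T L L') (hT : T.Ok) (H G : Fam T) : actL T L H G = actL T L' H G := by
  unfold CB.actL
  rw [h.glob, h.eps hT]

theorem Agr.ls (h : Agr T L L') (hT : T.Ok) {g : T.V → Fam T} {T0 δ δ' : ℝ} {κ : T.V → Type}
    [∀ v, Fintype (κ v)] {ψ : ∀ v, κ v → Fam T} {θ μ : (Σ v, κ v) → ℝ} {G : Fam T}
    (hδ : δ ≤ δ') (H : LS T g T0 κ ψ δ L θ μ G) : LS T g T0 κ ψ δ' L' θ μ G where
  met := by have := H.met; rwa [h.glob, h.eps hT] at this
  el := by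
    have := H.el
    simp only [h.toL] at this
    rwa [h.glob, h.eps hT, h.gbL] at this
  con := fun j => by rw [← h.pair, ← h.gbL]; exact H.con j
  small := by
    have := H.small
    rw [h.gK, h.gbL] at this
    exact fun s x hx y hy k hk a b => (this s x hx y hy k hk a b).trans hδ
  mu := H.mu.trans hδ
  dec := fun x hx k hk a b => (H.dec x hx k hk a b).trans
    (mul_le_mul_of_nonneg_right hδ (by positivity))
  int := by have := H.int; rwa [h.glob, h.gbL] at this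

theorem scl_nonneg (s : T.S) (x : E4) : 0 ≤ scl T s x := by
  rcases s with a | w
  · exact zero_le_one
  · exact norm_nonneg x

theorem W1_eq (L : T.V → ℝ) : W1 T L = Ga.gU T L 1 := by
  funext s
  rcases s with a | w
  · simp only [W1, Ga.gU, Sum.elim_inl]; norm_num
  · ext x
    simp only [W1, Ga.gU, Sum.elim_inr, mem_ofPred_eq]
    rw [show (3 / 2 * (1 - 1 / 8) : ℝ) = 21 / 16 by norm_num,
      show 3 / 4 * T.r * Real.exp (L w) * (1 + 1 / 8) = 27 / 32 * T.r * Real.exp (L w) by ring]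

theorem U1_sub (hT : T.Ok) (L : T.V → ℝ) (s : T.S) : U1 T L s ⊆ W1 T L s := by
  rcases s with a | w
  · exact ball_subset_ball (by norm_num)
  · rintro x ⟨h1, h2⟩
    have := mul_pos hT.r_pos (Real.exp_pos (L w))
    exact ⟨by linarith, fun hw => by have := h2 hw; nlinarith⟩

theorem NId.mono {δ δ' : ℝ} {u : T.S → E4 → E4} (h : NId T L L' δ u) (hδ : δ ≤ δ') :
    NId T L L' δ' u :=
  ⟨h.sm, h.maps, h.compat, fun s x hx k hk => (h.near s x hx k hk).trans
    (mul_le_mul_of_nonneg_right hδ (scl_nonneg s x)), h.dec⟩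

theorem nid_of_nearId (hT : T.Ok) {ε : ℝ} (hε : ε ≤ 1 / 16) {u : T.S → E4 → E4}
    (h : Ga.NearId T L ε u) : NId T L L ε u := by
  have hs : ∀ s, U1 T L s ⊆ Ga.gU T L 1 s := fun s => W1_eq L ▸ U1_sub hT L s
  refine ⟨fun s => (h.sm s).mono (hs s), fun s x hx => ?_,
    fun s s' x hx y hy e => h.compat s s' x (hs s hx) y (hs s' hy) e,
    fun s x hx k hk => h.jet s x (hs s hx) k (by omega), ?_⟩
  · have h0 := h.jet s x (hs s hx) 0 (by omega)
    simp only [pow_zero, one_mul, norm_iteratedFDeriv_zero] at h0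
    have h1 : ‖u s x‖ ≤ ‖x‖ + ‖u s x - x‖ := by
      simpa using norm_add_le x (u s x - x)
    have h2 : ‖x‖ ≤ ‖u s x‖ + ‖u s x - x‖ := by
      simpa [norm_sub_rev] using norm_add_le (u s x) (x - u s x)
    rcases s with a | w
    · have hx' : ‖x‖ < 25 / 16 := by simpa [U1] using hx
      simp only [scl, Sum.elim_inl] at h0
      simp only [W1, Sum.elim_inl, mem_ball_zero_iff]
      linarith
    · obtain ⟨h3, h4⟩ := hx
      simp only [scl, Sum.elim_inr] at h0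
      have h5 : ε * ‖x‖ ≤ 1 / 16 * ‖x‖ := mul_le_mul_of_nonneg_right hε (norm_nonneg _)
      have := mul_pos hT.r_pos (Real.exp_pos (L w))
      exact ⟨by linarith, fun hw => by have := h4 hw; nlinarith⟩
  · obtain ⟨R, C, hC⟩ := h.dec
    refine ⟨|C|, max R 1, fun x hx k hk => ?_⟩
    have h1 : 1 ≤ ‖x‖ := (le_max_right _ _).trans hx
    have h0 : 0 < ‖x‖ := by linarith
    have h2 := hC x ((le_max_left _ _).trans hx) k (by omega)
    rw [← le_div_iff₀' (by positivity)] at h2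
    refine h2.trans ?_
    have h3 : ‖x‖ ^ (-(2 : ℝ) - k) ≤ ‖x‖ ^ (-(3 / 2 : ℝ) - k) :=
      Real.rpow_le_rpow_of_exponent_le h1 (by linarith)
    have h4 : ‖x‖ ^ (-(2 : ℝ) - k) = (‖x‖ ^ 2)⁻¹ * (‖x‖ ^ k)⁻¹ := by
      rw [sub_eq_add_neg, Real.rpow_add h0, Real.rpow_neg h0.le, Real.rpow_neg h0.le,
        Real.rpow_natCast, Real.rpow_two]
    calc C / ‖x‖ ^ 2 / ‖x‖ ^ k = C * ‖x‖ ^ (-(2 : ℝ) - k) := by rw [h4]; ring
      _ ≤ |C| * ‖x‖ ^ (-(2 : ℝ) - k) :=
        mul_le_mul_of_nonneg_right (le_abs_self C) (by positivity)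
      _ ≤ _ := mul_le_mul_of_nonneg_left h3 (abs_nonneg C)

theorem eps_exp_le (hT : T.Ok) (hL : ∀ w, w ≠ T.root → 0 ≤ L w) {w : T.V} (hw : w ≠ T.root) :
    Real.exp (L w) * T.eps L w ≤ 1 := by
  have h1 : ∀ v, T.eps L v ≤ 1 := fun v => by
    induction v using hT.ind with
    | h0 => rw [hT.eps_root]
    | h1 w hw ih =>
      rw [hT.eps_kid L hw]
      have := Real.exp_le_one_iff.2 (neg_nonpos.2 (hL w hw))
      have := T.eps_pos L (T.par w)
      have := Real.exp_pos (-L w)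
      nlinarith
  rw [hT.eps_kid L hw]
  have := h1 (T.par w)
  have e : Real.exp (L w) * Real.exp (-L w) = 1 := by rw [← Real.exp_add]; simp
  nlinarith

end Crest.Agent.N207.NS

end
end

-- ▼ part N207/N/Swl2
section

/-!
# Row 207, block N (helper9): the glue, core part
-/

set_option autoImplicit false

open scoped ContDiff Topology
open Metric Set Filter MeasureTheory
open Crest.GeometryTopology.CoordMetric
open Crest.Agent.N207.I Crest.Agent.N207.Lg Crest.Agent.N207.CB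

noncomputable section

namespace Crest.Agent.N207.NS

variable {M : Type*} {T : TD M} {g : T.V → Fam T} {κ : T.V → Type} [∀ v, Fintype (κ v)]
  [∀ v, DecidableEq (κ v)] {ψ : ∀ v, κ v → Fam T}

theorem sw_upd_coe {ι : Type} [DecidableEq ι] (θ : ι → ℝ) (j : ι) (t : ℝ) :
    Function.update (fun j => (θ j : ℂ)) j (t : ℂ) = fun i => ((Function.update θ j t i : ℝ) : ℂ) := by
  funext i
  by_cases h : i = j
  · subst h; simp
  · simp [h]

theorem sw_norm_upd_sub {ι : Type} [Fintype ι] [DecidableEq ι] (θ : ι → ℝ) (j : ι) (t : ℝ) :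
    ‖Function.update θ j (θ j + t) - θ‖ ≤ |t| := by
  refine (pi_norm_le_iff_of_nonneg (abs_nonneg t)).2 fun i => ?_
  by_cases h : i = j
  · subst h; simp
  · simp [h]

theorem sw_met1_of (hT : T.Ok) {L : T.V → ℝ} {H : Fam T} (h : (T.glob L).IsMet (rt T L H)) :
    Met1 T L H := by
  have sub : ∀ s, U1 T L s ⊆ (T.glob L).U s := U1_U hT
  exact ⟨fun s => ⟨U1_open s, fun i j => ((h.riem s).contDiffOn i j).mono (sub s),
    fun x hx => (h.riem s).posDef x (sub s hx)⟩, fun a b x F hF =>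
    h.compat a b x F ⟨sub _ hF.mem, sub _ hF.mem', hF.sm, hF.eq⟩⟩

theorem sw_rt_nrm (L : T.V → ℝ) (G : Fam T) : rt T L (T.nrm L G) = G := by
  funext s x
  have := T.eps_pos L (T.un s)
  simp only [rt, TD.nrm, smul_smul]
  rw [mul_inv_cancel₀ (by positivity), one_smul]

theorem Agr.bb {L L' : T.V → ℝ} (h : Agr T L L') (hT : T.Ok) (T0 : ℝ) (G : Fam T) :
    BB T L (CB.gbL T g T0 L) G = BB T L' (CB.gbL T g T0 L') G := by
  have : U1 T L = U1 T L' := by
    unfold U1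
    congr 1
    funext w
    by_cases hw : w = T.root
    · simp [hw]
    · rw [h w hw]
  simp only [BB, intL, ep, h.gbL, h.glob, h.eps hT, this]

/-- the derivatives of the reduced function at one point -/
theorem sw_slices (hT : T.Ok) {T0 δ δb δc Cb Cc τ r r0 l0 l1 A : ℝ} (D : OD (Σ v, κ v) T.V)
    (hb : δ ≤ δb) (hc : δ ≤ δc) (hCb : 0 < Cb) (hCc : 0 < Cc) (hτ : 0 < τ) (hr0 : 0 < r0)
    (hr : r0 ≤ r) (hr1 : r0 ≤ 1)
    (hF : ∀ (θ : (Σ v, κ v) → ℝ) (L : T.V → ℝ), ‖θ‖ ≤ r → (∀ w, l0 ≤ L w) →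
      ∃ (μ : (Σ v, κ v) → ℝ) (G : Fam T), LS T g T0 κ ψ δ L θ μ G ∧
        D.f (fun j => θ j) (fun w => L w) = (actL T L (gbL T g T0 L) G : ℝ))
    (ht : ∀ L, Lng T l1 L → ∀ (θ θ' μ μ' : (Σ v, κ v) → ℝ) (G G' : Fam T),
      LS T g T0 κ ψ δb L θ μ G → LS T g T0 κ ψ δb L θ' μ' G' →
      |actL T L (gbL T g T0 L) G' - actL T L (gbL T g T0 L) G| ≤
        Cb * (√(mu2 T κ L μ) * ‖θ' - θ‖ + ‖θ' - θ‖ ^ 2))
    (hl : ∀ L, Lng T l1 L → ∀ w, w ≠ T.root → ∀ t : ℝ, |t| ≤ τ →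
      ∀ (θ μ μ' : (Σ v, κ v) → ℝ) (G G' : Fam T), ‖θ‖ ≤ 1 → LS T g T0 κ ψ δc L θ μ G →
      LS T g T0 κ ψ δc (Function.update L w (L w + t)) θ μ' G' →
      |actL T (Function.update L w (L w + t)) (gbL T g T0 (Function.update L w (L w + t))) G' -
          actL T L (gbL T g T0 L) G| ≤
        Cc * ((√(mu2 T κ L μ) + √(BB T L (gbL T g T0 L) G)) * (T.eps L w * |t|) + t ^ 2))
    {L : T.V → ℝ} (h0 : ∀ w, l0 + 1 ≤ L w) (h1 : Lng T l1 L) (h2 : ∀ w, w ≠ T.root → 0 ≤ L w)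
    {θ μ : (Σ v, κ v) → ℝ} {G : Fam T} (hθ : ‖θ‖ ≤ r0 / 2) (hG : LS T g T0 κ ψ δ L θ μ G)
    (hf : D.f (fun j => θ j) (fun w => L w) = (actL T L (gbL T g T0 L) G : ℝ))
    (hm : √(mu2 T κ L μ) ≤ A) (hB : √(BB T L (gbL T g T0 L) G) ≤ A) :
    (∑ j, ‖deriv (fun t : ℂ => D.f (Function.update (fun j => (θ j : ℂ)) j t) fun w => L w) (θ j)‖ +
      ∑ w, Real.exp (1 * L w) * ‖deriv (fun t : ℂ => D.f (fun j => θ j)
        (Function.update (fun w => (L w : ℂ)) w t)) (L w)‖) ≤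
      (Fintype.card (Σ v, κ v) * Cb + Fintype.card T.V * (2 * Cc)) * A := by
  have hA : 0 ≤ A := (Real.sqrt_nonneg _).trans hm
  have rf : Agr T L L := fun _ _ => rfl
  have a1 : ∀ j, ‖deriv (fun t : ℂ => D.f (Function.update (fun j => (θ j : ℂ)) j t) fun w => L w)
      (θ j)‖ ≤ Cb * A := fun j => by
    refine norm_deriv_le_of_real (B := Cb) (by positivity) (half_pos hr0) fun t htt => ?_
    have n1 := sw_norm_upd_sub θ j t
    have n2 : ‖Function.update θ j (θ j + t)‖ ≤ r := by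
      have := norm_add_le (Function.update θ j (θ j + t) - θ) θ
      rw [sub_add_cancel] at this
      linarith
    obtain ⟨μ', G', hG', e'⟩ := hF _ L n2 fun w => by linarith [h0 w]
    simp only [sw_upd_coe, Function.update_eq_self]
    rw [e', hf, ← Complex.ofReal_sub, Complex.norm_real, Real.norm_eq_abs]
    refine (ht L h1 _ _ _ _ _ _ (rf.ls hT hb hG) (rf.ls hT hb hG')).trans ?_
    have n3 := mul_le_mul hm n1 (norm_nonneg _) hA
    have n4 : ‖Function.update θ j (θ j + t) - θ‖ ^ 2 ≤ t ^ 2 := by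
      rw [← sq_abs t]; exact pow_le_pow_left₀ (norm_nonneg _) n1 2
    nlinarith
  have a2 : ∀ w, Real.exp (1 * L w) * ‖deriv (fun t : ℂ => D.f (fun j => θ j)
      (Function.update (fun w => (L w : ℂ)) w t)) (L w)‖ ≤ 2 * Cc * A := fun w => by
    have hL' : ∀ t : ℝ, |t| ≤ 1 → ∀ w', l0 ≤ Function.update L w (L w + t) w' := fun t htt w' => by
      by_cases e : w' = w
      · subst e; rw [Function.update_self]; linarith [h0 w', neg_abs_le t]
      · rw [Function.update_of_ne e]; linarith [h0 w']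
    by_cases hw : w = T.root
    · have : ‖deriv (fun t : ℂ => D.f (fun j => θ j)
          (Function.update (fun w => (L w : ℂ)) w t)) (L w)‖ ≤ 0 := by
        refine norm_deriv_le_of_real (B := 0) le_rfl one_pos fun t htt => ?_
        obtain ⟨μ', G', hG', e'⟩ := hF θ _ (by linarith) (hL' t htt)
        have ag : Agr T (Function.update L w (L w + t)) L := fun w' hw' =>
          Function.update_of_ne (hw ▸ hw') _ _
        simp only [sw_upd_coe, Function.update_eq_self]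
        rw [e', hf, ← Complex.ofReal_sub, Complex.norm_real, Real.norm_eq_abs, ag.actL hT, ag.gbL]
        simpa using ht L h1 _ _ _ _ _ _ (rf.ls hT hb hG) (ag.ls hT hb hG')
      rw [le_antisymm this (norm_nonneg _), mul_zero]
      positivity
    · have he := T.eps_pos L w
      have : ‖deriv (fun t : ℂ => D.f (fun j => θ j)
          (Function.update (fun w => (L w : ℂ)) w t)) (L w)‖ ≤ 2 * Cc * A * T.eps L w := by
        refine norm_deriv_le_of_real (B := Cc) (by positivity) (lt_min hτ one_pos) fun t htt => ?_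
        obtain ⟨μ', G', hG', e'⟩ := hF θ _ (by linarith) (hL' t (htt.trans (min_le_right _ _)))
        have rf' : Agr T (Function.update L w (L w + t)) (Function.update L w (L w + t)) :=
          fun _ _ => rfl
        simp only [sw_upd_coe, Function.update_eq_self]
        rw [e', hf, ← Complex.ofReal_sub, Complex.norm_real, Real.norm_eq_abs]
        refine (hl L h1 w hw t (htt.trans (min_le_left _ _)) _ _ _ _ _ (by linarith)
          (rf.ls hT hc hG) (rf'.ls hT hc hG')).trans ?_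
        have n3 := mul_le_mul_of_nonneg_right (add_le_add hm hB)
          (mul_nonneg he.le (abs_nonneg t))
        nlinarith
      have e1 := eps_exp_le hT h2 hw
      rw [one_mul]
      calc _ ≤ Real.exp (L w) * (2 * Cc * A * T.eps L w) :=
            mul_le_mul_of_nonneg_left this (Real.exp_pos _).le
        _ = 2 * Cc * A * (Real.exp (L w) * T.eps L w) := by ring
        _ ≤ _ := mul_le_of_le_one_right (by positivity) e1
  calc _ ≤ ∑ _j : Σ v, κ v, Cb * A + ∑ _w : T.V, 2 * Cc * A :=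
        add_le_add (Finset.sum_le_sum fun j _ => a1 j) (Finset.sum_le_sum fun w _ => a2 w)
    _ = _ := by simp only [Finset.sum_const, Finset.card_univ, nsmul_eq_mul]; ring

theorem sw_ev_exp (C a b : ℝ) (hab : b < a) {ε : ℝ} (hε : 0 < ε) :
    ∀ᶠ t : ℝ in atTop, C * Real.exp (-(a * t)) ≤ ε * Real.exp (-(b * t)) := by
  have h : Tendsto (fun t : ℝ => C * Real.exp (-((a - b) * t))) atTop (𝓝 (C * 0)) :=
    (Real.tendsto_exp_neg_atTop_nhds_zero.comp
      (tendsto_id.const_mul_atTop (sub_pos.2 hab))).const_mul C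
  rw [mul_zero] at h
  filter_upwards [h.eventually (gt_mem_nhds hε)] with t ht
  have e : C * Real.exp (-(a * t)) = C * Real.exp (-((a - b) * t)) * Real.exp (-(b * t)) := by
    rw [mul_assoc, ← Real.exp_add]; congr 2; ring
  rw [e]
  exact mul_le_mul_of_nonneg_right ht.le (Real.exp_pos _).le

set_option maxHeartbeats 800000 in
/-- the glue for one family of constraints -/
theorem swl_core (hT : T.Ok) {c : ℝ} (hO : O.OST) (hF : FAM T g κ ψ (1 / 2)) (h1 : Thb T g κ ψ c)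
    (h2 : Cmpg T g κ ψ) (h3 : Grt T g κ ψ) (h4 : Grl T g κ ψ) (h5 : NEARG T g)
    {U : Ultrafilter ℕ} {L : ℕ → T.V → ℝ} {G : ℕ → T.S → MetricField 4} {E : ℕ → ℝ}
    (hS : T.Seq g (1 / 2) U L G) (hG : Ga.GAUGE T g (1 / 2) U L G)
    (hfl : ∀ᶠ i in (U : Filter ℕ), Sk.Flat T (G i)) (hE : ∀ i, 0 ≤ E i)
    (hEE : ∀ᶠ i in (U : Filter ℕ), Sk.EE T (L i) (G i) ≤ ENNReal.ofReal (E i ^ 2))
    (hE0 : Tendsto E U (𝓝 0)) (hS0 : Tendsto (fun i => Sk.SR T (L i) (G i)) U (𝓝 0))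
    {η : ℝ} (hη : 0 < η) : ∀ᶠ i in (U : Filter ℕ), |Sk.SR T (L i) (G i)| ≤ η * E i := by
  classical
  rcases U.le_cofinite_or_eq_pure with hU | ⟨n, rfl⟩
  swap
  · have := tendsto_nhds_unique hS0 (tendsto_pure_nhds (fun i => Sk.SR T (L i) (G i)) n)
    rw [Ultrafilter.coe_pure, eventually_pure, ← this, abs_zero]
    exact mul_nonneg hη.le (hE n)
  rw [Nat.cofinite_eq_atTop] at hU
  obtain ⟨δ0, C1, Ta, hδ0, hC1, h1⟩ := h1
  obtain ⟨δa, Tb, hδa, h2⟩ := h2
  obtain ⟨δb, Tc, hδb, h3⟩ := h3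
  obtain ⟨δc, Td, hδc, h4⟩ := h4
  obtain ⟨Te, hF⟩ := hF (min δa (min δb δc)) (by positivity)
  obtain ⟨C2, Tf, hC2, hG⟩ := hG
  obtain ⟨h5, h6⟩ := h5 U L G hS
  obtain ⟨T0, ⟨⟨⟨ta, tb⟩, tc, td⟩, ⟨te, tf⟩, tg, t0⟩, ⟨n1, n2⟩, n3⟩ := ((((((eventually_ge_atTop Ta).and
    (eventually_ge_atTop Tb)).and ((eventually_ge_atTop Tc).and (eventually_ge_atTop Td))).and
    (((eventually_ge_atTop Te).and (eventually_ge_atTop Tf)).and ((eventually_ge_atTop (c + 2)).and
    (eventually_ge_atTop 0)))).and (((sw_ev_exp C2 (2 / 5) 0 (by norm_num)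
    (show 0 < min δ0 (min δa (1 / 16)) by positivity)).and (sw_ev_exp (C1 * C2) (2 / 5) (3 / 8)
    (by norm_num) (show (0 : ℝ) < 1 / 4 by norm_num))).and (h5 δa hδa)))).exists
  obtain ⟨Ca, hCa, h2⟩ := h2 T0 tb
  obtain ⟨Cb, hCb, h3⟩ := h3 T0 tc
  obtain ⟨Cc, τ, hCc, hτ, h4⟩ := h4 T0 td
  obtain ⟨D, r, l0, hr, hρ, hF⟩ := hF T0 te
  set r0 := Real.exp (-(3 / 8 * T0)) with hr0
  have r0p : 0 < r0 := Real.exp_pos _
  have r01 : r0 ≤ 1 := Real.exp_le_one_iff.2 (by linarith)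
  have hr' : r0 ≤ r := by
    rw [show (3 / 4 * min (1 / 2) 1 * T0 : ℝ) = 3 / 8 * T0 by norm_num [min_eq_left]] at hr
    exact hr
  set ε := C2 * Real.exp (-(2 / 5 * T0)) with hε
  simp only [zero_mul, neg_zero, Real.exp_zero, mul_one, le_min_iff] at n1
  have hG' : ∀ᶠ i in (U : Filter ℕ), ∃ u : T.S → E4 → E4, NId T (L i) (L i) ε u ∧
      ∀ s, ∀ x ∈ U1 T (L i) s, gauT (pm (u s) (gbL T g T0 (L i) s)) (T.nrm (L i) (G i) s) x = 0 := by
    filter_upwards [hG T0 tf] with i ⟨u, hu, hg⟩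
    rw [show (4 / 5 * (1 / 2) * T0 : ℝ) = 2 / 5 * T0 by ring] at hu
    exact ⟨u, nid_of_nearId hT n1.2.2 hu, fun s x hx => hg s x (W1_eq (L i) ▸ U1_sub hT _ s hx)⟩
  obtain ⟨u, hu⟩ := hG'.choice
  set L' : ℕ → T.V → ℝ := fun i => Function.update (L i) T.root i with hL'
  have ag : ∀ i, Agr T (L' i) (L i) := fun i w hw => Function.update_of_ne hw _ _
  have top : ∀ w, Tendsto (fun i => L' i w) U atTop := fun w => by
    by_cases hw : w = T.root
    · simp only [hL', hw, Function.update_self]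
      exact tendsto_natCast_atTop_atTop.mono_left hU
    · simpa only [ag _ w hw] using hS.top w hw
  have lng : ∀ l : ℝ, ∀ᶠ i in (U : Filter ℕ), ∀ w, l ≤ L' i w := fun l =>
    eventually_all.2 fun w => (top w).eventually_ge_atTop l
  have lng' : ∀ {l : ℝ} {i : ℕ}, (∀ w, l ≤ L' i w) → Lng T l (L i) := fun h w hw =>
    ag _ w hw ▸ h w
  set θ : ℕ → (Σ v, κ v) → ℝ := fun i =>
    if ‖th T g κ ψ T0 (L i) (u i) (T.nrm (L i) (G i))‖ ≤ r0 / 2 then
      th T g κ ψ T0 (L i) (u i) (T.nrm (L i) (G i)) else 0 with hθ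
  have θb : ∀ i, ‖θ i‖ ≤ r0 / 2 := fun i => by
    simp only [hθ]
    split_ifs with h
    · exact h
    · rw [norm_zero]; positivity
  set K := (Fintype.card (Σ v, κ v) * Cb + Fintype.card T.V * (2 * Cc)) * √Ca with hK
  have K0 : 0 ≤ K := by positivity
  have main : ∀ᶠ i in (U : Filter ℕ),
      ‖(Sk.SR T (L i) (G i) : ℂ) - D.f (fun j => θ i j) (fun w => L' i w)‖ ≤ Ca * E i ^ 2 ∧
      (∑ j, ‖deriv (fun t : ℂ => D.f (Function.update (fun j => (θ i j : ℂ)) j t)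
          fun w => L' i w) (θ i j)‖ + ∑ w, Real.exp (1 * L' i w) * ‖deriv (fun t : ℂ =>
            D.f (fun j => θ i j) (Function.update (fun w => (L' i w : ℂ)) w t)) (L' i w)‖) ≤
        K * E i := by
    filter_upwards [hu, n3, h6 (c + 2) (r0 / (4 * C1)) (by positivity) T0 tg, hS.met, hfl, hEE,
      lng (l0 + 1), lng (2 * T0 + Ta), lng (2 * T0 + Tb), lng (max (2 * T0 + Tc) (2 * T0 + Td)),
      lng 0] with i ⟨hu1, hu2⟩ i1 i2 ⟨i3, i4⟩ i5 i6 l1 l2 l3 l4 l5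
    have hm : Met1 T (L i) (T.nrm (L i) (G i)) := sw_met1_of hT (by rwa [sw_rt_nrm])
    have b1 := h1 T0 ta (L i) (lng' l2) ε _ (u i) _ n1.1 (by positivity) hu1 hm i2
    have b2 : ‖th T g κ ψ T0 (L i) (u i) (T.nrm (L i) (G i))‖ ≤ r0 / 2 := by
      have : C1 * (r0 / (4 * C1)) = r0 / 4 := by field_simp
      rw [mul_add, this, hε, ← mul_assoc] at b1
      linarith
    have e : θ i = th T g κ ψ T0 (L i) (u i) (T.nrm (L i) (G i)) := if_pos b2
    obtain ⟨μ, G', hG', ef⟩ := hF (θ i) (L' i) (by linarith [θb i]) fun w => by linarith [l1 w]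
    obtain ⟨c1, c2, c3⟩ := h2 (L i) (lng' l3) (G i) (u i) (E i) μ G' i4 i5 i1 (hu1.mono n1.2.1) hu2
      (hE i) i6 (e ▸ (ag i).ls hT (min_le_left _ _) hG')
    have sq : ∀ {y : ℝ}, y ≤ Ca * E i ^ 2 → √y ≤ √Ca * E i := fun h => by
      rw [← Real.sqrt_sq (hE i), ← Real.sqrt_mul hCa.le]; exact Real.sqrt_le_sqrt h
    refine ⟨?_, ?_⟩
    · rw [ef, ← Complex.ofReal_sub, Complex.norm_real, Real.norm_eq_abs, (ag i).actL hT,
        (ag i).gbL]
      exact c1
    · rw [hK, mul_assoc]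
      refine sw_slices hT D ((min_le_right _ _).trans (min_le_left _ _))
        ((min_le_right _ _).trans (min_le_right _ _)) hCb hCc hτ r0p hr' r01 hF
        (fun L h => h3 L fun w hw => (le_max_left _ _).trans (h w hw))
        (fun L h => h4 L fun w hw => (le_max_right _ _).trans (h w hw)) l1 (fun w _ => l4 w)
        (fun w _ => l5 w) (θb i) hG' ef (sq ?_) (sq ?_)
      · rwa [mu2, (ag i).eps hT]
      · rwa [(ag i).bb hT]
  have E2 : Tendsto (fun i => Ca * E i ^ 2) U (𝓝 0) := by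
    simpa using (hE0.pow 2).const_mul Ca
  have f0 : Tendsto (fun i => D.f (fun j => θ i j) fun w => L' i w) U (𝓝 0) := by
    have a1 : Tendsto (fun i => (Sk.SR T (L i) (G i) : ℂ) - D.f (fun j => θ i j) fun w => L' i w)
        U (𝓝 0) := squeeze_zero_norm' (main.mono fun i h => h.1) E2
    have a2 : Tendsto (fun i => (Sk.SR T (L i) (G i) : ℂ)) U (𝓝 0) := by
      simpa using hS0.ofReal
    simpa using a2.sub a1
  have hη' : 0 < η / (2 * (K + 1)) := by positivity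
  filter_upwards [main, hO _ _ D ℕ U θ L' r hρ (fun i => by linarith [θb i]) top f0 1 one_pos _ hη',
    (hE0.const_mul Ca).eventually (gt_mem_nhds (show Ca * 0 < η / 2 by simpa using hη))]
    with i ⟨m1, m2⟩ m3 m4
  have m5 : ‖(Sk.SR T (L i) (G i) : ℂ)‖ ≤ Ca * E i ^ 2 + η / (2 * (K + 1)) * (K * E i) := by
    have := norm_add_le ((Sk.SR T (L i) (G i) : ℂ) - D.f (fun j => θ i j) fun w => L' i w)
      (D.f (fun j => θ i j) fun w => L' i w)
    rw [sub_add_cancel] at this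
    exact this.trans (add_le_add m1 (m3.trans (mul_le_mul_of_nonneg_left m2 hη'.le)))
  rw [Complex.norm_real, Real.norm_eq_abs] at m5
  have m6 : η / (2 * (K + 1)) * K ≤ η / 2 := by
    rw [div_mul_eq_mul_div, div_le_div_iff₀ (by positivity) two_pos]; nlinarith
  have := hE i
  nlinarith

end Crest.Agent.N207.NS

end
end

-- ▼ part N207/N/Swl3
section

/-!
# Row 207, block N (helper9): the glue `swl_of`
-/

set_option autoImplicit false

open scoped ContDiff Topology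
open Metric Set Filter MeasureTheory
open Crest.GeometryTopology.CoordMetric
open Crest.Agent.N207.I Crest.Agent.N207.Lg Crest.Agent.N207.CB

noncomputable section

namespace Crest.Agent.N207.NS

variable {M : Type*}

/-- the consequences of the comparison inequality -/
def REST (T : TD M) (g : T.V → Fam T) : Prop :=
  ∀ (κ : T.V → Type) [∀ v, Fintype (κ v)] [∀ v, DecidableEq (κ v)] (ψ : ∀ v, κ v → Fam T)
    (c η C : ℝ), 2 ≤ c → Real.exp (-c) ≤ T.r / 8 → 0 < η → Good T g κ ψ c η C → Cmp T g κ ψ c →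
    Thb T g κ ψ c ∧ Cmpg T g κ ψ ∧ Grt T g κ ψ ∧ Grl T g κ ψ

/-- the gauge, for all sequences -/
def GAUA (T : TD M) (g : T.V → Fam T) : Prop :=
  ∀ (U : Ultrafilter ℕ) (L : ℕ → T.V → ℝ) (G : ℕ → T.S → MetricField 4),
    T.Seq g (1 / 2) U L G → (∀ᶠ i in (U : Filter ℕ), Sk.Flat T (G i)) →
    Ga.GAUGE T g (1 / 2) U L G

/-- **the glue of the static chain** -/
theorem swl_of (hO : O.OST) (hL : ∀ T : TD M, LStmt T)
    (h : ∀ (T : TD M) (g : T.V → Fam T), Std T g →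
      FAMX T g ∧ KL T g ∧ CMP T g ∧ NEARG T g ∧ GAUA T g ∧ REST T g) : Sk.SWL' M := by
  intro T g U L G E hT hc hg hS hfl hE hEE hE0 hS0 η hη
  obtain ⟨h1, h2, h3, h4, h5, h6⟩ := h T g ⟨hT, hc, hg⟩
  have hV : (1 : ℝ) ≤ Fintype.card T.V := by
    exact_mod_cast Fintype.card_pos_iff.2 ⟨T.root⟩
  have hm : min (1 / 2 : ℝ) 1 = 1 / 2 := min_eq_left (by norm_num)
  obtain ⟨c1, h2⟩ := h2 (sig T (1 / 2)) (by rw [sig, hm]; positivity)
    (by rw [sig, hm, div_lt_one (by positivity)]; linarith)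
  obtain ⟨c2, h3⟩ := h3
  set c := max (max c1 c2) (max 2 (-Real.log (T.r / 8))) with hcd
  obtain ⟨η1, p1, h2⟩ := h2 c ((le_max_left _ _).trans (le_max_left _ _))
  obtain ⟨η2, p2, h3⟩ := h3 c ((le_max_right _ _).trans (le_max_left _ _))
  have a1 : 2 ≤ c := (le_max_left _ _).trans (le_max_right _ _)
  have a2 : Real.exp (-c) ≤ T.r / 8 := by
    have : -Real.log (T.r / 8) ≤ c := (le_max_right _ _).trans (le_max_right _ _)
    have hr := hT.r_pos
    rw [← Real.exp_log (show 0 < T.r / 8 by positivity)]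
    exact Real.exp_le_exp.2 (by linarith)
  obtain ⟨κ, i1, i2, ψ, C, hG⟩ := h1 c (min η1 η2) a1 a2 (lt_min p1 p2)
  obtain ⟨b1, b2, b3, b4⟩ := h6 κ ψ c _ C a1 a2 (lt_min p1 p2) hG (h3 κ ψ _ C (min_le_right _ _) hG)
  exact swl_core hT hO (hL T g _ (by norm_num) hT hg κ ψ (h2 κ ψ _ C (min_le_left _ _) hG))
    b1 b2 b3 b4 h4 hS (h5 U L G hS hfl) hfl hE hEE hE0 hS0 hη

end Crest.Agent.N207.NS

end
end

-- ▼ part N207/N/Gs1
section

/-!
# Row 207, block N (helper86): change of the background at one point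
-/

set_option autoImplicit false

open scoped ContDiff Topology
open Metric Set Filter
open Crest.GeometryTopology.CoordMetric
open Crest.Agent.N207.I Crest.Agent.N207.Lg Crest.Agent.N207.CB

noncomputable section

namespace Crest.Agent.N207.NS.Gs

/-- arrays -/
abbrev B2 : Type := M2 (Fin 4) ℝ
/-- arrays -/
abbrev B3 : Type := M3 (Fin 4) ℝ
/-- arrays -/
abbrev B4 : Type := M4 (Fin 4) ℝ

theorem lip_ball {E F : Type*} [NormedAddCommGroup E] [NormedSpace ℝ E] [ProperSpace E]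
    [NormedAddCommGroup F] [NormedSpace ℝ F] {f : E → F} (hf : ContDiff ℝ 1 f) (Λ : ℝ) :
    ∃ C : ℝ, 0 ≤ C ∧ ∀ z z', ‖z‖ ≤ Λ → ‖z'‖ ≤ Λ → ‖f z - f z'‖ ≤ C * ‖z - z'‖ := by
  obtain ⟨K, hK⟩ := (hf.locallyLipschitz.locallyLipschitzOn (s := closedBall 0 Λ)
    ).exists_lipschitzOnWith_of_compact (isCompact_closedBall 0 Λ)
  exact ⟨K, K.2, fun z z' h h' =>
    hK.norm_sub_le (mem_closedBall_zero_iff.2 h) (mem_closedBall_zero_iff.2 h')⟩

theorem cl_cd {E : Type*} [NormedAddCommGroup E] [NormedSpace ℝ E] :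
    Cl fun f : E → ℝ => ContDiff ℝ 1 f := ⟨fun _ => contDiff_const, ContDiff.add, ContDiff.mul⟩

theorem dG2_zero (H : B2) : dG2 H 0 0 = 0 := by
  funext c a i j; simp [dG2, dchr, chr_zero]

/-- the reduced Ricci tensor is Lipschitz in the jets of the background -/
theorem red_bg (Λ : ℝ) : ∃ C : ℝ, 0 ≤ C ∧ ∀ (g H H' : B2) (p p' : B3) (q q' : B4) (η : ℝ),
    ‖g‖ ≤ Λ → ‖H‖ ≤ Λ → ‖H'‖ ≤ Λ → ‖p‖ ≤ Λ → ‖q‖ ≤ Λ → ‖p'‖ ≤ η → ‖q'‖ ≤ η → η ≤ Λ →
    ‖redR g H p q 0 0 - redR g H p q (chr H' p') (dG2 H' p' q')‖ ≤ C * η := by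
  have h := cl_cd (E := (B2 × B2 × B2 × B3 × B4) × B3 × B4)
  have H' : P2 (fun f => ContDiff ℝ 1 f) fun w : (B2 × B2 × B2 × B3 × B4) × B3 × B4 =>
    w.1.2.2.1 := fun a b => by beta_reduce; fun_prop
  have p' : P3 (fun f => ContDiff ℝ 1 f) fun w : (B2 × B2 × B2 × B3 × B4) × B3 × B4 =>
    w.2.1 := fun a b c => by beta_reduce; fun_prop
  obtain ⟨C, h0, hC⟩ := lip_ball (f := fun w : (B2 × B2 × B2 × B3 × B4) × B3 × B4 =>
      redR w.1.1 w.1.2.1 w.1.2.2.2.1 w.1.2.2.2.2 (chr w.1.2.2.1 w.2.1) (dG2 w.1.2.2.1 w.2.1 w.2.2))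
    (contDiff_pi.2 fun a => contDiff_pi.2 fun b => h.redR (fun a b => by beta_reduce; fun_prop)
      (fun a b => by beta_reduce; fun_prop) (fun a b c => by beta_reduce; fun_prop)
      (fun a b c d => by beta_reduce; fun_prop) (h.chr H' p')
      (h.dG2 H' p' fun a b c d => by beta_reduce; fun_prop) a b) Λ
  refine ⟨C, h0, fun g H H' p p' q q' η h1 h2 h3 h4 h5 h6 h7 h8 => ?_⟩
  have k0 : 0 ≤ η := (norm_nonneg _).trans h6
  have k1 : ‖(g, H, H', p, q)‖ ≤ Λ := by simp only [Prod.norm_mk, max_le_iff]; tauto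
  have := hC ((g, H, H', p, q), 0, 0) ((g, H, H', p, q), p', q')
    (by rw [Prod.norm_mk, max_le_iff]; exact ⟨k1, by simpa using k0.trans h8⟩)
    (max_le k1 (max_le (h6.trans h8) (h7.trans h8)))
  simp only [chr_zero, dG2_zero] at this
  refine this.trans (mul_le_mul_of_nonneg_left ?_ h0)
  simp only [Prod.mk_sub_mk, sub_self, zero_sub, Prod.norm_mk, norm_neg, max_le_iff, norm_zero]
  tauto

theorem abs_ent {H : B2} (a b : Fin 4) : |H a b| ≤ ‖H‖ :=
  (norm_le_pi_norm (H a) b).trans (norm_le_pi_norm H a)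

theorem abs_ip1 (H : B2) (u v : Fin 4 → ℝ) : |ip1 H u v| ≤ 16 * (‖H‖ * (‖u‖ * ‖v‖)) := by
  refine (Finset.abs_sum_le_sum_abs _ _).trans ((Finset.sum_le_card_nsmul _ _
    (4 * (‖H‖ * (‖u‖ * ‖v‖))) fun i _ => (Finset.abs_sum_le_sum_abs _ _).trans
      ((Finset.sum_le_card_nsmul _ _ (‖H‖ * (‖u‖ * ‖v‖)) fun j _ => ?_).trans_eq
        (by simp))).trans_eq (by simp; ring))
  rw [abs_mul, abs_mul]
  exact mul_le_mul (abs_ent i j) (mul_le_mul (norm_le_pi_norm u i) (norm_le_pi_norm v j)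
    (abs_nonneg _) (norm_nonneg _)) (by positivity) (norm_nonneg _)

theorem norm_le_sqrt {u : Fin 4 → ℝ} {y : ℝ} (h : ∑ i, u i ^ 2 ≤ y) : ‖u‖ ≤ √y :=
  (pi_norm_le_iff_of_nonneg (Real.sqrt_nonneg _)).2 fun i => Real.abs_le_sqrt
    ((Finset.single_le_sum (f := fun i => u i ^ 2) (fun _ _ => sq_nonneg _)
      (Finset.mem_univ i)).trans h)

/-- the gauge term under a change of the background -/
theorem gau_bg {Λ : ℝ} (hΛ : 1 ≤ Λ) : ∃ C : ℝ, 0 ≤ C ∧
    ∀ (s0 s η κ : ℝ) (g0 g H0 H H' : B2) (p0 p p' : B3), Iv g0 H0 → Iv g H → Λ⁻¹ ≤ s0 →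
    (∀ ξ : Fin 4 → ℝ, Λ⁻¹ * ∑ i, ξ i ^ 2 ≤ ∑ i, ∑ j, H0 i j * ξ i * ξ j) → |s| ≤ Λ →
    ‖g‖ ≤ Λ → ‖H0‖ ≤ Λ → ‖H‖ ≤ Λ → ‖H'‖ ≤ Λ → ‖p0‖ ≤ Λ → ‖p‖ ≤ Λ → ‖p'‖ ≤ η → η ≤ Λ →
    ‖g - g0‖ ≤ κ → ‖p - p0‖ ≤ κ →
    |gau s H (bar g p (chr H' p')) - gau s H p| ≤ C * (η * (√(gau s0 H0 p0) + κ) + η ^ 2) := by
  have h := cl_cd (E := (B2 × B2 × B2 × B3) × B3)
  obtain ⟨C1, c1, hC1⟩ := lip_ball (f := fun w : (B2 × B2 × B2 × B3) × B3 =>
      gv w.1.2.1 (bar w.1.1 w.1.2.2.2 (chr w.1.2.2.1 w.2)))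
    (contDiff_pi.2 fun a => h.gv (fun a b => by beta_reduce; fun_prop)
      (h.bar (fun a b => by beta_reduce; fun_prop) (fun a b c => by beta_reduce; fun_prop)
        (h.chr (fun a b => by beta_reduce; fun_prop) fun a b c => by beta_reduce; fun_prop)) a) Λ
  obtain ⟨C2, c2, hC2⟩ := lip_ball (f := fun w : B2 × B3 => gv w.1 w.2)
    (contDiff_pi.2 fun a => cl_cd.gv (fun a b => by beta_reduce; fun_prop)
      (fun a b c => by beta_reduce; fun_prop) a) Λ
  have L0 : 0 < Λ := by linarith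
  refine ⟨8 * Λ ^ 2 * (C1 * (4 * Λ + 32 * C2 * Λ ^ 2) + C1 ^ 2), by positivity,
    fun s0 s η κ g0 g H0 H H' p0 p p' i0 i a0 el a1 a2 a3 a4 a5 a6 a7 a8 a9 b1 b2 => ?_⟩
  have k0 : 0 ≤ η := (norm_nonneg _).trans a8
  have k1 : 0 ≤ κ := (norm_nonneg _).trans b1
  have k2 : ‖(g, H, H', p)‖ ≤ Λ := by simp only [Prod.norm_mk, max_le_iff]; tauto
  have d1 := hC1 ((g, H, H', p), p') ((g, H, H', p), 0)
    (by rw [Prod.norm_mk, max_le_iff]; exact ⟨k2, a8.trans a9⟩)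
    (by rw [Prod.norm_mk, max_le_iff]; exact ⟨k2, by simpa using L0.le⟩)
  simp only [chr_zero, bar_zero, Prod.mk_sub_mk, sub_self, sub_zero, Prod.norm_mk, norm_zero,
    max_eq_right (norm_nonneg p')] at d1
  have d2 := hC2 (H, p) (H0, p0) (by rw [Prod.norm_mk, max_le_iff]; exact ⟨a4, a7⟩)
    (by rw [Prod.norm_mk, max_le_iff]; exact ⟨a3, a6⟩)
  have d3 : ‖H - H0‖ ≤ 16 * Λ ^ 2 * κ := by
    rw [inv_sub i i0, norm_neg]
    refine (pi_norm_le_iff_of_nonneg (by positivity)).2 fun a =>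
      (pi_norm_le_iff_of_nonneg (by positivity)).2 fun b => ?_
    have e : up2 H (g - g0) H0 a b = ip1 (g - g0) (H a) fun j => H0 j b :=
      Finset.sum_congr rfl fun _ _ => Finset.sum_congr rfl fun _ _ => by ring
    have f1 : ‖H a‖ ≤ Λ := (norm_le_pi_norm H a).trans a4
    have f2 : ‖fun j => H0 j b‖ ≤ Λ :=
      (pi_norm_le_iff_of_nonneg L0.le).2 fun j => (abs_ent j b).trans a3
    rw [Real.norm_eq_abs, e]
    refine (abs_ip1 _ _ _).trans ?_
    calc _ ≤ 16 * (κ * (Λ * Λ)) := by gcongr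
      _ = _ := by ring
  have d4 : ‖gv H p - gv H0 p0‖ ≤ C2 * (16 * Λ ^ 2 * κ) := d2.trans (mul_le_mul_of_nonneg_left (by
    rw [Prod.mk_sub_mk, Prod.norm_mk, max_le_iff]
    exact ⟨d3, b2.trans (le_mul_of_one_le_left k1 (by nlinarith))⟩) c2)
  have d5 : ‖gv H0 p0‖ ≤ 2 * Λ * √(gau s0 H0 p0) := by
    have e1 : Λ⁻¹ * ∑ i, gv H0 p0 i ^ 2 ≤ ip1 H0 (gv H0 p0) (gv H0 p0) := by
      simpa only [ip1, mul_assoc] using el (gv H0 p0)
    have e0 : 0 ≤ Λ⁻¹ * ∑ i, gv H0 p0 i ^ 2 := by positivity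
    have e2 := mul_le_mul a0 e1 e0 ((inv_pos.2 L0).le.trans a0)
    have e3 : ∑ i, gv H0 p0 i ^ 2 ≤ (2 * Λ) ^ 2 * gau s0 H0 p0 := by
      have e4 := mul_le_mul_of_nonneg_left e2 (sq_nonneg Λ)
      rw [show Λ ^ 2 * (Λ⁻¹ * (Λ⁻¹ * ∑ i, gv H0 p0 i ^ 2)) = ∑ i, gv H0 p0 i ^ 2 by field_simp] at e4
      have e5 : 0 ≤ ∑ i, gv H0 p0 i ^ 2 := by positivity
      rw [gau]; nlinarith
    refine (norm_le_sqrt e3).trans_eq ?_
    rw [Real.sqrt_mul (sq_nonneg _), Real.sqrt_sq (by positivity)]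
  set D := gv H (bar g p (chr H' p')) - gv H p with hD
  set B := gv H p with hB
  set y := √(gau s0 H0 p0) with hy
  have y0 : 0 ≤ y := Real.sqrt_nonneg _
  have d6 : ‖D‖ ≤ C1 * η := d1.trans (mul_le_mul_of_nonneg_left a8 c1)
  have d7 : ‖B‖ ≤ (2 * Λ + 16 * C2 * Λ ^ 2) * (y + κ) := by
    have := norm_le_insert' B (gv H0 p0)
    have t1 : 0 ≤ Λ * κ := by positivity
    have t2 : 0 ≤ C2 * Λ ^ 2 * y := by positivity
    nlinarith
  have e : gau s H (bar g p (chr H' p')) - gau s H p =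
      1 / 2 * s * (ip1 H B D + ip1 H D B + ip1 H D D) := by
    rw [gau, gau, ← hB, show gv H (bar g p (chr H' p')) = B + D by rw [hD]; ring]
    simp only [ip1_add_left, ip1_add_right]
    ring
  have f1 : |ip1 H B D| ≤ 16 * (Λ * ((2 * Λ + 16 * C2 * Λ ^ 2) * (y + κ) * (C1 * η))) :=
    (abs_ip1 _ _ _).trans (by gcongr)
  have f2 : |ip1 H D B| ≤ 16 * (Λ * (C1 * η * ((2 * Λ + 16 * C2 * Λ ^ 2) * (y + κ)))) :=
    (abs_ip1 _ _ _).trans (by gcongr)
  have f3 : |ip1 H D D| ≤ 16 * (Λ * (C1 * η * (C1 * η))) := (abs_ip1 _ _ _).trans (by gcongr)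
  have f4 := (abs_add_three (ip1 H B D) (ip1 H D B) (ip1 H D D)).trans
    (add_le_add (add_le_add f1 f2) f3)
  rw [e, abs_mul, abs_mul, abs_of_pos (by norm_num : (0 : ℝ) < 1 / 2)]
  refine (mul_le_mul (mul_le_mul_of_nonneg_left a1 (by norm_num)) f4 (abs_nonneg _)
    (by positivity)).trans ?_
  have t1 : 0 ≤ Λ ^ 2 * C1 ^ 2 * (η * (y + κ)) := by positivity
  have t2 : 0 ≤ Λ ^ 2 * (C1 * (4 * Λ + 32 * C2 * Λ ^ 2)) * η ^ 2 := by positivity
  nlinarith

/-! ### jets -/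

theorem pd_le (f : E4 → ℝ) (x : E4) (m : Fin 4) : |pderiv m f x| ≤ ‖iteratedFDeriv ℝ 1 f x‖ := by
  rw [norm_iteratedFDeriv_one]
  simpa [pderiv] using (fderiv ℝ f x).le_opNorm (EuclideanSpace.single m (1 : ℝ))

theorem pd2_le {f : E4 → ℝ} {x : E4} (hf : ContDiffAt ℝ 2 f x) (c d : Fin 4) :
    |pderiv c (pderiv d f) x| ≤ ‖iteratedFDeriv ℝ 2 f x‖ := by
  have h1 : DifferentiableAt ℝ (fderiv ℝ f) x :=
    (hf.fderiv_right (m := 1) (by norm_num)).differentiableAt one_ne_zero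
  have e : pderiv c (pderiv d f) x = iteratedFDeriv ℝ 2 f x
      ![EuclideanSpace.single c 1, EuclideanSpace.single d 1] := by
    rw [iteratedFDeriv_two_apply]
    change fderiv ℝ (fun y => fderiv ℝ f y (EuclideanSpace.single d 1)) x _ = _
    rw [fderiv_clm_apply h1 (differentiableAt_const _)]
    simp
  rw [e]
  simpa using (iteratedFDeriv ℝ 2 f x).le_opNorm
    ![EuclideanSpace.single c 1, EuclideanSpace.single d 1]

theorem n2_le {H : B2} {a : ℝ} (h : ∀ p q, |H p q| ≤ a) : ‖H‖ ≤ a :=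
  have h0 := (abs_nonneg _).trans (h 0 0)
  (pi_norm_le_iff_of_nonneg h0).2 fun p => (pi_norm_le_iff_of_nonneg h0).2 fun q => h p q

theorem n3_le {H : B3} {a : ℝ} (h : ∀ c p q, |H c p q| ≤ a) : ‖H‖ ≤ a :=
  (pi_norm_le_iff_of_nonneg ((abs_nonneg _).trans (h 0 0 0))).2 fun c => n2_le (h c)

theorem n4_le {H : B4} {a : ℝ} (h : ∀ d c p q, |H d c p q| ≤ a) : ‖H‖ ≤ a :=
  (pi_norm_le_iff_of_nonneg ((abs_nonneg _).trans (h 0 0 0 0))).2 fun c => n3_le (h c)

variable {b b' G H : MetricField 4} {x : E4}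

/-- jets of `H` from the jets of `H - b`, `b` constant near `x` -/
theorem jets_le (hb : b =ᶠ[𝓝 x] fun _ => 1) (hH : C2 H x) {a : ℝ}
    (h : ∀ k ≤ 2, ∀ p q, ‖iteratedFDeriv ℝ k (fun y => (H y - b y) p q) x‖ ≤ a) :
    ‖jet H x‖ ≤ a ∧ ‖jet2 H x‖ ≤ a := by
  have e : ∀ p q, ∀ k, k ≠ 0 → k ≤ 2 → iteratedFDeriv ℝ k (fun y => (H y - b y) p q) x =
      iteratedFDeriv ℝ k (fun y => H y p q) x := fun p q k h0 hk => by
    have e1 : (fun y => (H y - b y) p q) =ᶠ[𝓝 x]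
        (fun y => H y p q) - fun _ => (1 : Matrix (Fin 4) (Fin 4) ℝ) p q :=
      hb.mono fun y hy => by simp only [Matrix.sub_apply, hy, Pi.sub_apply]
    rw [(e1.iteratedFDeriv ℝ k).eq_of_nhds, iteratedFDeriv_sub_apply
      ((hH.c2 p q).of_le (by exact_mod_cast hk)) contDiffAt_const,
      iteratedFDeriv_const_of_ne h0, Pi.zero_apply, sub_zero]
  exact ⟨n3_le fun c p q => (pd_le _ _ c).trans (e p q 1 one_ne_zero one_le_two ▸ h 1 one_le_two p q),
    n4_le fun c d p q => (pd2_le (hH.c2 p q) c d).trans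
      (e p q 2 two_ne_zero le_rfl ▸ h 2 le_rfl p q)⟩

theorem e0_nonneg (k : MetricField 4) (x : E4) : 0 ≤ e0 k x := by unfold e0; positivity

theorem e1_nonneg (k : MetricField 4) (x : E4) : 0 ≤ e1 k x := by unfold e1 Hd.g2; positivity

theorem ent_le (k : MetricField 4) (x : E4) (p q : Fin 4) : k x p q ^ 2 ≤ e0 k x :=
  (Finset.single_le_sum (f := fun q => k x p q ^ 2) (fun _ _ => sq_nonneg _)
    (Finset.mem_univ q)).trans (Finset.single_le_sum (f := fun p => ∑ q, k x p q ^ 2)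
      (fun _ _ => by positivity) (Finset.mem_univ p))

theorem jet_le (k : MetricField 4) (x : E4) (c p q : Fin 4) : jet k x c p q ^ 2 ≤ e1 k x :=
  (Finset.single_le_sum (f := fun c => pderiv c (fun y => k y p q) x ^ 2) (fun _ _ => sq_nonneg _)
    (Finset.mem_univ c)).trans ((Finset.single_le_sum (f := fun q => Hd.g2 (fun y => k y p q) x)
      (fun _ _ => by unfold Hd.g2; positivity) (Finset.mem_univ q)).trans
    (Finset.single_le_sum (f := fun p => ∑ q, Hd.g2 (fun y => k y p q) x)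
      (fun _ _ => by unfold Hd.g2; positivity) (Finset.mem_univ p)))

/-- **change of the background at a point where `b` is flat** -/
theorem ann_pt {Λ : ℝ} (hΛ : 1 ≤ Λ) : ∃ C : ℝ, 0 ≤ C ∧ ∀ (b b' G H : MetricField 4) (x : E4)
    (η : ℝ), (b =ᶠ[𝓝 x] fun _ => 1) → C2 b' x → C2 G x → C2 H x → η ≤ Λ →
    (∀ p q, |H x p q| ≤ Λ ∧ |(H x)⁻¹ p q| ≤ Λ ∧ |(G x)⁻¹ p q| ≤ Λ ∧ |(b' x)⁻¹ p q| ≤ Λ) →
    Λ⁻¹ ≤ sq G x → |sq H x| ≤ Λ →
    (∀ ξ : Fin 4 → ℝ, Λ⁻¹ * ∑ i, ξ i ^ 2 ≤ ∑ i, ∑ j, (G x)⁻¹ i j * ξ i * ξ j) →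
    (∀ k ≤ 2, ∀ p q, ‖iteratedFDeriv ℝ k (fun y => (G y - b y) p q) x‖ ≤ Λ ∧
      ‖iteratedFDeriv ℝ k (fun y => (H y - b y) p q) x‖ ≤ Λ ∧
      ‖iteratedFDeriv ℝ k (fun y => (b' y - b y) p q) x‖ ≤ η) →
    (∀ p q, |redT b H x ![p, q] - redT b' H x ![p, q]| ≤ C * η) ∧
    |gau (sq H x) (iv H x) (TG b' H x) - gau (sq H x) (iv H x) (TG b H x)| ≤
      C * (η * (√(gau (sq G x) (iv G x) (TG b G x)) + √(e1 (G - H) x + e0 (G - H) x)) + η ^ 2) := by
  obtain ⟨C1, c1, h1⟩ := red_bg Λ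
  obtain ⟨C2, c2, h2⟩ := gau_bg hΛ
  refine ⟨C1 + C2, by positivity, fun b b' G H x η hb k' kG kH a1 a2 a3 a4 a5 a6 => ?_⟩
  obtain ⟨j1, j2⟩ := jets_le hb kH fun k hk p q => (a6 k hk p q).2.1
  obtain ⟨j3, -⟩ := jets_le hb kG fun k hk p q => (a6 k hk p q).1
  obtain ⟨j4, j5⟩ := jets_le hb k' fun k hk p q => (a6 k hk p q).2.2
  have η0 : 0 ≤ η := (norm_nonneg _).trans j4
  have t : ∀ K : MetricField 4, TG b K x = jet K x := fun K =>
    (TG_congr hb EventuallyEq.rfl).eq_of_nhds.trans (TG_const _ K x)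
  have n1 : ‖(fun p q => H x p q : B2)‖ ≤ Λ := n2_le fun p q => (a2 p q).1
  have n2 : ‖iv H x‖ ≤ Λ := n2_le fun p q => (a2 p q).2.1
  have n3 : ‖iv G x‖ ≤ Λ := n2_le fun p q => (a2 p q).2.2.1
  have n4 : ‖iv b' x‖ ≤ Λ := n2_le fun p q => (a2 p q).2.2.2
  refine ⟨fun p q => ?_, ?_⟩
  · have r1 := k'.redT_raw kH
    have r2 := (c2_one x).redT_raw kH
    have z1 : jet2 (fun _ => 1 : MetricField 4) x = 0 := by
      funext c d p q; simp only [jet2, jet_const]; exact pd_const c _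
    rw [jet_const, z1, chr_zero, dG2_zero, ← (redT_congr hb EventuallyEq.rfl).eq_of_nhds] at r2
    have := (abs_ent p q).trans (h1 _ _ _ _ _ _ _ η n1 n2 n4 j1 j2 j4 j5 a1)
    change |redR (H x) _ _ _ 0 0 p q - redR (H x) _ _ _ _ _ p q| ≤ _ at this
    rw [← r1, ← r2] at this
    exact this.trans (by nlinarith)
  · have s0 := e0_nonneg (G - H) x
    have s1 := e1_nonneg (G - H) x
    have := h2 (sq G x) (sq H x) η (√(e1 (G - H) x + e0 (G - H) x)) (G x) (H x) _ _ _ _ _ _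
      kG.iv_inv kH.iv_inv a3 a5 a4 n1 n3 n2 n4 j3 j1 j4 a1
      (n2_le fun p q => by
        rw [← abs_neg]
        refine Real.abs_le_sqrt (le_trans (le_of_eq ?_) ((ent_le (G - H) x p q).trans (by linarith)))
        change (-(H x p q - G x p q)) ^ 2 = (G x p q - H x p q) ^ 2
        ring)
      (by
        rw [norm_sub_rev, ← jet_sub kG.d kH.d]
        exact n3_le fun c p q => Real.abs_le_sqrt ((jet_le (G - H) x c p q).trans (by linarith)))
    rw [t, t, TG_eq, chr_eq]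
    exact this.trans (mul_le_mul_of_nonneg_right (by linarith) (by positivity))

end Crest.Agent.N207.NS.Gs

end
end

-- ▼ part N207/N/Gs2
section

/-!
# Row 207, block N (helper86): geometry of the dilation of one neck
-/

set_option autoImplicit false

open scoped ContDiff Topology
open Metric Set Filter MeasureTheory
open Crest.GeometryTopology.CoordMetric Crest.Agent.R202.Tens
open Crest.Agent.N207.I Crest.Agent.N207.I.TD Crest.Agent.N207.Lg Crest.Agent.N207.CB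

noncomputable section

namespace Crest.Agent.N207.NS.Gs

variable {M : Type*}

/-- the data of the dilation -/
structure Dl (T : TD M) (T0 c : ℝ) (L L' : T.V → ℝ) (w : T.V) (t : ℝ) (u : T.S → E4 → E4) :
    Prop where
  ok : T.Ok
  ne : w ≠ T.root
  t1 : |t| ≤ 1 / 2
  c0 : c + 3 ≤ T0
  p0 : 0 ≤ T0
  lng : Lng T (2 * T0 + 5) L
  at_w : L' w = L w + t
  off_w : ∀ v, v ≠ w → L' v = L v
  oth : ∀ s, s ≠ Sum.inr w → ∀ x, u s x = x
  inn : ∀ x, ‖x‖ ≤ Real.exp (T0 + 1) → u (Sum.inr w) x = x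
  out : ∀ x, Real.exp (T0 + 2) ≤ ‖x‖ → u (Sum.inr w) x = Real.exp t • x
  mid : ∀ x ∈ U1 T L (Sum.inr w), ‖u (Sum.inr w) x - x‖ ≤ ‖x‖ / 2

/-- the annulus where `u` is not a dilation -/
def An (T : TD M) (T0 : ℝ) (w : T.V) (s : T.S) (x : E4) : Prop :=
  s = Sum.inr w ∧ Real.exp (T0 + 1) ≤ ‖x‖ ∧ ‖x‖ ≤ Real.exp (T0 + 2)

/-- the local dilation factor -/
def aa (T : TD M) (T0 : ℝ) (w : T.V) (t : ℝ) (s : T.S) (x : E4) : ℝ :=
  if s = Sum.inr w ∧ Real.exp (T0 + 2) < ‖x‖ then Real.exp t else 1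

/-- nonzero points of the end charts -/
def Nz (T : TD M) (s : T.S) (x : E4) : Prop := ∀ v, s = Sum.inr v → x ≠ 0

variable {T : TD M} {g : T.V → Fam T} {T0 c t : ℝ} {L L' : T.V → ℝ} {w v : T.V}
  {u : T.S → E4 → E4} {s : T.S} {x : E4}

theorem nz_of (hx : x ∈ U1 T L s) : Nz T s x := by
  rintro v rfl rfl
  have := hx.1
  norm_num at this

theorem aa_pos : 0 < aa T T0 w t s x := by
  unfold aa; split_ifs
  · exact Real.exp_pos t
  · exact one_pos

theorem aa_ne (h : s ≠ Sum.inr w) : aa T T0 w t s x = 1 := if_neg fun e => h e.1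

theorem aa_in (h : ‖x‖ ≤ Real.exp (T0 + 2)) : aa T T0 w t s x = 1 := if_neg fun e => e.2.not_ge h

theorem aa_out (h : Real.exp (T0 + 2) < ‖x‖) : aa T T0 w t (Sum.inr w) x = Real.exp t :=
  if_pos ⟨rfl, h⟩

theorem gb_out (h : T0 + 1 / 10 ≤ Real.log ‖x‖) : gb T g T0 v (Sum.inr v) x = 1 :=
  Ga.gb_one (by simp only [tau, if_true]; linarith)

theorem gb_inn (hT : T.Ok) (hv : v ≠ T.root) {l : ℝ} (hx : x ≠ 0)
    (h : Real.log ‖x‖ + T0 + 1 / 10 ≤ l) :
    gb T g T0 (T.par v) (Sum.inr v) (Real.exp (-l) • x) = 1 :=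
  Ga.gb_one (by simp only [tau, if_neg (hT.par_ne hv), Ga.log_smul _ hx]; linarith)

theorem log_le {a : ℝ} (hx : x ≠ 0) (h : ‖x‖ ≤ Real.exp a) : Real.log ‖x‖ ≤ a :=
  (Real.log_le_iff_le_exp (norm_pos_iff.2 hx)).2 h

theorem le_log {a : ℝ} (h : Real.exp a ≤ ‖x‖) : a ≤ Real.log ‖x‖ :=
  (Real.le_log_iff_exp_le ((Real.exp_pos a).trans_le h)).2 h

theorem ne0 {a : ℝ} (h : Real.exp a ≤ ‖x‖) : x ≠ 0 := norm_pos_iff.1 ((Real.exp_pos a).trans_le h)

namespace Dl

variable (d : Dl T T0 c L L' w t u)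
include d

theorem ex : Real.exp (-L' w) * Real.exp t = Real.exp (-L w) := by
  rw [← Real.exp_add, d.at_w]; congr 1; ring

/-- off the annulus `u` is a dilation that matches the reference metrics -/
theorem off (g : T.V → Fam T) (hx : Nz T s x) (hA : ¬ An T T0 w s x) : ∀ᶠ z in 𝓝 x,
    u s z = aa T T0 w t s x • z ∧ gbL T g T0 L' s (aa T T0 w t s x • z) = gbL T g T0 L s z := by
  have t1 := abs_le.1 d.t1
  have hl := d.lng w d.ne
  by_cases hs : s = Sum.inr w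
  · subst hs
    rcases lt_or_ge ‖x‖ (Real.exp (T0 + 1)) with h | h
    · rw [aa_in (h.le.trans (Real.exp_le_exp.2 (by linarith)))]
      filter_upwards [(isOpen_lt continuous_norm continuous_const).mem_nhds h,
        isOpen_ne.mem_nhds (hx w rfl)] with z h1 h2
      have := log_le h2 (le_of_lt h1)
      rw [one_smul, Ga.gbL_kid d.ne, Ga.gbL_kid d.ne, gb_inn d.ok d.ne h2 (by linarith [d.at_w]),
        gb_inn d.ok d.ne h2 (by linarith)]
      exact ⟨d.inn z (le_of_lt h1), rfl⟩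
    · have h' : Real.exp (T0 + 2) < ‖x‖ := lt_of_not_ge fun e => hA ⟨rfl, h, e⟩
      rw [aa_out h']
      filter_upwards [(isOpen_lt continuous_const continuous_norm).mem_nhds h'] with z h1
      have := le_log (le_of_lt h1)
      rw [Ga.gbL_kid d.ne, Ga.gbL_kid d.ne, smul_smul, d.ex,
        gb_out (by rw [Ga.log_smul _ (ne0 (le_of_lt h1))]; linarith), gb_out (x := z) (by linarith)]
      exact ⟨d.out z (le_of_lt h1), rfl⟩
  · rw [aa_ne hs]
    refine Eventually.of_forall fun z => ⟨by rw [one_smul, d.oth s hs], ?_⟩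
    rcases s with a | v
    · rw [one_smul]; rfl
    · simp only [gbL, Sum.elim_inr, one_smul, d.off_w v fun e => hs (congrArg _ e)]

/-- on the annulus the reference metric is flat -/
theorem one (g : T.V → Fam T) (hA : An T T0 w s x) : gbL T g T0 L s =ᶠ[𝓝 x] fun _ => 1 := by
  obtain ⟨rfl, h1, h2⟩ := hA
  have hl := d.lng w d.ne
  filter_upwards [(isOpen_lt continuous_const continuous_norm).mem_nhds
      ((Real.exp_lt_exp.2 (show T0 + 1 / 2 < T0 + 1 by linarith)).trans_le h1),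
    (isOpen_lt continuous_norm continuous_const).mem_nhds
      (h2.trans_lt (Real.exp_lt_exp.2 (show T0 + 2 < T0 + 3 by linarith)))] with z h3 h4
  have h5 := le_log (le_of_lt h3)
  have h6 := log_le (ne0 (le_of_lt h3)) (le_of_lt h4)
  rw [Ga.gbL_kid d.ne, gb_out (by linarith), gb_inn d.ok d.ne (ne0 (le_of_lt h3)) (by linarith)]
  simp

theorem kid_far {v' : T.V} (hx : x ≠ 0) (hk : T.kid v v')
    (h : -Real.log ‖Real.exp (-L v') • x‖ ≤ c + 1) : Real.exp (T0 + 2) < ‖x‖ ∧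
      Real.exp (-L' v') * aa T T0 w t (Sum.inr v') x = Real.exp (-L v') := by
  rw [Ga.log_smul _ hx] at h
  have h1 : Real.exp (T0 + 2) < ‖x‖ := (Real.lt_log_iff_exp_lt (norm_pos_iff.2 hx)).1 (by
    linarith [d.lng v' hk.1, d.c0])
  refine ⟨h1, ?_⟩
  by_cases e : v' = w
  · subst e; rw [aa_out h1, d.ex]
  · rw [aa_ne fun e' => e (Sum.inr_injective e'), mul_one, d.off_w v' e]

/-- near the cores everything is matched by the dilation -/
theorem ink (hx : Nz T s x) (hi : InK T L v (c + 1) s x) : ¬ An T T0 w s x ∧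
    (∀ X, toL T L' v X s (aa T T0 w t s x • x) = toL T L v X s x) ∧
    ep T L' s * aa T T0 w t s x * T.eps L v = ep T L s * T.eps L' v := by
  rcases s with a | v'
  · obtain rfl : T.vx a = v := hi
    refine ⟨fun h => by simpa using h.1, fun X => by rw [aa_ne (by simp), one_smul]; rfl, ?_⟩
    rw [aa_ne (by simp), mul_one, mul_comm]; rfl
  · rcases hi with ⟨rfl, h⟩ | ⟨hk, h⟩
    · have h1 : ‖x‖ < Real.exp (T0 + 1) :=
        (Real.log_lt_iff_lt_exp (norm_pos_iff.2 (hx _ rfl))).1 (by linarith [d.c0])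
      rw [aa_in (h1.le.trans (Real.exp_le_exp.2 (by linarith)))]
      refine ⟨fun h => h.2.1.not_gt h1, fun X => by simp [toL], ?_⟩
      rw [mul_one, mul_comm]; rfl
    · obtain ⟨h1, h2⟩ := d.kid_far (hx _ rfl) hk h
      refine ⟨fun h => h.2.2.not_gt h1, fun X => ?_, ?_⟩
      · simp only [toL, Sum.elim_inr, if_neg (d.ok.kid_ne hk), smul_smul, h2]
      · change T.eps L' v' * _ * _ = T.eps L v' * _
        rw [d.ok.eps_kid L' hk.1, d.ok.eps_kid L hk.1, hk.2, mul_assoc (T.eps L' v), h2]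
        ring

theorem ink' (hx : x ∈ U1 T L s) (hi : InK T L' v (c + 1) s (u s x)) : InK T L v (c + 1) s x := by
  by_cases hs : s = Sum.inr w
  · subst hs
    have t1 := abs_le.1 d.t1
    have hl := d.lng w d.ne
    have x0 := nz_of hx w rfl
    have x1 := norm_pos_iff.2 x0
    have m := abs_le.1 ((abs_norm_sub_norm_le _ _).trans (d.mid x hx))
    have u0 : 0 < ‖u (Sum.inr w) x‖ := by linarith
    have l2 : Real.log 2 ≤ 1 := by linarith [Real.log_two_lt_d9]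
    have m1 : Real.log ‖x‖ ≤ 1 + Real.log ‖u (Sum.inr w) x‖ :=
      (Real.log_le_log x1 (show ‖x‖ ≤ 2 * ‖u (Sum.inr w) x‖ by linarith)).trans (by
        rw [Real.log_mul two_ne_zero u0.ne']; linarith)
    have m2 : Real.log ‖u (Sum.inr w) x‖ ≤ 1 + Real.log ‖x‖ :=
      (Real.log_le_log u0 (show _ ≤ 2 * ‖x‖ by linarith)).trans (by
        rw [Real.log_mul two_ne_zero x1.ne']; linarith)
    rcases hi with ⟨e, h⟩ | ⟨hk, h⟩
    · have h1 : ‖x‖ ≤ Real.exp (T0 + 1) := (Real.log_le_iff_le_exp x1).1 (by linarith [d.c0])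
      rw [d.inn x h1] at h
      exact Or.inl ⟨e, h⟩
    · have h' := h
      rw [Ga.log_smul _ (norm_pos_iff.1 u0), d.at_w] at h'
      have h1 : Real.exp (T0 + 2) ≤ ‖x‖ := (Real.le_log_iff_exp_le x1).1 (by linarith [d.c0])
      rw [d.out x h1, smul_smul, d.ex] at h
      exact Or.inr ⟨hk, h⟩
  · rw [d.oth s hs] at hi
    rcases s with a | v'
    · exact hi
    · simpa only [InK, Sum.elim_inr, d.off_w v' fun e => hs (congrArg _ e)] using hi

theorem eps_cases (v : T.V) : T.eps L' v = T.eps L v ∨ (T.dep w ≤ T.dep v ∧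
    T.eps L' v = Real.exp (-t) * T.eps L v ∧ T.eps L v ≤ T.eps L w) := by
  refine d.ok.ind (P := fun v => T.eps L' v = T.eps L v ∨ (T.dep w ≤ T.dep v ∧
    T.eps L' v = Real.exp (-t) * T.eps L v ∧ T.eps L v ≤ T.eps L w))
    (Or.inl (by rw [d.ok.eps_root, d.ok.eps_root])) (fun v hv ih => ?_) v
  have hd := d.ok.dep_par v hv
  by_cases e : v = w
  · subst e
    refine Or.inr ⟨le_rfl, ?_, le_rfl⟩
    rw [d.ok.eps_kid L' hv, d.ok.eps_kid L hv, ih.resolve_right fun h => by omega, d.at_w,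
      neg_add, Real.exp_add]
    ring
  · have h1 : Real.exp (-L v) ≤ 1 := Real.exp_le_one_iff.2 (by linarith [d.lng v hv, d.p0])
    rw [d.ok.eps_kid L' hv, d.ok.eps_kid L hv, d.off_w v e]
    refine ih.imp (fun h => by rw [h]) fun h => ⟨by omega, by rw [h.2.1, mul_assoc], ?_⟩
    exact (mul_le_of_le_one_right (eps_pos L _).le h1).trans h.2.2

theorem rho (v : T.V) : (T.eps L' v / T.eps L v) ^ 2 ≤ 3 ∧
    |(T.eps L' v / T.eps L v) ^ 2 - 1| * T.eps L v ≤ 4 * (T.eps L w * |t|) := by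
  have p := eps_pos L v
  have p' := eps_pos L w
  rcases d.eps_cases v with h | ⟨-, h, h'⟩
  · rw [h, div_self p.ne']
    exact ⟨by norm_num, by simp only [one_pow, sub_self, abs_zero, zero_mul]; positivity⟩
  · have h1 : |-t + -t| ≤ 2 * |t| := (abs_add_le _ _).trans (by rw [abs_neg]; linarith)
    have h2 := Real.abs_exp_sub_one_le (x := -t + -t) (by linarith [d.t1])
    rw [h, mul_div_assoc, div_self p.ne', mul_one, pow_two, ← Real.exp_add]
    refine ⟨by linarith [(abs_le.1 h2).2, d.t1], ?_⟩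
    calc _ ≤ 4 * |t| * T.eps L w := mul_le_mul (by linarith) h' p.le (by positivity)
      _ = _ := by ring

theorem pb_off (g : T.V → Fam T) (hx : Nz T s x) (hA : ¬ An T T0 w s x) (H : Fam T) :
    ∀ᶠ z in 𝓝 x, pb T L L' u H s z =
      ((ep T L' s / ep T L s) ^ 2 * aa T T0 w t s x ^ 2) • H s (aa T T0 w t s x • z) :=
  (pm_dil_ev ((d.off g hx hA).mono fun _ h => h.1) (H s)).mono fun z h => by
    rw [pb, h, smul_smul]

/-- off the annulus the pulled back reference metric is a multiple of the reference metric -/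
theorem bg_off (g : T.V → Fam T) (hx : Nz T s x) (hA : ¬ An T T0 w s x) : ∃ k : ℝ, 0 < k ∧
    pb T L L' u (gbL T g T0 L') s =ᶠ[𝓝 x] fun z => k • gbL T g T0 L s z :=
  ⟨_, mul_pos (pow_pos (div_pos (ep_pos L' s) (ep_pos L s)) 2) (pow_pos aa_pos 2), by
    filter_upwards [d.pb_off g hx hA (gbL T g T0 L'), d.off g hx hA] with z h1 h2
    rw [h1, h2.2]⟩

theorem bg_root (g : T.V → Fam T) (x : E4) :
    gbL T g T0 L (Sum.inr T.root) x = pb T L L' u (gbL T g T0 L') (Sum.inr T.root) x := by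
  have hs : (Sum.inr T.root : T.S) ≠ Sum.inr w := fun e => d.ne (Sum.inr_injective e).symm
  rw [pb, pm_dil (a := 1) (Eventually.of_forall fun z => by rw [one_smul, d.oth _ hs])]
  simp [ep, un, d.ok.eps_root, gbL]

theorem fac (hx : Nz T s x) (hi : InK T L v (c + 1) s x) :
    (ep T L' s / ep T L s) ^ 2 * aa T T0 w t s x ^ 2 = (T.eps L' v / T.eps L v) ^ 2 ∧
      sr T L' v s * aa T T0 w t s x ^ 2 = sr T L v s := by
  have h := (d.ink hx hi).2.2
  have p1 := (ep_pos L s).ne'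
  have p2 := (eps_pos L v).ne'
  have p3 := (eps_pos L' v).ne'
  rw [sr, sr, ← mul_pow, ← mul_pow]
  constructor <;> congr 1 <;> field_simp <;> linarith

/-- the multiplier terms are matched -/
theorem psi (g : T.V → Fam T) (hx : x ∈ U1 T L s) (G X : Fam T)
    (h0 : ¬ InK T L v (c + 1) s x → toL T L v X s x = 0)
    (h1 : ¬ InK T L' v (c + 1) s (u s x) → toL T L' v X s (u s x) = 0) (p q : Fin 4) :
    sr T L' v s * pm (u s) (PsT (gbL T g T0 L' s) (G s) (toL T L' v X s)) x p q =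
      sr T L v s * PsT (gbL T g T0 L s) (pb T L L' u G s) (toL T L v X s) x p q := by
  by_cases hi : InK T L v (c + 1) s x
  · have hz := nz_of hx
    obtain ⟨a1, a2, -⟩ := d.ink hz hi
    have a3 := d.off g hz a1
    rw [pm_dil (a3.mono fun _ h => h.1), PsT_pt (mul_pos (pow_pos (div_pos (ep_pos L' s)
      (ep_pos L s)) 2) (pow_pos aa_pos 2)) a3.self_of_nhds.2.symm
      (d.pb_off g hz a1 G).self_of_nhds (a2 X).symm, ← (d.fac hz hi).2, Matrix.smul_apply,
      smul_eq_mul, mul_assoc]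
  · rw [PsT_zero' (h0 hi), pm_zero (PsT_zero' (h1 fun e => hi (d.ink' hx e)))]
    simp

/-- the constraints only see the dilation -/
theorem loc_eq (g : T.V → Fam T) (hx : x ∈ (T.core v).U s)
    (h : ∀ v', s = Sum.inr v' → tau T v v' (c + 1) x < 0) (G : Fam T) :
    loc T L v (pb T L L' u G - gbL T g T0 L) s x =
      loc T L' v ((T.eps L' v / T.eps L v) ^ 2 • G - gbL T g T0 L') s x := by
  obtain ⟨y, h1, h2, h3, h4⟩ : ∃ y, Nz T s y ∧ InK T L v (c + 1) s y ∧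
      (∀ k, loc T L v k s x = k s y) ∧ ∀ k, loc T L' v k s x = k s (aa T T0 w t s y • y) := by
    rcases s with a | v'
    · refine ⟨x, fun _ e => by simp at e, ?_, fun _ => rfl, fun k => ?_⟩
      · by_contra e
        simp only [core, Sum.elim_inl, bU, if_neg (show ¬ T.vx a = v from e)] at hx
        exact hx
      · rw [aa_ne (by simp), one_smul]; rfl
    · have h := h v' rfl
      by_cases e : v' = v
      · subst e
        simp only [tau, if_true, core, Sum.elim_inr, mem_ofPred_eq] at h hx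
        have x0 : 0 < ‖x‖ := by linarith
        refine ⟨x, fun _ _ => norm_pos_iff.1 x0, Or.inl ⟨rfl, by linarith⟩, fun k => by simp [loc],
          fun k => ?_⟩
        rw [aa_in ((Real.log_le_iff_le_exp x0).1 (by linarith [d.c0]))]
        simp [loc]
      · by_cases hk : T.kid v v'
        · simp only [tau, if_neg e, core, Sum.elim_inr, if_pos hk, mem_ofPred_eq] at h hx
          have y0 : Real.exp (L v') • x ≠ 0 :=
            smul_ne_zero (Real.exp_pos _).ne' (norm_pos_iff.1 hx.1)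
          have h5 : -Real.log ‖Real.exp (-L v') • Real.exp (L v') • x‖ ≤ c + 1 := by
            rw [smul_smul, ← Real.exp_add, neg_add_cancel, Real.exp_zero, one_smul]; linarith
          refine ⟨_, fun _ _ => y0, Or.inr ⟨hk, h5⟩, fun k => by simp [loc, e], fun k => ?_⟩
          have h6 := (d.kid_far y0 hk h5).2
          have h7 : aa T T0 w t (Sum.inr v') (Real.exp (L v') • x) * Real.exp (L v') =
              Real.exp (L' v') := by
            rw [Real.exp_neg, Real.exp_neg] at h6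
            have := (Real.exp_pos (L v')).ne'
            have := (Real.exp_pos (L' v')).ne'
            field_simp at h6
            linarith
          simp only [loc, Sum.elim_inr, if_neg e, smul_smul, h7]
        · simp only [core, Sum.elim_inr, if_neg e, if_neg hk] at hx
          exact hx.elim
  have a1 := (d.ink h1 h2).1
  rw [h3, h4, Pi.sub_apply, Pi.sub_apply, Pi.sub_apply, Pi.sub_apply,
    (d.pb_off g h1 a1 G).self_of_nhds, (d.off g h1 a1).self_of_nhds.2, (d.fac h1 h2).1]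
  rfl

end Dl

end Crest.Agent.N207.NS.Gs

end
end

-- ▼ part N207/N/Grt
section

/-!
# Row 207, block N (helper26): `core` and `grt`
-/

set_option autoImplicit false

open scoped ContDiff Topology
open Metric Set Filter MeasureTheory
open Crest.GeometryTopology.CoordMetric
open Crest.Agent.N207.I Crest.Agent.N207.I.TD Crest.Agent.N207.Lg Crest.Agent.N207.CB

noncomputable section

namespace Crest.Agent.N207.NS

variable {M : Type*} {T : TD M} {g : T.V → Fam T} {κ : T.V → Type} [∀ v, Fintype (κ v)]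
  {ψ : ∀ v, κ v → Fam T} {c : ℝ}

theorem e0_split {r A n : ℝ} {F0 E : MetricField 4} {x : E4} (hr : 1 ≤ r) (hn : 0 ≤ n)
    (h : ∀ p q, |r ^ 2 * F0 x p q| ≤ A * √n) :
    r ^ 2 * e0 (F0 - E) x ≤ 32 * A ^ 2 * (n / r ^ 2) + 2 * (r ^ 2 * e0 E x) := by
  have hr2 : 0 < r ^ 2 := by positivity
  have h1 : ∀ p q, r ^ 2 * (F0 x p q - E x p q) ^ 2 ≤
      2 * A ^ 2 * (n / r ^ 2) + 2 * (r ^ 2 * E x p q ^ 2) := fun p q => by
    have h2 := sq_le_sq' (abs_le.1 (h p q)).1 (abs_le.1 (h p q)).2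
    rw [mul_pow A, Real.sq_sqrt hn] at h2
    have h3 : r ^ 2 * F0 x p q ^ 2 ≤ A ^ 2 * (n / r ^ 2) := by
      rw [← mul_div_assoc, le_div_iff₀ hr2]; nlinarith
    nlinarith [mul_nonneg hr2.le (sq_nonneg (F0 x p q + E x p q))]
  calc _ = ∑ p, ∑ q, r ^ 2 * (F0 x p q - E x p q) ^ 2 := by simp [e0, Finset.mul_sum]
    _ ≤ ∑ p, ∑ q, (2 * A ^ 2 * (n / r ^ 2) + 2 * (r ^ 2 * E x p q ^ 2)) :=
      Finset.sum_le_sum fun p _ => Finset.sum_le_sum fun q _ => h1 p q
    _ = _ := by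
      simp only [e0, Finset.sum_add_distrib, ← Finset.mul_sum, Finset.sum_const, Finset.card_univ,
        Fintype.card_fin, nsmul_eq_mul]
      push_cast; ring

theorem absorb {K C δ : ℝ} (hK : 0 ≤ K) (hC : 0 < C) (h0 : 0 ≤ δ)
    (h : δ ≤ 1 / (8 * (K + 1) * (C + 1))) : C * (32 * (K * δ) ^ 2) ≤ 1 / 2 := by
  rw [le_div_iff₀ (by positivity)] at h
  have h1 : K * δ * (8 * (C + 1)) ≤ 1 := by nlinarith [mul_nonneg h0 hC.le]
  have h2 : 0 ≤ K * δ := mul_nonneg hK h0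
  have h3 : (K * δ * (8 * (C + 1))) ^ 2 ≤ 1 := pow_le_one₀ (by positivity) h1
  nlinarith [mul_nonneg (sq_nonneg (K * δ)) hC.le, mul_nonneg (sq_nonneg (K * δ)) (sq_nonneg C),
    sq_nonneg (K * δ)]

set_option maxHeartbeats 1000000 in
theorem core (h : Std T g) (hM : MUL) (hE : ELL T g) (hCh : CHI T) (hV : VOL T) (hG : GB T g)
    (hT : TAY T g) (hX : XC T) (hC : Cmp T g κ ψ c) (hP : Tol T g κ ψ c) : Core T g κ ψ := by
  obtain ⟨δc, Cc, Tc, hδc, hCc, hcmp⟩ := hC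
  obtain ⟨P, Tp, hP, htol⟩ := hP
  obtain ⟨δe, Λ, Te, hδe, -, hell⟩ := hE
  obtain ⟨Cm, hCm, hmul⟩ := hM.2.2 Λ
  obtain ⟨T1, hch⟩ := hCh.ch h.ok
  obtain ⟨Cv, Tv, hCv, hvol⟩ := hV (c + 1)
  obtain ⟨Tg, hgb⟩ := hG
  replace hgb := (hgb 0).choose_spec
  obtain ⟨δt, Ct, Tt, hδt, hCt, htay⟩ := hT
  obtain ⟨Cx, Tx, -, hxc⟩ := hX
  obtain ⟨Tm, hTm⟩ := (Set.toFinite ({0, Tc, Tp, Te, T1, Tv, Tg, Tt, Tx} : Set ℝ)).bddAbove
  simp only [mem_upperBounds, mem_insert_iff, mem_singleton_iff, forall_eq_or_imp,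
    forall_eq] at hTm
  obtain ⟨t0, tc, tp, te, t1, tv, tg, tt, tx⟩ := hTm
  set K : ℝ := Fintype.card (Σ v, κ v) * (Cv * Cm * P) with hK
  have hK0 : 0 ≤ K := by positivity
  obtain ⟨δ, hδ, d1, d2, d3, d4, d5⟩ : ∃ δ : ℝ, 0 < δ ∧ 4 * δ ≤ δc ∧ 4 * δ ≤ δt ∧ 4 * δ ≤ δe ∧
      Cm * δ * P ≤ δc ∧ δ ≤ 1 / (8 * (K + 1) * (Cc + 1)) := by
    refine ⟨min (min (δc / 4) (δt / 4)) (min (δe / 4) (min (δc / (Cm * P))
      (1 / (8 * (K + 1) * (Cc + 1))))), by positivity, ?_, ?_, ?_, ?_, ?_⟩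
    · rw [← le_div_iff₀' (by norm_num)]; simp
    · rw [← le_div_iff₀' (by norm_num)]; simp
    · rw [← le_div_iff₀' (by norm_num)]; simp
    · rw [mul_right_comm, ← le_div_iff₀' (by positivity)]; simp
    · simp
  refine ⟨δ, 4 * Cc + 1 + Ct * (4 * Cc), Tm, hδ, by positivity,
    fun T0 hT0 L hL θ μ μ' G H E e hls hH heq hEi hEe => ?_⟩
  have l1 : ∀ {t}, t ≤ Tm → Lng T (2 * T0 + t) L := fun ht => hL.mono (by linarith)
  have l2 : ∀ {t}, t ≤ Tm → Lng T t L := fun ht => hL.mono (by linarith)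
  have ch := hch L (l2 t1)
  have hb := ((hgb T0 (tg.trans hT0)).2 L (l1 tg)).2.1
  have hb1 := ch.met1 hb
  have tol := htol T0 (tp.trans hT0) L (l1 tp)
  have aG := ls_adm ch hls
  set b := gbL T g T0 L with hbd
  have tc' : ∀ v j s p q, ContinuousOn (fun x => toL T L v (ψ v j) s x p q) (U1 T L s) :=
    fun v j s p q => ((sm_of_rt ((tol v j).1.sm s) p q).mono (ch.U1_U s)).continuousOn
  have tz : ∀ v j s, ∀ x ∈ U1 T L s, ¬ InK T L v (c + 1) s x → toL T L v (ψ v j) s x = 0 :=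
    fun v j s x hx => (tol v j).2.2.1 s x (ch.U1_U s hx)
  have tz2 : ∀ v j s, ∀ x ∈ U1 T L s, ¬ InK T L v (c + 2) s x → toL T L v (ψ v j) s x = 0 :=
    fun v j s x hx hi => tz v j s x hx fun h' => hi (h'.mono (by linarith))
  have bd : ∀ X : Fam T, Adm T g T0 L δe X → ∀ s, ∀ x ∈ U1 T L s, ∀ p q,
      |X s x p q| ≤ Λ ∧ |(X s x)⁻¹ p q| ≤ Λ := fun X hX s x hx =>
    (hell T0 (te.trans hT0) L (l1 te) X s x (ch.U1_W1 s hx) ((hX.met.riem s).posDef x hx)
      (hX.near.val hx)).1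
  have lip : ∀ X Y : Fam T, Adm T g T0 L δe X → Adm T g T0 L δe Y → ∀ v j s, ∀ x ∈ U1 T L s,
      ∀ d, (∀ p q, |X s x p q - Y s x p q| ≤ d) → ∀ p q,
        |PsT (b s) (X s) (toL T L v (ψ v j) s) x p q -
          PsT (b s) (Y s) (toL T L v (ψ v j) s) x p q| ≤ Cm * d * P := fun X Y hX hY v j s x hx d =>
    hmul (b s) (X s) (Y s) _ x d P ((hb1.riem s).posDef x hx) ((hX.met.riem s).posDef x hx)
      ((hY.met.riem s).posDef x hx) (by
        simp only [List.mem_cons, List.not_mem_nil, or_false, forall_eq_or_imp, forall_eq]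
        exact ⟨bd _ (gb_adm ch hb hδe.le) s x hx, bd X hX s x hx, bd Y hY s x hx⟩)
      fun p q => by simpa using (tol v j).2.2.2.1.val (ch.U1_W1 s hx) p q
  have aHe : Adm T g T0 L δe H := hH.mono (by linarith)
  choose σ hσ hσ' using fun j : Σ v, κ v => (tol j.1 j.2).2.2.2.2.1
  have prt : ∀ j : Σ v, κ v, Prt T L j.1 (c + 2) δc (ψ j.1 j.2)
      fun s x => σ j • PsT (b s) (H s) (toL T L j.1 (ψ j.1 j.2) s) x := fun j =>
    prt_ps hM hb1 hH.met (tc' _ _) (tz2 _ _) (hσ j) (fun s x hx => hσ' j s x (ch.U1_U s hx))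
      fun s x hx p q => (lip H b aHe (gb_adm ch hb hδe.le) _ _ s x hx δ (hH.near.val hx) p q).trans d4
  set F0 : Fam T := fun s x => Matrix.of fun p q => ∑ j : Σ v, κ v, μ j * (sr T L j.1 s *
    (PsT (b s) (H s) (toL T L j.1 (ψ j.1 j.2) s) x p q -
      PsT (b s) (G s) (toL T L j.1 (ψ j.1 j.2) s) x p q)) with hF0
  have eqn : ∀ s, ∀ x ∈ U1 T L s, ∀ p q, redT (b s) (G s) x ![p, q] - redT (b s) (H s) x ![p, q] =
      (F0 - E) s x p q + ∑ j, σ j * (μ' j - μ j) * (sr T L j.1 s *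
        (σ j • PsT (b s) (H s) (toL T L j.1 (ψ j.1 j.2) s) x) p q) := fun s x hx p q => by
    rw [heq s x hx, ls_red hM hb (fun v j => (tol v j).2.1) hls s (ch.U1_U s hx), ← hbd]
    have e : ∀ j, σ j * (μ' j - μ j) * (sr T L j.1 s *
        (σ j • PsT (b s) (H s) (toL T L j.1 (ψ j.1 j.2) s) x) p q) =
        μ' j * (sr T L j.1 s * PsT (b s) (H s) (toL T L j.1 (ψ j.1 j.2) s) x p q) -
          μ j * (sr T L j.1 s * PsT (b s) (H s) (toL T L j.1 (ψ j.1 j.2) s) x p q) := fun j => by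
      rcases hσ j with h1 | h1 <;> simp only [h1, Matrix.smul_apply, smul_eq_mul] <;> ring
    simp only [e]
    simp only [hF0, Pi.sub_apply, Matrix.sub_apply, Matrix.of_apply, mul_sub,
      Finset.sum_sub_distrib]
    ring
  have Fc : ∀ s p q, ContinuousOn (fun x => (F0 - E) s x p q) (U1 T L s) := fun s p q =>
    (((smT_redT (hb1.riem s) (aG.met.riem s) ![p, q]).continuousOn.sub
      (smT_redT (hb1.riem s) (hH.met.riem s) ![p, q]).continuousOn).sub
      (continuousOn_finsetSum _ fun j _ => continuousOn_const.mul (continuousOn_const.mul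
        ((prt j).cont s p q)))).congr fun x hx => eq_sub_of_add_eq (eqn s x hx p q).symm
  have s1 : ∀ s, ∀ x ∈ U1 T L s, 1 ≤ scl T s x := fun s x hx => (ch.cell s x (ch.U1_W1 s hx)).1
  have Fb : ∀ s, ∀ x ∈ U1 T L s, scl T s x ^ 2 * e0 ((F0 - E) s) x ≤
      32 * (K * δ) ^ 2 * en T (G - H) s x + 2 * (scl T s x ^ 2 * e0 (E s) x) := fun s x hx => by
    refine (e0_split (A := K * δ) (s1 s x hx) (e0_nn ((G - H) s) x) fun p q => ?_).trans
      (add_le_add (mul_le_mul_of_nonneg_left (le_add_of_nonneg_left (e1_nn _ _))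
        (by positivity)) le_rfl)
    have hj : ∀ j : Σ v, κ v, |scl T s x ^ 2 * (μ j * (sr T L j.1 s *
        (PsT (b s) (H s) (toL T L j.1 (ψ j.1 j.2) s) x p q -
          PsT (b s) (G s) (toL T L j.1 (ψ j.1 j.2) s) x p q)))| ≤
        Cv * Cm * P * δ * √(e0 ((G - H) s) x) := fun j => by
      by_cases hi : InK T L j.1 (c + 1) s x
      · have h1 := (((hvol L (l2 tv) j.1).1 s).2.2.2 x hx hi).1
        have h2 := lip H G aHe (aG.mono d3) j.1 j.2 s x hx _ (fun p q => by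
          rw [abs_sub_comm]; exact abs_le_e0 ((G - H) s) x p q) p q
        have h3 : |μ j| ≤ δ := (norm_le_pi_norm μ j).trans hls.mu
        have h4 := (sr_pos L j.1 s).le
        rw [show ∀ a m r d : ℝ, a * (m * (r * d)) = r * a * (m * d) from fun _ _ _ _ => by ring,
          abs_mul, abs_mul (μ j), abs_of_nonneg (by positivity)]
        refine (mul_le_mul h1 (mul_le_mul h3 h2 (abs_nonneg _) hδ.le) (by positivity)
          hCv.le).trans_eq (by ring)
      · simp only [PsT_zero (tz _ _ s x hx hi), sub_self, mul_zero, abs_zero]; positivity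
    simp only [hF0, Matrix.of_apply, Finset.mul_sum]
    refine (Finset.abs_sum_le_sum_abs _ _).trans ((Finset.sum_le_card_nsmul _ _ _
      fun j _ => hj j).trans_eq ?_)
    rw [nsmul_eq_mul, Finset.card_univ, hK]; ring
  have xc := (hxc L (l2 tx) (G - H) (aG.met.sec_sub hH.met) (dec_sub aG.met hH.met aG.dec hH.dec)).1
  obtain ⟨ei, el⟩ := ch.intL_le_K1 (ch.en_cont (aG.met.sm_sub hH.met))
    (fun s x _ => add_nonneg (e1_nn _ _) (div_nonneg (e0_nn _ _) (sq_nonneg _))) xc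
  rw [← En_eq] at el
  have i2 := (ei.smul (32 * (K * δ) ^ 2)).add (hEi.smul 2)
  have i3 : IntL T L fun s x => scl T s x ^ 2 * e0 ((F0 - E) s) x :=
    ch.IntL_of_le i2 (fun s => ((scl_cont s).pow 2).continuousOn.mul (e0_cont (Fc s)))
      fun s x hx => by
        rw [abs_of_nonneg (mul_nonneg (sq_nonneg _) (e0_nn _ _))]; exact Fb s x hx
  have i4 := ch.intL_mono i3 i2 Fb
  rw [intL_add (ei.smul _) (hEi.smul 2), intL_smul, intL_smul] at i4
  have cmp := hcmp T0 (tc.trans hT0) L (l1 tc) b G H (F0 - E) _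
    (fun j => toL T L j.1 (ψ j.1 j.2)) (fun j => σ j * (μ' j - μ j)) (gb_adm ch hb hδc.le)
    (aG.mono d1) (hH.mono (by linarith)) prt (fun j => prt_self hδc.le (tc' _ _) (tz2 _ _)) eqn i3
  have hD : 0 ≤ DD T g κ ψ T0 L (G - H) := by unfold DD; positivity
  have he : 0 ≤ e := (ch.intL_nonneg fun s x _ => mul_nonneg (sq_nonneg _) (e0_nn _ _)).trans hEe
  have hEn0 : 0 ≤ En T L (G - H) := (ch.intL_nonneg fun s x _ =>
    add_nonneg (e1_nn _ _) (div_nonneg (e0_nn _ _) (sq_nonneg _))).trans el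
  have hEn : En T L (G - H) ≤ 4 * Cc * (e + DD T g κ ψ T0 L (G - H)) := by
    have h1 : En T L (G - H) ≤ Cc * (32 * (K * δ) ^ 2 * En T L (G - H) + 2 * e +
        DD T g κ ψ T0 L (G - H)) := by
      refine (le_add_of_nonneg_right (by positivity)).trans (cmp.trans
        (mul_le_mul_of_nonneg_left (add_le_add (i4.trans (add_le_add
          (mul_le_mul_of_nonneg_left el (by positivity)) (by linarith))) le_rfl) hCc.le))
    have h2 := mul_le_mul_of_nonneg_right (absorb hK0 hCc hδ.le d5) hEn0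
    nlinarith [mul_nonneg hCc.le hD]
  obtain ⟨f1, f2⟩ := int_fv (k := H - G) ch hb1 hls tc' tz
    (fun s p q => (hH.met.sm_sub aG.met s p q).continuousOn) fun s x hx p q => by
      simp only [Pi.sub_apply, Matrix.sub_apply, hH.met.symm hx p q, aG.met.symm hx p q]
  obtain ⟨y1, y2⟩ := htay T0 (tt.trans hT0) L (l1 tt) b G H (gb_adm ch hb hδt.le) gb_ricF
    (aG.mono d2) (hH.mono (by linarith)) (ls_int ch hls) f1
  have y3 : |intL T L fun s => fv (b s) (G s) (H s - G s)| ≤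
      √(mu2 T κ L μ) * √(DD T g κ ψ T0 L (G - H)) := by
    refine (congrArg abs f2).trans_le ((abs_sum_mu_le L μ _).trans_eq ?_)
    simp only [DD, prL_swap H G, neg_div, neg_sq, hbd]
  have hs : 0 ≤ √(mu2 T κ L μ) * √(DD T g κ ψ T0 L (G - H)) := by positivity
  refine ⟨ei, el.trans (hEn.trans (mul_le_mul_of_nonneg_right
    (by nlinarith [mul_pos hCt hCc]) (by positivity))), y1, ?_⟩
  rw [ch.actL_eq, En_symm G H] at *
  have y4 := mul_le_mul_of_nonneg_left hEn hCt.le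
  have y5 := abs_sub_abs_le_abs_sub (intL T L (fun s => fgfF (b s) (H s)) -
    intL T L fun s => fgfF (b s) (G s)) (intL T L fun s => fv (b s) (G s) (H s - G s))
  nlinarith [mul_nonneg hCc.le hs, mul_nonneg (mul_pos hCt hCc).le hs, mul_nonneg hCc.le he,
    mul_nonneg hCc.le hD]

theorem grt (h : Std T g) (hM : MUL) (hE : ELL T g) (hCh : CHI T) (hV : VOL T) (hG : GB T g)
    (hT : TAY T g) (hX : XC T) (hC : Cmp T g κ ψ c) (hP : Tol T g κ ψ c) : Grt T g κ ψ := by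
  obtain ⟨δ, C, T1, hδ, hC0, hc⟩ := core h hM hE hCh hV hG hT hX hC hP
  obtain ⟨P, Tp, -, htol⟩ := hP
  obtain ⟨T2, hch⟩ := hCh.ch h.ok
  obtain ⟨Tg, hgb⟩ := hG
  replace hgb := (hgb 0).choose_spec
  obtain ⟨Tm, hTm⟩ := (Set.toFinite ({0, T1, Tp, T2, Tg} : Set ℝ)).bddAbove
  simp only [mem_upperBounds, mem_insert_iff, mem_singleton_iff, forall_eq_or_imp,
    forall_eq] at hTm
  obtain ⟨t0, t1, tp, t2, tg⟩ := hTm
  set N : ℝ := (Fintype.card (Σ v, κ v) : ℝ) with hN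
  have hN0 : 0 ≤ N := by positivity
  refine ⟨δ / 4, Tm, by positivity, fun T0 hT0 => ⟨C * (N + 1), by positivity,
    fun L hL θ θ' μ μ' G G' h1 h2 => ?_⟩⟩
  have l1 : ∀ {t}, t ≤ Tm → Lng T (2 * T0 + t) L := fun ht => hL.mono (by linarith)
  have ch := hch L (hL.mono (by linarith))
  have hb := ((hgb T0 (tg.trans hT0)).2 L (l1 tg)).2.1
  have hb1 := ch.met1 hb
  have tol := htol T0 (tp.trans hT0) L (l1 tp)
  have z : (fun s x => scl T s x ^ 2 * e0 ((0 : Fam T) s) x) = fun _ _ => 0 := by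
    funext s x; simp [e0]
  have k := (hc T0 (t1.trans hT0) L (l1 t1) θ μ μ' G G' 0 0 (ls_mono h1 (by linarith))
    ((ls_adm ch h2).mono (by linarith)) (fun s x hx p q => by
      rw [ls_red hM hb (fun v j => (tol v j).2.1) h2 s (ch.U1_U s hx)]; simp)
    (by rw [z]; intro s; simp) (by rw [z]; simp [intL])).2.2.2
  have hD : DD T g κ ψ T0 L (G - G') ≤ N * ‖θ' - θ‖ ^ 2 := by
    rw [hN, ← Finset.card_univ, ← nsmul_eq_mul]
    refine Finset.sum_le_card_nsmul _ _ _ fun j _ => ?_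
    have c1 := fun s p q => ((ch.met1 h1.met).sm_sub hb1 s p q).continuousOn
    have c2 := fun s p q => ((ch.met1 h2.met).sm_sub hb1 s p q).continuousOn
    have e := ch.prL_sub (d := c + 1) hb1 (fun s p q =>
      ((sm_of_rt ((tol j.1 j.2).1.sm s) p q).mono (ch.U1_U s)).continuousOn)
      (fun s x hx => (tol j.1 j.2).2.2.1 s x (ch.U1_U s hx)) c1 c2
    rw [sub_sub_sub_cancel_right, (tol j.1 j.2).2.2.2.2.2.1 _ c1, (tol j.1 j.2).2.2.2.2.2.1 _ c2,
      h1.con, h2.con] at e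
    have he := eps_pos L j.1
    have h3 : |θ' j - θ j| ≤ ‖θ' - θ‖ := norm_le_pi_norm (θ' - θ) j
    have h4 : (θ' j - θ j) ^ 2 ≤ ‖θ' - θ‖ ^ 2 := sq_le_sq' (abs_le.1 h3).1 (abs_le.1 h3).2
    calc _ = T.eps L j.1 ^ 2 * (θ' j - θ j) ^ 2 := by rw [e]; field_simp; ring
      _ ≤ _ := (mul_le_of_le_one_left (sq_nonneg _)
        (pow_le_one₀ he.le (ch.eps_le_one _))).trans h4
  have hD' : √(DD T g κ ψ T0 L (G - G')) ≤ (N + 1) * ‖θ' - θ‖ :=
    Real.sqrt_le_iff.2 ⟨by positivity, hD.trans (by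
      rw [mul_pow]; exact mul_le_mul_of_nonneg_right (by nlinarith) (sq_nonneg _))⟩
  rw [ch.actL_eq _ G']
  refine k.trans ?_
  rw [mul_assoc]
  refine mul_le_mul_of_nonneg_left ?_ hC0.le
  nlinarith [mul_le_mul_of_nonneg_left hD' (Real.sqrt_nonneg (mu2 T κ L μ)), sq_nonneg ‖θ' - θ‖]

end Crest.Agent.N207.NS

end
end

-- ▼ part N207/N/Gs3
section

/-!
# Row 207, block N (helper86): integrals over the annulus, the constraints after the dilation
-/

set_option autoImplicit false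

open scoped ContDiff Topology
open Metric Set Filter MeasureTheory
open Crest.GeometryTopology.CoordMetric Crest.Agent.R202.Tens
open Crest.Agent.N207.I Crest.Agent.N207.I.TD Crest.Agent.N207.Lg Crest.Agent.N207.CB

noncomputable section

namespace Crest.Agent.N207.NS.Gs

theorem opt_le {X a b d : ℝ} (ha : 0 ≤ a) (hb : 0 ≤ b)
    (h : ∀ l : ℝ, 0 < l → X ≤ l * a + b / l + d) : X ≤ 2 * (√a * √b) + d := by
  rcases le_or_gt X d with k | k
  · exact k.trans (le_add_of_nonneg_left (by positivity))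
  have := discrim_le_zero (a := a) (b := -(X - d)) (c := b) fun l => by
    rcases le_or_gt l 0 with m | m
    · have := mul_nonneg (sub_pos.2 k).le (neg_nonneg.2 m)
      have := mul_nonneg ha (mul_self_nonneg l)
      linarith
    · have := mul_le_mul_of_nonneg_right (sub_le_iff_le_add.2 (h l m)) m.le
      rw [add_mul, div_mul_cancel₀ _ m.ne'] at this
      linarith
  rw [discrim, neg_sq] at this
  have h2 : X - d ≤ 2 * (√a * √b) := by
    refine abs_le_of_sq_le_sq' ?_ (by positivity) |>.2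
    rw [mul_pow, mul_pow, Real.sq_sqrt ha, Real.sq_sqrt hb]; linarith
  linarith

theorem am_le {l : ℝ} (hl : 0 < l) (η : ℝ) {a : ℝ} (ha : 0 ≤ a) : η * √a ≤ l * a + η ^ 2 / l := by
  have h := Real.sq_sqrt ha
  rw [← sub_nonneg, show l * a + η ^ 2 / l - η * √a =
    ((l * √a - η / 2) ^ 2 + 3 / 4 * η ^ 2) / l by rw [sub_sq, mul_pow, h]; field_simp; ring]
  positivity

variable {M : Type*} {T : TD M} {g : T.V → Fam T} {T0 c t δ δ' : ℝ} {L L' : T.V → ℝ} {w v : T.V}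
  {u : T.S → E4 → E4}

theorem int_neck (k : Ch T L) {s : T.S} (hs : s ≠ Sum.inr T.root) {f : E4 → ℝ}
    (hf : ContinuousOn f (U1 T L s)) :
    IntegrableOn (fun x => T.χ s ((T.glob L).c s x) * f x) (U1 T L s) :=
  ((((k.χ_sm s).continuousOn.mul hf).mono (k.K1_U1 s)).integrableOn_compact
    (k.cpt s hs)).of_forall_sdiff_eq_zero (k.op1 s).measurableSet fun x hx => by
      by_contra h
      exact hx.2 (k.gK_K1 s (k.χ_supp (k.U1_U s hx.1) (left_ne_zero_of_mul h)))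

/-- densities living on a bounded part of one neck -/
theorem intL_ann (k : Ch T L) (hw : w ≠ T.root) {D f f' : T.S → E4 → ℝ} {α β γ R : ℝ}
    (hα : 0 ≤ α) (hβ : 0 ≤ β) (hγ : 0 ≤ γ)
    (hf : ContinuousOn (f (Sum.inr w)) (U1 T L (Sum.inr w)))
    (hf' : ContinuousOn (f' (Sum.inr w)) (U1 T L (Sum.inr w)))
    (f0 : ∀ s, ∀ x ∈ U1 T L s, 0 ≤ f s x) (f0' : ∀ s, ∀ x ∈ U1 T L s, 0 ≤ f' s x)
    (h : ∀ s, ∀ x ∈ U1 T L s, D s x = 0 ∨
      (s = Sum.inr w ∧ ‖x‖ ≤ R ∧ |D s x| ≤ α * f s x + β * f' s x + γ)) :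
    |intL T L D| ≤ α * intL T L f + β * intL T L f' +
      γ * (volume.real (closedBall (0 : E4) R) * T.eps L w ^ 2) := by
  have hm := fun s => (k.op1 s).measurableSet
  set s0 : T.S := Sum.inr w
  have hs : s0 ≠ Sum.inr T.root := fun e => hw (Sum.inr_injective e)
  have J : ∀ F : T.S → E4 → ℝ, (∀ s, ∀ x ∈ U1 T L s, 0 ≤ F s x) → ep T L s0 ^ 2 *
      ((Nat.card (T.grp s0) : ℝ)⁻¹ * ∫ x in U1 T L s0, T.χ s0 ((T.glob L).c s0 x) * F s0 x) ≤
      intL T L F := fun F hF => Finset.single_le_sum (f := fun s => ep T L s ^ 2 *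
        ((Nat.card (T.grp s) : ℝ)⁻¹ * ∫ x in U1 T L s, T.χ s ((T.glob L).c s x) * F s x))
      (fun s _ => by
        have := setIntegral_nonneg (μ := volume) (hm s) fun x hx =>
          mul_nonneg (k.χ_nonneg s ((T.glob L).c s x)) (hF s x hx)
        positivity) (Finset.mem_univ s0)
  have i3 : Integrable ((closedBall (0 : E4) R).indicator fun _ => γ) :=
    (integrable_indicator_iff measurableSet_closedBall).2
      (integrableOn_const (isCompact_closedBall _ _).measure_lt_top.ne)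
  have i1 := (int_neck k hs hf).const_mul α
  have i2 := (int_neck k hs hf').const_mul β
  have h1 : ‖∫ x in U1 T L s0, T.χ s0 ((T.glob L).c s0 x) * D s0 x‖ ≤ ∫ x in U1 T L s0,
      (α * (T.χ s0 ((T.glob L).c s0 x) * f s0 x) + β * (T.χ s0 ((T.glob L).c s0 x) * f' s0 x) +
        (closedBall (0 : E4) R).indicator (fun _ => γ) x) := by
    refine norm_integral_le_of_norm_le ((i1.add i2).add i3.integrableOn) ?_
    filter_upwards [ae_restrict_mem (hm s0)] with x hx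
    have a0 := k.χ_nonneg s0 ((T.glob L).c s0 x)
    have a1 := f0 s0 x hx
    have a2 := f0' s0 x hx
    rcases h s0 x hx with e | ⟨-, e1, e2⟩
    · have := indicator_nonneg (s := closedBall (0 : E4) R) (fun _ _ => hγ) x
      rw [e, mul_zero, norm_zero]; positivity
    · rw [indicator_of_mem (mem_closedBall_zero_iff.2 e1), Real.norm_eq_abs, abs_mul,
        abs_of_nonneg a0]
      have := mul_le_of_le_one_left hγ (k.χ_le_one hx)
      linarith [mul_le_mul_of_nonneg_left e2 a0]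
  rw [integral_add (by exact i1.add i2) i3.integrableOn, integral_add i1 i2, integral_const_mul,
    integral_const_mul] at h1
  have h2 := (setIntegral_le_integral (s := U1 T L s0) i3
    (Eventually.of_forall fun x => indicator_nonneg (fun _ _ => hγ) x)).trans_eq
    ((integral_indicator measurableSet_closedBall).trans (setIntegral_const γ))
  rw [smul_eq_mul] at h2
  have n0 : (0 : ℝ) ≤ (Nat.card (T.grp s0) : ℝ)⁻¹ := by positivity
  have n1 := mul_le_of_le_one_left (mul_nonneg (measureReal_nonneg (μ := volume)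
    (s := closedBall (0 : E4) R)) hγ) (Nat.cast_inv_le_one (α := ℝ) (Nat.card (T.grp s0)))
  rw [intL, Finset.sum_eq_single s0 (fun s _ hs => by
    rw [setIntegral_congr_fun (g := fun _ => 0) (hm s) fun x hx => by
      simp only [(h s x hx).resolve_right fun e => hs e.1, mul_zero]]
    simp) (by simp), abs_mul, abs_mul, abs_of_nonneg (sq_nonneg _), abs_of_nonneg n0]
  have h3 := mul_le_mul_of_nonneg_left (mul_le_mul_of_nonneg_left
    (h1.trans (add_le_add_right h2 _)) n0) (sq_nonneg (ep T L s0))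
  have h4 := mul_le_mul_of_nonneg_left (J f f0) hα
  have h5 := mul_le_mul_of_nonneg_left (J f' f0') hβ
  have h6 := mul_le_mul_of_nonneg_left n1 (sq_nonneg (ep T L s0))
  rw [Real.norm_eq_abs] at h3
  change _ ≤ _ + _ + γ * (_ * ep T L s0 ^ 2)
  linarith

theorem cls_pb {H H' : Fam T} (h1 : Met1 T L (pb T L L' u H)) (h2 : Met1 T L (pb T L L' u H'))
    (hρ : ∀ s, (ep T L' s / ep T L s) ^ 2 ≤ 3)
    (h : Cls T (U1 T L) 2 δ (fun s => pm (u s) (H s)) fun s => pm (u s) (H' s)) :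
    Cls T (U1 T L) 2 (3 * δ) (pb T L L' u H) (pb T L L' u H') := fun s x hx k hk a b => by
  have p := pow_pos (div_pos (ep_pos L' s) (ep_pos L s)) 2
  have r1 := riem_of_smul p (h1.riem s)
  have r2 := riem_of_smul p (h2.riem s)
  have e : (fun y => (pb T L L' u H s y - pb T L L' u H' s y) a b) = fun y =>
      (ep T L' s / ep T L s) ^ 2 • (pm (u s) (H s) y - pm (u s) (H' s) y) a b := by
    funext y; simp [pb, mul_sub]
  have h3 := h s x hx k hk a b
  rw [e, iteratedFDeriv_const_smul_apply' (by exact (((r1.contDiffOn a b).sub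
    (r2.contDiffOn a b)).contDiffAt (r1.isOpen.mem_nhds hx)).of_le (by exact_mod_cast le_top)),
    norm_smul, Real.norm_of_nonneg p.le, mul_left_comm]
  exact mul_le_mul (hρ s) h3 (mul_nonneg (pow_nonneg (scl_nn s x) k) (norm_nonneg _)) (by norm_num)

theorem prL_smul {b Φ : Fam T} (a : ℝ) (k : Fam T) :
    prL T L b v Φ (a • k) = a * prL T L b v Φ k := by
  rw [prL, prL, ← intL_smul]
  congr 1
  funext s x
  have : ip (b s) (matT (Φ s)) (matT ((a • k) s)) x = a * ip (b s) (matT (Φ s)) (matT (k s)) x :=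
    ipA_smul_right _ _ _
  rw [this]; ring

theorem pair_congr (hT : T.Ok) {X k k' : Fam T}
    (h : ∀ s, ∀ x ∈ (T.core v).U s, X s x ≠ 0 → k s x = k' s x) :
    pair T g v X k = pair T g v X k' :=
  Finset.sum_congr rfl fun s _ => setIntegral_congr_fun ((hT.core_ok v).isOpen s).measurableSet
    fun x hx => by
      by_cases e : X s x = 0
      · simp only [ip_zero e]
      · simp only [ip, show matT (k s) x = matT (k' s) x by funext I; simp [matT, h s x hx e]]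

variable {κ : T.V → Type} [∀ v, Fintype (κ v)] {ψ : ∀ v, κ v → Fam T} {P : ℝ}
  {θ μ μ' : (Σ v, κ v) → ℝ} {G G' : Fam T}

/-- the content of `Tol` at one `L` -/
structure Tl (g : T.V → Fam T) (ψ : ∀ v, κ v → Fam T) (c P T0 : ℝ) (L : T.V → ℝ) : Prop where
  cont : ∀ v j s p q, ContinuousOn (fun x => toL T L v (ψ v j) s x p q) (U1 T L s)
  symm : ∀ v j s, ∀ x ∈ (T.glob L).U s, (toL T L v (ψ v j) s x).IsSymm
  supp : ∀ v j s, ∀ x ∈ (T.glob L).U s, ¬ InK T L v (c + 1) s x → toL T L v (ψ v j) s x = 0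
  pr : ∀ v j, ∀ k : Fam T, (∀ s a b, ContinuousOn (fun y => k s y a b) (U1 T L s)) →
    prL T L (gbL T g T0 L) v (toL T L v (ψ v j)) k =
      T.eps L v ^ 2 * pair T g v (ψ v j) (loc T L v k)
  bd : ∀ v j, |pair T g v (ψ v j) (loc T L v (gbL T g T0 L))| ≤ P

omit [∀ v, Fintype (κ v)] in
theorem tol_tl (h : Tol T g κ ψ c) : ∃ P T1 : ℝ, 0 < P ∧ ∀ T0, T1 ≤ T0 → ∀ L,
    Lng T (2 * T0 + T1) L → Ch T L → Tl g ψ c P T0 L := by
  obtain ⟨P, T1, hP, h⟩ := h
  refine ⟨P, T1, hP, fun T0 h0 L hL k => ?_⟩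
  have h := h T0 h0 L hL
  exact ⟨fun v j s p q => (sm_of_rt ((h v j).1.sm s) p q).continuousOn.mono (k.U1_U s),
    fun v j => (h v j).2.1, fun v j => (h v j).2.2.1, fun v j => (h v j).2.2.2.2.2.1,
    fun v j => (h v j).2.2.2.2.2.2⟩

theorem Met1.ct {H : Fam T} (h : Met1 T L H) (s : T.S) (p q : Fin 4) :
    ContinuousOn (fun x => H s x p q) (U1 T L s) := ((h.riem s).contDiffOn p q).continuousOn

/-- the constraints of the pulled back solution -/
theorem con_eq (k : Ch T L) (k' : Ch T L') (d : Dl T T0 c L L' w t u) (hψ : Psi T κ ψ (c + 1))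
    (t1 : Tl g ψ c P T0 L) (t2 : Tl g ψ c P T0 L') (hb : Met1 T L (gbL T g T0 L))
    (hb' : Met1 T L' (gbL T g T0 L')) (h : LS T g T0 κ ψ δ L θ μ G)
    (h' : LS T g T0 κ ψ δ L' θ μ' G') (hH : Met1 T L (pb T L L' u G')) (j : Σ v, κ v) :
    prL T L (gbL T g T0 L) j.1 (toL T L j.1 (ψ j.1 j.2)) (G - pb T L L' u G') =
      T.eps L j.1 ^ 2 * ((1 - (T.eps L' j.1 / T.eps L j.1) ^ 2) *
        (θ j + pair T g j.1 (ψ j.1 j.2) (loc T L' j.1 (gbL T g T0 L')))) := by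
  obtain ⟨v, i⟩ := j
  set ρ := (T.eps L' v / T.eps L v) ^ 2
  have c1 := fun s p q => ((k.met1 (ls_met h)).sm_sub hb s p q).continuousOn
  have c2 := fun s p q => (hH.sm_sub hb s p q).continuousOn
  have c3 := fun s p q => ((k'.met1 (ls_met h')).sm_sub hb' s p q).continuousOn
  have c4 : ∀ s p q, ContinuousOn (fun x => (ρ • (G' - gbL T g T0 L')) s x p q) (U1 T L' s) :=
    fun s p q => continuousOn_const.mul (c3 s p q)
  have c5 : ∀ s p q, ContinuousOn (fun x => ((1 - ρ) • gbL T g T0 L') s x p q) (U1 T L' s) :=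
    fun s p q => continuousOn_const.mul (Met1.ct hb' s p q)
  have e1 := k'.prL_sub hb' (t2.cont v i) (fun s x hx => t2.supp v i s x (k'.U1_U s hx)) c4 c5
  rw [t2.pr v i (_ - _) fun s p q => by exact (c4 s p q).sub (c5 s p q), prL_smul, prL_smul, t2.pr v i _ c3,
    t2.pr v i _ (Met1.ct hb'), h'.con ⟨v, i⟩, show ρ • (G' - gbL T g T0 L') -
      (1 - ρ) • gbL T g T0 L' = ρ • G' - gbL T g T0 L' by module] at e1
  rw [← sub_sub_sub_cancel_right _ _ (gbL T g T0 L), k.prL_sub hb (t1.cont v i)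
    (fun s x hx => t1.supp v i s x (k.U1_U s hx)) c1 c2, t1.pr v i _ c1, t1.pr v i _ c2,
    h.con ⟨v, i⟩, pair_congr d.ok fun s x hx e => d.loc_eq g hx (fun v' hs => by
      subst hs
      exact lt_of_not_ge fun a => e (hψ.supp v i v' x hx a)) G']
  have e2 := mul_left_cancel₀ (pow_pos (eps_pos L' v) 2).ne' (e1.trans (show _ = _ *
    (ρ * θ ⟨v, i⟩ - (1 - ρ) * pair T g v (ψ v i) (loc T L' v (gbL T g T0 L'))) by ring))
  rw [e2]; ring

theorem dd_le (k : Ch T L) (k' : Ch T L') (d : Dl T T0 c L L' w t u) (hψ : Psi T κ ψ (c + 1))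
    (t1 : Tl g ψ c P T0 L) (t2 : Tl g ψ c P T0 L') (hb : Met1 T L (gbL T g T0 L))
    (hb' : Met1 T L' (gbL T g T0 L')) (h : LS T g T0 κ ψ δ L θ μ G)
    (h' : LS T g T0 κ ψ δ L' θ μ' G') (hH : Met1 T L (pb T L L' u G')) (hθ : ‖θ‖ ≤ 1) :
    DD T g κ ψ T0 L (G - pb T L L' u G') ≤
      Fintype.card (Σ v, κ v) * (4 * (1 + P)) ^ 2 * (T.eps L w * |t|) ^ 2 := by
  rw [DD, mul_assoc, ← mul_pow, ← Finset.card_univ, ← nsmul_eq_mul, ← Finset.sum_const]
  refine Finset.sum_le_sum fun j _ => ?_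
  have p := eps_pos L j.1
  have a1 : |θ j + pair T g j.1 (ψ j.1 j.2) (loc T L' j.1 (gbL T g T0 L'))| ≤ 1 + P :=
    (abs_add_le _ _).trans (add_le_add ((norm_le_pi_norm θ j).trans hθ) (t2.bd j.1 j.2))
  rw [← sq_abs]
  refine pow_le_pow_left₀ (abs_nonneg _) ?_ 2
  rw [con_eq k k' d hψ t1 t2 hb hb' h h' hH, pow_two (T.eps L j.1), mul_assoc,
    mul_div_cancel_left₀ _ p.ne', abs_mul, abs_mul, abs_of_pos p, abs_sub_comm, ← mul_assoc,
    mul_comm (T.eps L j.1)]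
  exact (mul_le_mul (d.rho j.1).2 a1 (abs_nonneg _) (by have := eps_pos L w; positivity)).trans_eq
    (by ring)

/-- the equation of the pulled back solution -/
theorem red_pb (hM : MUL) (k : Ch T L) (d : Dl T T0 c L L' w t u)
    (t1 : Tl g ψ c P T0 L) (t2 : Tl g ψ c P T0 L')
    (hb' : (T.glob L').IsMet (rt T L' (gbL T g T0 L'))) (h' : LS T g T0 κ ψ δ L' θ μ' G')
    {s : T.S} (p1 : Pull (pm (u s) (gbL T g T0 L' s)) (gbL T g T0 L' s) (u s) (U1 T L s)
      ((T.glob L').U s)) (p2 : Pull (pm (u s) (G' s)) (G' s) (u s) (U1 T L s) ((T.glob L').U s))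
    {x : E4} (hx : x ∈ U1 T L s) (p q : Fin 4) :
    redT (pb T L L' u (gbL T g T0 L') s) (pb T L L' u G' s) x ![p, q] = -∑ j, μ' j * (sr T L j.1 s *
      PsT (gbL T g T0 L s) (pb T L L' u G' s) (toL T L j.1 (ψ j.1 j.2) s) x p q) := by
  have ρ0 := pow_pos (div_pos (ep_pos L' s) (ep_pos L s)) 2
  have hu := p1.maps x hx
  refine (congrFun (congrFun (redT_cs ρ0 ρ0 _ _) x) _).trans ?_
  rw [redT_pm p2 p1 hx, pm_sum (m := fun j : Σ v, κ v => -(μ' j * sr T L' j.1 s))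
    (Y := fun j => PsT (gbL T g T0 L' s) (G' s) (toL T L' j.1 (ψ j.1 j.2) s)) fun p q => by
      rw [redM, Matrix.of_apply, ls_red hM hb' t2.symm h' s hu]
      simp only [neg_mul, Finset.sum_neg_distrib, mul_assoc], ← Finset.sum_neg_distrib]
  refine Finset.sum_congr rfl fun j _ => ?_
  rw [neg_mul, mul_assoc, d.psi g hx G' _ (t1.supp _ _ s x (k.U1_U s hx)) (t2.supp _ _ s _ hu)]

end Crest.Agent.N207.NS.Gs

end
end

-- ▼ part N207/N/Grl

/-!
# Row 207, block N (helper86): `Grl`, variation of the reduced action in the neck lengths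
-/

set_option autoImplicit false

open scoped ContDiff Topology
open Metric Set Filter MeasureTheory
open Crest.GeometryTopology.CoordMetric Crest.Agent.R202.Tens
open Crest.Agent.N207.I Crest.Agent.N207.I.TD Crest.Agent.N207.Lg Crest.Agent.N207.CB

noncomputable section

namespace Crest.Agent.N207.NS

namespace Gs

variable {M : Type*} {T : TD M} {g : T.V → Fam T} {T0 c t δ : ℝ} {L L' : T.V → ℝ} {w : T.V}
  {u : T.S → E4 → E4}

/-- the gauge term -/
abbrev ga (b G : MetricField 4) (x : E4) : ℝ := gau (sq G x) (iv G x) (TG b G x)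

theorem ga_eq (b G : MetricField 4) (x : E4) : ga b G x = sq G x * (1 / 2 * nsq G (gauT b G) x) := by
  rw [nsq_gauT, ga, gau]; ring

theorem ga_cont {b G : MetricField 4} {U : Set E4} (hb : IsRiemannianOn b U)
    (hG : IsRiemannianOn G U) : ContinuousOn (ga b G) U := by
  rw [funext (ga_eq b G)]
  exact (sm_sqrt_det hG).continuousOn.mul (continuousOn_const.mul
    ((smT_gauT hb hG).nsq hG).continuousOn)

theorem ga_nn {b G : MetricField 4} {x : E4} (hG : (G x).PosDef) : 0 ≤ ga b G x := by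
  rw [ga_eq]
  exact mul_nonneg (Real.sqrt_nonneg _) (mul_nonneg (by norm_num) (Ar.ipA_nonneg hG (gauT b G x)))

theorem Cls.raw {U : T.S → Set E4} {H H' : Fam T} (h : Cls T U 2 δ H H') {s : T.S} {x : E4}
    (hx : x ∈ U s) (h1 : 1 ≤ scl T s x) {k : ℕ} (hk : k ≤ 2) (a b : Fin 4) :
    ‖iteratedFDeriv ℝ k (fun y => (H s y - H' s y) a b) x‖ ≤ δ :=
  (le_mul_of_one_le_left (norm_nonneg _) (one_le_pow₀ h1)).trans (h s x hx k hk a b)

/-- the conclusion of `ann_pt` -/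
def AP (Λ C : ℝ) : Prop := ∀ (b b' G H : MetricField 4) (x : E4)
    (η : ℝ), (b =ᶠ[𝓝 x] fun _ => 1) → C2 b' x → C2 G x → C2 H x → η ≤ Λ →
    (∀ p q, |H x p q| ≤ Λ ∧ |(H x)⁻¹ p q| ≤ Λ ∧ |(G x)⁻¹ p q| ≤ Λ ∧ |(b' x)⁻¹ p q| ≤ Λ) →
    Λ⁻¹ ≤ sq G x → |sq H x| ≤ Λ →
    (∀ ξ : Fin 4 → ℝ, Λ⁻¹ * ∑ i, ξ i ^ 2 ≤ ∑ i, ∑ j, (G x)⁻¹ i j * ξ i * ξ j) →
    (∀ k ≤ 2, ∀ p q, ‖iteratedFDeriv ℝ k (fun y => (G y - b y) p q) x‖ ≤ Λ ∧
      ‖iteratedFDeriv ℝ k (fun y => (H y - b y) p q) x‖ ≤ Λ ∧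
      ‖iteratedFDeriv ℝ k (fun y => (b' y - b y) p q) x‖ ≤ η) →
    (∀ p q, |redT b H x ![p, q] - redT b' H x ![p, q]| ≤ C * η) ∧
    |ga b' H x - ga b H x| ≤ C * (η * (√(ga b G x) + √(e1 (G - H) x + e0 (G - H) x)) + η ^ 2)

/-- the change of the background, at one point -/
theorem ann_bd {Λ C m η : ℝ} {G H : Fam T} (ha : AP Λ C) (k : Ch T L) (d : Dl T T0 c L L' w t u)
    (hE : ∀ (H : Fam T) (s : T.S), ∀ x ∈ W1 T L s, (H s x).PosDef →
      (∀ p q, |H s x p q - gbL T g T0 L s x p q| ≤ m) →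
      (∀ p q, |H s x p q| ≤ Λ ∧ |(H s x)⁻¹ p q| ≤ Λ) ∧ Λ⁻¹ ≤ sq (H s) x ∧ sq (H s) x ≤ Λ ∧
      (∀ ξ : Fin 4 → ℝ, Λ⁻¹ * ∑ i, ξ i ^ 2 ≤ ∑ i, ∑ j, (H s x)⁻¹ i j * ξ i * ξ j))
    (hG : Adm T g T0 L m G) (hH : Adm T g T0 L m H) (hb : Met1 T L (pb T L L' u (gbL T g T0 L')))
    (nb : Cls T (U1 T L) 2 η (pb T L L' u (gbL T g T0 L')) (gbL T g T0 L)) (h1 : η ≤ m)
    (h2 : m ≤ Λ) (s : T.S) {x : E4} (hx : x ∈ U1 T L s) :
    ((∀ p q, redT (gbL T g T0 L s) (H s) x ![p, q] -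
        redT (pb T L L' u (gbL T g T0 L') s) (H s) x ![p, q] = 0) ∧
      ga (pb T L L' u (gbL T g T0 L') s) (H s) x - ga (gbL T g T0 L s) (H s) x = 0) ∨
    (An T T0 w s x ∧ (∀ p q, |redT (gbL T g T0 L s) (H s) x ![p, q] -
        redT (pb T L L' u (gbL T g T0 L') s) (H s) x ![p, q]| ≤ C * η) ∧
      |ga (pb T L L' u (gbL T g T0 L') s) (H s) x - ga (gbL T g T0 L s) (H s) x| ≤
        C * (η * (√(ga (gbL T g T0 L s) (G s) x) + √(e1 (G s - H s) x + e0 (G s - H s) x)) +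
          η ^ 2)) := by
  by_cases hA : An T T0 w s x
  · have hW := k.U1_W1 s hx
    have s1 := (k.cell s x hW).1
    have e1 := hE G s x hW ((hG.met.riem s).posDef x hx) (hG.near.val hx)
    have e2 := hE H s x hW ((hH.met.riem s).posDef x hx) (hH.near.val hx)
    have e3 := hE _ s x hW ((hb.riem s).posDef x hx) ((nb.mono h1).val hx)
    exact Or.inr ⟨hA, ha _ _ _ _ x η (d.one g hA) (C2.of_riem (hb.riem s) hx)
      (C2.of_riem (hG.met.riem s) hx) (C2.of_riem (hH.met.riem s) hx) (h1.trans h2)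
      (fun p q => ⟨(e2.1 p q).1, (e2.1 p q).2, (e1.1 p q).2, (e3.1 p q).2⟩) e1.2.1
      ((abs_of_nonneg (Real.sqrt_nonneg _)).trans_le e2.2.2.1) e1.2.2.2 fun j hj p q =>
        ⟨(Cls.raw hG.near hx s1 hj p q).trans h2, (Cls.raw hH.near hx s1 hj p q).trans h2,
          Cls.raw nb hx s1 hj p q⟩⟩
  · obtain ⟨a, a0, e⟩ := d.bg_off g (nz_of hx) hA
    have e1 := redT_cs a0 one_pos (gbL T g T0 L s) (H s)
    have e2 := TG_cs a0 1 (gbL T g T0 L s) (H s) x
    rw [one_cs] at e1 e2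
    refine Or.inl ⟨fun p q => ?_, ?_⟩
    · rw [(redT_congr e EventuallyEq.rfl).eq_of_nhds, e1, sub_self]
    · rw [ga, (TG_congr e EventuallyEq.rfl).eq_of_nhds, e2, one_smul, sub_self]

theorem fin_le {X B m z t a1 a2 a3 : ℝ} (h : X ≤ a1 * (√B * z) + a2 * (√m * z) + a3 * z ^ 2)
    (h1 : 0 ≤ a1) (h2 : 0 ≤ a2) (h3 : 0 ≤ a3) (hz : 0 ≤ z) (ht : z ≤ |t|) :
    X ≤ (a1 + a2 + a3 + 1) * ((√m + √B) * z + t ^ 2) := by
  have b1 : 0 ≤ √B * z := by positivity
  have b2 : 0 ≤ √m * z := by positivity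
  have b3 : z ^ 2 ≤ t ^ 2 := by rw [← sq_abs t]; exact pow_le_pow_left₀ hz ht 2
  have b4 := mul_le_mul_of_nonneg_left b3 h3
  have b5 : 0 ≤ (a2 + a3 + 1) * (√B * z) + (a1 + a3 + 1) * (√m * z) + (a1 + a2 + 1) * t ^ 2 := by
    positivity
  linarith

theorem nid_mono {δ' : ℝ} (h : NId T L L' δ u) (hδ : δ ≤ δ') : NId T L L' δ' u :=
  ⟨h.sm, h.maps, h.compat, fun s x hx k hk => (h.near s x hx k hk).trans
    (mul_le_mul_of_nonneg_right hδ (scl_nn s x)), h.dec⟩

end Gs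

open _root_.Crest.Agent.N207.NS.Gs

variable {M : Type*} {T : TD M} {g : T.V → Fam T} {κ : T.V → Type} [∀ v, Fintype (κ v)]
  {ψ : ∀ v, κ v → Fam T} {c : ℝ}

set_option maxHeartbeats 1000000 in
theorem grl (h : Std T g) (hM : MUL) (hE : ELL T g) (hCh : CHI T) (hG : GB T g) (hA : ACT T)
    (hP : PULL T g) (hI : INT T) (hD : DIL T g) (hψ : Psi T κ ψ (c + 1)) (hC : Core T g κ ψ)
    (ht : Tol T g κ ψ c) : Grl T g κ ψ := by
  obtain ⟨δc, Cc, Tc, hδc, hCc, hC⟩ := hC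
  obtain ⟨P, Tt, hP0, ht⟩ := tol_tl ht
  obtain ⟨δe, Λ, Te, hδe, hΛ, hE⟩ := hE
  obtain ⟨Th, hCh⟩ := hCh.ch h.ok
  obtain ⟨Tg, hG⟩ := hG
  replace hG := (hG 0).choose_spec
  obtain ⟨δp, Cp, Tp, hδp, hCp, hP⟩ := hP
  obtain ⟨δi, Ti, hδi, hI⟩ := hI
  obtain ⟨Td, hD⟩ := hD
  obtain ⟨Ca, hCa, ha⟩ := ann_pt hΛ
  obtain ⟨Tm, hTm⟩ := (Set.toFinite ({5, c + 3, Tc, Tt, Te, Th, Tg, Tp, Ti, Td} : Set ℝ)).bddAbove
  simp only [mem_upperBounds, mem_insert_iff, mem_singleton_iff, forall_eq_or_imp,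
    forall_eq] at hTm
  obtain ⟨t5, t3, tc, tt, te, th, tg, tp, ti, td⟩ := hTm
  obtain ⟨m, m0, m1, m2, m3⟩ : ∃ m : ℝ, 0 < m ∧ m ≤ δc ∧ m ≤ δe ∧ m ≤ 1 :=
    ⟨min δc (min δe 1), by positivity, min_le_left _ _, (min_le_right _ _).trans (min_le_left _ _),
      (min_le_right _ _).trans (min_le_right _ _)⟩
  obtain ⟨δ, d0, d1, d2⟩ : ∃ δ : ℝ, 0 < δ ∧ 4 * δ ≤ m ∧ 3 * (Cp * (4 * δ)) ≤ m / 2 := by
    have e : m / (24 * Cp + 4) * (24 * Cp + 4) = m := div_mul_cancel₀ _ (by positivity)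
    have : 0 < m / (24 * Cp + 4) := by positivity
    exact ⟨_, this, by nlinarith only [e, this, hCp], by nlinarith only [e, this, hCp]⟩
  refine ⟨δ, Tm + 1, d0, fun T0 h0 => ?_⟩
  obtain ⟨Cd, hCd, hD⟩ := hD T0 (by linarith)
  obtain ⟨τ, τ0, τ1, τ2⟩ : ∃ τ : ℝ, 0 < τ ∧ τ ≤ 1 / 2 ∧ Cd * τ ≤ min (m / 2) (min δp δi) :=
    ⟨min (1 / 2) (min (m / 2) (min δp δi) / Cd), by positivity, min_le_left _ _, by
      rw [← le_div_iff₀' hCd]; exact min_le_right _ _⟩
  simp only [le_min_iff] at τ2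
  set R := Real.exp (T0 + 2) with hR
  set V := volume.real (closedBall (0 : E4) R) with hV
  have V0 : 0 ≤ V := measureReal_nonneg
  have R1 : 1 ≤ R := Real.one_le_exp (by linarith)
  set c1 := R ^ 2 * (16 * (Ca * Cd) ^ 2) * V with hc1
  set c2 := (Fintype.card (Σ v, κ v) + 1 : ℝ) * (4 * (1 + P)) with hc2
  refine ⟨2 * (Ca * Cd * (V + 1)) + Cc * c2 + (Ca * R ^ 2 * (Cc * (c1 + c2 ^ 2)) +
    2 * Ca * Cd ^ 2 * V + Cc * (c1 + c2 ^ 2)) + 1, τ, by positivity, τ0,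
    fun L hL w hw t hτ θ μ μ' G G' hθ s1 s2 => ?_⟩
  set L' := Function.update L w (L w + t) with hL'
  have τ3 := abs_le.1 (hτ.trans τ1)
  have l0 : Lng T (2 * T0 + Tm) L' := fun v hv => by
    have := hL v hv
    by_cases e : v = w
    · subst e; rw [hL', Function.update_self]; linarith
    · rw [hL', Function.update_of_ne e]; linarith
  have l1 : ∀ {a}, a ≤ Tm → Lng T (2 * T0 + a) L := fun e => hL.mono (by linarith)
  have l2 : ∀ {a}, a ≤ Tm → Lng T (2 * T0 + a) L' := fun e => l0.mono (by linarith)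
  have k := hCh L (hL.mono (by linarith))
  have k' := hCh L' (l0.mono (by linarith))
  obtain ⟨u, u1, u2, u3, u4, nb⟩ := hD L (l1 td) w hw t (hτ.trans (by linarith))
  have η1 : Cd * |t| ≤ Cd * τ := mul_le_mul_of_nonneg_left hτ hCd.le
  have d : Dl T T0 c L L' w t u := ⟨h.ok, hw, hτ.trans τ1, by linarith, by linarith, l1 t5,
    Function.update_self .., fun v e => Function.update_of_ne e .., u2, u3, u4, fun x hx => by
      have := u1.near _ x hx 0 (by norm_num)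
      rw [pow_zero, one_mul, norm_iteratedFDeriv_zero] at this
      refine this.trans ?_
      change _ * ‖x‖ ≤ _
      nlinarith only [norm_nonneg x, τ2.1, η1, m3]⟩
  have hb := ((hG T0 (by linarith)).2 L (l1 tg)).2.1
  have hb' := ((hG T0 (by linarith)).2 L' (l2 tg)).2.1
  have t1 := ht T0 (by linarith) L (l1 tt) k
  have t2 := ht T0 (by linarith) L' (l2 tt) k'
  obtain ⟨-, p2, p3, -, p5, -⟩ := hP T0 (by linarith) L L' (l1 tp) (l2 tp) _ u
    (η1.trans τ2.2.1) u1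
  have b1 := k.met1 hb
  have pB := p2 _ hb'
  have pG := p2 _ (ls_met s2)
  set b := gbL T g T0 L with hbd
  set b' := pb T L L' u (gbL T g T0 L') with hbd'
  set H := pb T L L' u G' with hH
  have aG : Adm T g T0 L m G := (ls_adm k s1).mono d1
  have aH : Adm T g T0 L m H := ⟨pG.1, ((cls_pb pG.1 pB.1 (fun s => (d.rho _).1) (p3 _ _ _
    (fun s p q => (((riem_of_rt (ls_met s2) s).contDiffOn p q).sub
      ((riem_of_rt hb' s).contDiffOn p q)).mono (k'.W1_U s)) (ls_cls k' s2))).add nb k.op1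
    (pG.1.sm_sub pB.1) (pB.1.sm_sub b1)).mono (by linarith [τ2.1]),
    p5 _ (ls_met s2) (ls_dec s2)⟩
  have pt := ann_bd (G := G) (H := H) ha k d (fun K s x hx e1 e2 => by
    have := hE T0 (by linarith) L (l1 te) K s x hx e1 fun p q => (e2 p q).trans m2
    exact ⟨this.1, this.2.1, this.2.2.1, this.2.2.2.1⟩) aG aH pB.1 nb (by linarith [τ2.1])
    (m3.trans hΛ)
  rw [← hbd, ← hbd'] at pt
  have e0' := eps_pos L w
  set z := T.eps L w * |t| with hz
  have z0 : 0 ≤ z := by positivity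
  have z2 : z ^ 2 = T.eps L w ^ 2 * |t| ^ 2 := mul_pow _ _ _
  -- the error in the equation
  set E : Fam T := fun s x => Matrix.of fun p q =>
    redT (b s) (H s) x ![p, q] - redT (b' s) (H s) x ![p, q] with hEd
  have E0 : ∀ s, ∀ x ∈ U1 T L s, scl T s x ^ 2 * e0 (E s) x = 0 ∨ (An T T0 w s x ∧
      |scl T s x ^ 2 * e0 (E s) x| ≤ R ^ 2 * (16 * (Ca * (Cd * |t|)) ^ 2)) := fun s x hx =>
    (pt s hx).imp (fun e => by simp [e0, hEd, e.1]) fun e => ⟨e.1, by
      obtain ⟨⟨rfl, -, a1⟩, a2, -⟩ := e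
      rw [abs_of_nonneg (mul_nonneg (sq_nonneg _) (e0_nn _ _))]
      refine mul_le_mul (pow_le_pow_left₀ (norm_nonneg x) a1 2) ?_ (e0_nn _ _) (sq_nonneg _)
      refine (Finset.sum_le_sum fun p _ => Finset.sum_le_sum fun q _ =>
        sq_le_sq' (abs_le.1 (a2 p q)).1 (abs_le.1 (a2 p q)).2).trans_eq ?_
      simp only [Finset.sum_const, Finset.card_univ, Fintype.card_fin, nsmul_eq_mul]
      ring⟩
  have E1 : IntL T L fun s x => scl T s x ^ 2 * e0 (E s) x := k.intL_of_supp (v := w) (d := T0 + 2)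
    (fun s => ((scl_cont s).pow 2).continuousOn.mul (e0_cont fun p q =>
      (smT_redT (b1.riem s) (pG.1.riem s) ![p, q]).continuousOn.sub
        (smT_redT (pB.1.riem s) (pG.1.riem s) ![p, q]).continuousOn))
    fun s x hx hi => (E0 s x hx).resolve_right fun e => by
      obtain ⟨⟨rfl, a1, a2⟩, -⟩ := e
      exact hi (Or.inl ⟨rfl, log_le (ne0 a1) a2⟩)
  have E2 : intL T L (fun s x => scl T s x ^ 2 * e0 (E s) x) ≤ c1 * z ^ 2 := by
    have := intL_ann k hw (f := fun _ _ => 0) (f' := fun _ _ => 0) (R := R) le_rfl le_rfl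
      (γ := R ^ 2 * (16 * (Ca * (Cd * |t|)) ^ 2)) (by positivity) continuousOn_const
      continuousOn_const (fun _ _ _ => le_rfl) (fun _ _ _ => le_rfl) fun s x hx =>
        (E0 s x hx).imp id fun e => ⟨e.1.1, e.1.2.2, by simpa using e.2⟩
    refine (le_abs_self _).trans (this.trans_eq ?_)
    rw [z2, hc1]; ring
  have D2 : DD T g κ ψ T0 L (G - H) ≤ (c2 * z) ^ 2 := by
    refine (dd_le k k' d hψ t1 t2 b1 (k'.met1 hb') s1 s2 pG.1 hθ).trans ?_
    rw [mul_pow c2, hc2, mul_pow _ (4 * _)]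
    gcongr
    nlinarith only [Nat.cast_nonneg (α := ℝ) (Fintype.card (Σ v, κ v))]
  have D3 : √(DD T g κ ψ T0 L (G - H)) ≤ c2 * z := Real.sqrt_le_iff.2 ⟨by positivity, D2⟩
  obtain ⟨-, i2, i3, i4⟩ := hC T0 (by linarith) L (l1 tc) θ μ μ' G H E _
    (ls_mono s1 (by linarith)) (aH.mono m1) (fun s x hx p q => by
      rw [sub_eq_add_neg, ← red_pb hM k d t1 t2 hb' s2 (pB.2 s) (pG.2 s) hx p q]
      exact (sub_add_cancel _ _).symm) E1 E2
  obtain ⟨j1, j2⟩ := act_pb (h.ok.glob_ok k'.long) k.op1 hb' (ls_met s2) pB.2 pG.2 s2.int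
    (hI L L' (hL.mono (by linarith)) (l0.mono (by linarith)) u (nid_mono u1 (η1.trans τ2.2.2)))
  obtain ⟨a1, a2⟩ := (hA L k.long).2 b' b H pB.1 b1 pG.1 ⟨0, fun x _ => (d.bg_root g x).symm⟩
  have a3 := intL_sub (j1.sub i3) a1
  rw [intL_sub j1 i3, a2, j2, sub_zero] at a3
  have hs : ∀ s, ∀ x ∈ U1 T L s, 1 ≤ scl T s x := fun s x hx => (k.cell s x (k.U1_W1 s hx)).1
  have key : |actL T L' (gbL T g T0 L') G' - intL T L fun s => fgfF (b s) (H s)| ≤
      2 * (√(BB T L b G) * √((Ca * (Cd * |t|)) ^ 2 * (V * T.eps L w ^ 2))) +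
        (Ca * R ^ 2 * intL T L (en T (G - H)) + 2 * Ca * Cd ^ 2 * V * z ^ 2) := by
    refine opt_le (k.intL_nonneg fun s x hx => ga_nn ((aG.met.riem s).posDef x hx))
      (by positivity) fun l hl => ?_
    rw [← a3]
    refine (intL_ann k hw (f := fun s => ga (b s) (G s)) (f' := en T (G - H)) (R := R) hl.le
      (β := Ca * R ^ 2) (by positivity)
      (γ := (Ca * (Cd * |t|)) ^ 2 / l + 2 * Ca * (Cd * |t|) ^ 2) (by positivity)
      (ga_cont (b1.riem _) (aG.met.riem _)) (k.en_cont (aG.met.sm_sub pG.1) _)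
      (fun s x hx => ga_nn ((aG.met.riem s).posDef x hx))
      (fun s x _ => add_nonneg (e1_nn _ _) (div_nonneg (e0_nn _ _) (sq_nonneg _)))
      fun s x hx => ?_).trans_eq ?_
    · have e : fgfF (b' s) (H s) x - fgfF (b s) (H s) x - (lagF (b' s) (H s) x -
          lagF (b s) (H s) x) = -(ga (b' s) (H s) x - ga (b s) (H s) x) := by
        simp only [fgfF, fgf, lagF, ga]; ring
      refine (pt s hx).imp (fun r => by rw [e, r.2, neg_zero]) fun r => ⟨r.1.1, r.1.2.2, ?_⟩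
      obtain ⟨⟨rfl, -, r1⟩, -, r2⟩ := r
      rw [e, abs_neg]
      refine r2.trans ?_
      have n1 := e1_nn (G (Sum.inr w) - H (Sum.inr w)) x
      have n0 := e0_nn (G (Sum.inr w) - H (Sum.inr w)) x
      have q1 := am_le hl (Ca * (Cd * |t|)) (ga_nn (b := b (Sum.inr w))
        ((aG.met.riem _).posDef x hx))
      have q2 := mul_le_mul_of_nonneg_left (am_le one_pos (Cd * |t|) (add_nonneg n1 n0)) hCa
      have q3 : e1 (G (Sum.inr w) - H (Sum.inr w)) x + e0 (G (Sum.inr w) - H (Sum.inr w)) x ≤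
          R ^ 2 * en T (G - H) (Sum.inr w) x := by
        have x1 : 1 ≤ ‖x‖ := hs _ x hx
        change _ ≤ R ^ 2 * (e1 (G (Sum.inr w) - H (Sum.inr w)) x +
          e0 (G (Sum.inr w) - H (Sum.inr w)) x / ‖x‖ ^ 2)
        rw [mul_add, ← mul_div_assoc]
        refine add_le_add (le_mul_of_one_le_left n1 (one_le_pow₀ R1)) ?_
        rw [le_div_iff₀ (by positivity), mul_comm]
        exact mul_le_mul_of_nonneg_right (pow_le_pow_left₀ (norm_nonneg x) r1 2) n0
      have q4 := mul_le_mul_of_nonneg_left q3 hCa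
      linarith only [q1, q2, q4]
    · rw [z2, BB]; ring
  have q1 : √((Ca * (Cd * |t|)) ^ 2 * (V * T.eps L w ^ 2)) ≤ Ca * Cd * (V + 1) * z := by
    refine Real.sqrt_le_iff.2 ⟨by positivity, ?_⟩
    have : V ≤ (V + 1) ^ 2 := by nlinarith only [V0]
    calc _ = (Ca * Cd) ^ 2 * V * z ^ 2 := by rw [z2]; ring
      _ ≤ (Ca * Cd) ^ 2 * (V + 1) ^ 2 * z ^ 2 := by gcongr
      _ = _ := by ring
  have q2 := mul_le_mul_of_nonneg_left q1 (Real.sqrt_nonneg (BB T L b G))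
  have q3 := mul_le_mul_of_nonneg_left D3 (Real.sqrt_nonneg (mu2 T κ L μ))
  have q4 := mul_le_mul_of_nonneg_left (i2.trans (mul_le_mul_of_nonneg_left
    (add_le_add_right D2 _) hCc.le)) (show 0 ≤ Ca * R ^ 2 by positivity)
  have q5 := i4.trans (mul_le_mul_of_nonneg_left (add_le_add (add_le_add_left q3 _) D2) hCc.le)
  refine fin_le ((abs_sub_le _ _ _).trans ((add_le_add key q5).trans ?_)) (by positivity)
    (by positivity) (by positivity) z0 (mul_le_of_le_one_left (abs_nonneg t) (k.eps_le_one w))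
  linarith only [q2, q4]

end Crest.Agent.N207.NS

end
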