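import Crest.Agent.N207.N.Muh2_Mg
import Crest.Agent.N207.K.Est_Mg
import Crest.Agent.N207.N.St
import Crest.Agent.N207.K.SrcB
import Crest.Agent.N207.K.CoZ

-- ▼ part N207/N/Cmp
section

/-!
# Row 207, block N (helper4): leaf `CMP`
-/

set_option autoImplicit false

open Crest.Agent.N207.I Crest.Agent.N207.CB

namespace Crest.Agent.N207.NS

theorem cmp {M : Type*} {T : TD M} {g : T.V → Fam T} (h : Std T g) : CMP T g :=
  Cp.cmp_muh h fun _ _ _ _ _ _ _ _ _ _ hg ht =>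
    muh h (chi h) (vol h) dif (ell h) (gb' h) co hg ht

end Crest.Agent.N207.NS
end

-- ▼ part N207/K/Kl4
section

/-!
# Row 207, block K (helper1): `KLin` from `SRC`, `EIG`, `DUAL`, `COER`
-/

set_option autoImplicit false

open Crest.Agent.N207.I Crest.Agent.N207.CB

namespace Crest.Agent.N207.K

variable {M : Type*} {T : TD M} {g : T.V → Fam T} {σ γ : ℝ} {κ : T.V → Type}
  [∀ v, Fintype (κ v)] {ψ : ∀ v, κ v → Fam T}

theorem klin' (h : T.Ok) (hL : T.Lim g γ) (hγ : 0 < γ) (h0 : 0 < σ) (h1 : σ < 1)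
    (hS : SRC T g σ) (hE : EIG T g κ ψ) (hD : DUAL T g κ ψ) (hc : COER T g κ ψ σ) :
    KLin T g κ ψ σ :=
  klin_of h hL hγ h0 hS (cel h hL h0 h1) (fin h h0 h1 (est h hL hγ)) hE hD hc

end Crest.Agent.N207.K
end

-- ▼ part N207/N/Kl0
section

/-!
# Row 207, block N (helper1): `KL` from `SRC` and the coercivity of good families
-/

set_option autoImplicit false

open Crest.Agent.N207.I Crest.Agent.N207.CB

namespace Crest.Agent.N207.NS

variable {M : Type*} {T : TD M} {g : T.V → Fam T}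

theorem kl_sc (h : Std T g) (hS : ∀ σ : ℝ, 0 < σ → σ < 1 → K.SRC T g σ)
    (hc : ∀ σ : ℝ, 0 < σ → σ < 1 → ∃ c0 : ℝ, ∀ c, c0 ≤ c → ∃ η0 : ℝ, 0 < η0 ∧
      ∀ (κ : T.V → Type) [∀ v, Fintype (κ v)] [∀ v, DecidableEq (κ v)] (ψ : ∀ v, κ v → Fam T)
        (η C : ℝ), η ≤ η0 → Good T g κ ψ c η C → K.COER T g κ ψ σ) : KL T g := fun σ h0 h1 => by
  obtain ⟨c0, hc⟩ := hc σ h0 h1
  refine ⟨c0, fun c hc0 => (hc c hc0).imp fun η0 hη => ⟨hη.1, fun κ _ _ ψ η C e G => ?_⟩⟩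
  refine K.klin' h.ok h.lim one_half_pos h0 h1 (hS σ h0 h1) G.eig (fun v => ?_)
    (hη.2 κ ψ η C e G)
  exact (G.dual v).imp fun A hA i j => by convert hA i j

end Crest.Agent.N207.NS
end

-- ▼ part N207/N/Kl1
section

/-!
# Row 207, block N (helper1): `KL` from the coercivity of good families
-/

set_option autoImplicit false

open Crest.Agent.N207.I Crest.Agent.N207.CB

namespace Crest.Agent.N207.NS

variable {M : Type*} {T : TD M} {g : T.V → Fam T}

theorem kl_c (h : Std T g)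
    (hc : ∀ σ : ℝ, 0 < σ → σ < 1 → ∃ c0 : ℝ, ∀ c, c0 ≤ c → ∃ η0 : ℝ, 0 < η0 ∧
      ∀ (κ : T.V → Type) [∀ v, Fintype (κ v)] [∀ v, DecidableEq (κ v)] (ψ : ∀ v, κ v → Fam T)
        (η C : ℝ), η ≤ η0 → Good T g κ ψ c η C → K.COER T g κ ψ σ) : KL T g :=
  kl_sc h (fun _ => K.Sb.src h.ok h.lim one_half_pos) hc

end Crest.Agent.N207.NS
end

-- ▼ part N207/N/Kl

/-!
# Row 207 (helper10): the leaf `KL`
-/

set_option autoImplicit false

open Crest.Agent.N207.I Crest.Agent.N207.CB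

namespace Crest.Agent.N207.NS

/-- **KL** -/
theorem kl {M : Type*} {T : TD M} {g : T.V → Fam T} (h : Std T g) : KL T g :=
  kl_c h fun _ h0 h1 => K.Zc.coer h h0 h1

end Crest.Agent.N207.NS
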