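import Crest.Agent.N207.Lg.Nat
import Crest.Agent.N207.N.St3
import Crest.Agent.N207.M.Rad
import Crest.Agent.N207.I.Cal4
import Crest.Agent.N207.U.PB
import Crest.Agent.N207.N.Gr0

-- ▼ part N207/N/Tay1
section

/-!
# Row 207, block N (helper32): Taylor expansion of the gauge-fixed Lagrangian on jets
-/

set_option autoImplicit false

open scoped ContDiff Topology
open Metric Set Filter
open Crest.Agent.N207.Lg

noncomputable section

namespace Crest.Agent.N207.NS.Ty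

/-- second order Taylor estimate, uniform on a compact set -/
theorem tay_cpt {E : Type*} [NormedAddCommGroup E] [NormedSpace ℝ E] {f : E → ℝ} {K : Set E}
    (hK : IsCompact K) (hf : ∀ z ∈ K, ContDiffAt ℝ 2 f z) : ∃ C : ℝ, 0 ≤ C ∧ ∀ x v : E,
      (∀ t ∈ Icc (0 : ℝ) 1, x + t • v ∈ K) → |f (x + v) - f x - fderiv ℝ f x v| ≤ C * ‖v‖ ^ 2 := by
  obtain ⟨C, hC⟩ := LocallyLipschitzOn.exists_lipschitzOnWith_of_compact (f := fderiv ℝ f) hK
    fun z hz => by
      obtain ⟨c, t, ht, h⟩ := ((hf z hz).fderiv_right (m := 1) (by norm_num)).exists_lipschitzOnWith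
      exact ⟨c, t, mem_nhdsWithin_of_mem_nhds ht, h⟩
  refine ⟨C, C.2, fun x v hx => ?_⟩
  have x0 : x ∈ K := by simpa using hx 0 ⟨le_rfl, zero_le_one⟩
  have d : ∀ t ∈ Icc (0 : ℝ) 1, HasDerivWithinAt (fun t : ℝ => f (x + t • v) - t * fderiv ℝ f x v)
      (fderiv ℝ f (x + t • v) v - fderiv ℝ f x v) (Icc 0 1) t := fun t ht => by
    have a : HasDerivAt (fun t : ℝ => x + t • v) v t := by
      simpa using ((hasDerivAt_id t).smul_const v).const_add x
    have b := ((hf _ (hx t ht)).differentiableAt two_ne_zero).hasFDerivAt.comp_hasDerivAt t a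
    exact ((b.sub ((hasDerivAt_id t).mul_const (fderiv ℝ f x v))).congr_deriv
      (by rw [one_mul])).hasDerivWithinAt
  have := norm_image_sub_le_of_norm_deriv_le_segment_01' d (C := C * ‖v‖ ^ 2) fun t ht => by
    have a := hC.dist_le_mul _ (hx t ⟨ht.1, ht.2.le⟩) _ x0
    rw [dist_eq_norm, dist_eq_norm, add_sub_cancel_left, norm_smul, Real.norm_of_nonneg ht.1] at a
    rw [← ContinuousLinearMap.sub_apply]
    refine (ContinuousLinearMap.le_opNorm _ _).trans ?_
    have c0 : (0 : ℝ) ≤ C := C.2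
    have : ‖fderiv ℝ f (x + t • v) - fderiv ℝ f x‖ ≤ C * ‖v‖ :=
      a.trans (mul_le_mul_of_nonneg_left (mul_le_of_le_one_left (norm_nonneg _) ht.2.le) c0)
    calc _ ≤ C * ‖v‖ * ‖v‖ := mul_le_mul_of_nonneg_right this (norm_nonneg _)
      _ = _ := by ring
  simp only [one_smul, one_mul, zero_smul, add_zero, zero_mul, sub_zero, Real.norm_eq_abs] at this
  convert this using 2
  ring

/-- arrays -/
abbrev A2 : Type := M2 (Fin 4) ℝ
/-- arrays -/
abbrev A3 : Type := M3 (Fin 4) ℝ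
/-- arrays -/
abbrev A4 : Type := M4 (Fin 4) ℝ
/-- jets: `g, ∂g, b⁻¹, ∂b, ∂∂b` -/
abbrev JJ : Type := A2 × A3 × A2 × A3 × A4

/-- `√det` -/
def sqM (g : A2) : ℝ := √(Matrix.of g).det
/-- inverse -/
def ivM (g : A2) : A2 := fun a b => (Matrix.of g)⁻¹ a b

/-- the Lagrangian as a function of the jets -/
def Ph (z : JJ) : ℝ :=
  fgfR (sqM z.1) z.1 (ivM z.1) z.2.1 (chr z.2.2.1 z.2.2.2.1) (dG2 z.2.2.1 z.2.2.2.1 z.2.2.2.2)

theorem cl_cda {E : Type*} [NormedAddCommGroup E] [NormedSpace ℝ E] (z : E) :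
    Cl fun f : E → ℝ => ContDiffAt ℝ 2 f z :=
  ⟨fun _ => contDiffAt_const, ContDiffAt.add, ContDiffAt.mul⟩

theorem Ph_sm {z : JJ} (hz : 0 < (Matrix.of z.1).det) : ContDiffAt ℝ 2 Ph z := by
  have h := cl_cda z
  have g : ∀ i j, ContDiffAt ℝ 2 (fun w : JJ => Matrix.of w.1 i j) z := fun i j => by
    simp only [Matrix.of_apply]; fun_prop
  have H : P2 (fun f : JJ → ℝ => ContDiffAt ℝ 2 f z) fun w => w.2.2.1 := fun a b => by
    beta_reduce; fun_prop
  have p : P3 (fun f : JJ → ℝ => ContDiffAt ℝ 2 f z) fun w => w.2.2.2.1 := fun a b c => by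
    beta_reduce; fun_prop
  exact h.fgfR ((cA_det g).sqrt hz.ne') g (fun a b => cA_inv g hz.ne' a b)
    (fun a b c => by beta_reduce; fun_prop) (h.chr H p)
    (h.dG2 H p fun a b c d => by beta_reduce; fun_prop)

theorem Ph_hom (r : ℝ) (g : A2) (p : A3) (H : A2) (π : A3) (q : A4) :
    Ph (g, r • p, H, r • π, r ^ 2 • q) = r ^ 2 * Ph (g, p, H, π, q) := by
  simp only [Ph, chr_smul, dG2_hom, fgfR_hom]

theorem Ph_der {g k : A2} (hk : Sy2 k) (hz : 0 < (Matrix.of g).det) (p τ : A3) (H : A2) (π : A3)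
    (q : A4) : HasDerivAt (fun t : ℝ => Ph (g + t • k, p + t • τ, H, π, q))
      (dfgf (sqM g) (ivM g) (bar g p (chr H π)) (ricC (chr H π) (dG2 H π q)) k
        (bar k τ (chr H π))) 0 := by
  have a : HD2 univ 0 (fun t : ℝ => Matrix.of (g + t • k)) k := fun i j => by
    simpa using ((hasDerivAt_id (0 : ℝ)).mul_const (k i j)).const_add (g i j)
  have z : 0 < ((fun t : ℝ => Matrix.of (g + t • k)) 0).det := by simpa using hz
  have s := hd_sqrt_det a hk z
  have i := hd_inv a z.ne'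
  have t : HD3 univ 0 (fun t : ℝ => bar (g + t • k) (p + t • τ) (chr H π)) (bar k τ (chr H π)) :=
    fun i j l => by
      simp only [bar_add, bar_smul, Pi.add_apply, Pi.smul_apply, smul_eq_mul]
      simpa using ((hasDerivAt_id (0 : ℝ)).mul_const (bar k τ (chr H π) i j l)).const_add
        (bar g p (chr H π) i j l)
  have := hd_fgf (s := fun t : ℝ => sqM (g + t • k)) (H := fun t : ℝ => ivM (g + t • k))
    (ricC (chr H π) (dG2 H π q)) s i t
  simpa [Ph, fgfR] using hasDerivWithinAt_univ.1 this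

/-- **Taylor on jets** -/
theorem tay_pt (Λ : ℝ) (hΛ : 0 < Λ) : ∃ C : ℝ, 0 ≤ C ∧ ∀ (g k H : A2) (p τ π : A3) (q : A4) (r : ℝ),
    0 < r → Sy2 k → (∀ t ∈ Icc (0 : ℝ) 1, ‖g + t • k‖ ≤ Λ ∧ Λ⁻¹ ≤ sqM (g + t • k)) →
    ‖r • p‖ ≤ Λ → ‖r • (p + τ)‖ ≤ Λ → ‖H‖ ≤ Λ → ‖r • π‖ ≤ Λ → ‖r ^ 2 • q‖ ≤ Λ →
    |Ph (g + k, p + τ, H, π, q) - Ph (g, p, H, π, q) -
      dfgf (sqM g) (ivM g) (bar g p (chr H π)) (ricC (chr H π) (dG2 H π q)) k (bar k τ (chr H π))| ≤
      C * (‖τ‖ ^ 2 + ‖k‖ ^ 2 / r ^ 2) := by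
  have cs : Continuous fun z : JJ => sqM z.1 :=
    (Continuous.matrix_det (A := fun z : JJ => Matrix.of z.1) continuous_fst).sqrt
  have pos : ∀ g : A2, Λ⁻¹ ≤ sqM g → 0 < (Matrix.of g).det := fun g h =>
    Real.sqrt_pos.1 ((inv_pos.2 hΛ).trans_le h)
  obtain ⟨C, C0, hC⟩ := tay_cpt (f := Ph) (K := closedBall (0 : JJ) Λ ∩ {z | Λ⁻¹ ≤ sqM z.1})
    ((isCompact_closedBall _ _).inter_right (isClosed_le continuous_const cs))
    fun z hz => Ph_sm (pos _ hz.2)
  refine ⟨C, C0, fun g k H p τ π q r hr hk hg h1 h2 h3 h4 h5 => ?_⟩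
  have g0 : 0 < (Matrix.of g).det := pos g (by simpa using (hg 0 ⟨le_rfl, zero_le_one⟩).2)
  have e : ∀ t : ℝ, ((g, r • p, H, r • π, r ^ 2 • q) : JJ) + t • ((k, r • τ, 0, 0, 0) : JJ) =
      (g + t • k, r • (p + t • τ), H, r • π, r ^ 2 • q) := fun t => by
    simp only [Prod.smul_mk, Prod.mk_add_mk, smul_zero, add_zero, smul_add, smul_comm t r]
  have a := hC (g, r • p, H, r • π, r ^ 2 • q) (k, r • τ, 0, 0, 0) fun t ht => by
    rw [e]
    refine ⟨mem_closedBall_zero_iff.2 ?_, (hg t ht).2⟩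
    have : r • (p + t • τ) = (1 - t) • r • p + t • r • (p + τ) := by module
    have b : ‖r • (p + t • τ)‖ ≤ Λ := by
      rw [this]
      refine (norm_add_le _ _).trans ?_
      rw [norm_smul, norm_smul t, Real.norm_of_nonneg ht.1, Real.norm_of_nonneg (sub_nonneg.2 ht.2)]
      nlinarith [mul_le_mul_of_nonneg_left h1 (sub_nonneg.2 ht.2), mul_le_mul_of_nonneg_left h2 ht.1]
    simp only [Prod.norm_mk, max_le_iff]
    exact ⟨(hg t ht).1, b, h3, h4, h5⟩
  have l : HasDerivAt (fun t : ℝ => ((g, r • p, H, r • π, r ^ 2 • q) : JJ) +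
      t • ((k, r • τ, 0, 0, 0) : JJ)) (k, r • τ, 0, 0, 0) 0 := by
    simpa only [one_smul, id] using ((hasDerivAt_id (0 : ℝ)).smul_const
      ((k, r • τ, 0, 0, 0) : JJ)).const_add ((g, r • p, H, r • π, r ^ 2 • q) : JJ)
  have d1 := ((Ph_sm (z := (g, r • p, H, r • π, r ^ 2 • q)) g0).differentiableAt
    two_ne_zero).hasFDerivAt.comp_hasDerivAt_of_eq 0 l (by simp)
  have d2 := (Ph_der hk g0 p τ H π q).const_mul (r ^ 2)
  have d3 := d1.unique (d2.congr_of_eventuallyEq (Eventually.of_forall fun t => by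
    simp only [Function.comp, e, Ph_hom]))
  have e1 := e 1
  simp only [one_smul] at e1
  rw [e1, d3, Ph_hom, Ph_hom, ← mul_sub, ← mul_sub, abs_mul, abs_of_pos (pow_pos hr 2)] at a
  have n : ‖((k, r • τ, 0, 0, 0) : JJ)‖ ^ 2 ≤ r ^ 2 * (‖τ‖ ^ 2 + ‖k‖ ^ 2 / r ^ 2) := by
    simp only [Prod.norm_mk, norm_zero, max_self, norm_smul, Real.norm_of_nonneg hr.le]
    rw [max_eq_left (by positivity : (0 : ℝ) ≤ r * ‖τ‖), mul_add, mul_div_cancel₀ _ (by positivity)]
    rcases le_total ‖k‖ (r * ‖τ‖) with h | h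
    · rw [max_eq_right h]; nlinarith [sq_nonneg ‖k‖]
    · rw [max_eq_left h]; nlinarith [sq_nonneg (r * ‖τ‖)]
  refine le_of_mul_le_mul_left (a.trans ?_) (pow_pos hr 2)
  nlinarith [mul_le_mul_of_nonneg_left n C0]

end Crest.Agent.N207.NS.Ty

end
end

-- ▼ part N207/N/Tay2
section

/-!
# Row 207, block N (helper32): the divergence theorem on `gl1 L` with decay at the root end
-/

set_option autoImplicit false

open scoped ContDiff Topology
open Metric Set Filter MeasureTheory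
open Crest.GeometryTopology.CoordMetric
open Crest.Agent.N207.I Crest.Agent.N207.I.TD Crest.Agent.N207.Lg Crest.Agent.N207.CB

noncomputable section

namespace Crest.Agent.N207.NS.Ty

theorem abs_pd_le (f : E4 → ℝ) (x : E4) (a : Fin 4) : |pderiv a f x| ≤ ‖fderiv ℝ f x‖ := by
  have := (fderiv ℝ f x).le_opNorm (EuclideanSpace.single a (1 : ℝ))
  simpa [pderiv] using this

theorem bmp_bd : ∃ C : ℝ, 0 ≤ C ∧ ∀ y : E4, ‖y‖ * ‖fderiv ℝ bmp y‖ ≤ C := by
  have c : Continuous fun y : E4 => ‖y‖ * ‖fderiv ℝ bmp y‖ :=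
    continuous_norm.mul (bmp_sm.continuous_fderiv (by simp)).norm
  obtain ⟨C, hC⟩ := (isCompact_closedBall (0 : E4) 2).exists_bound_of_continuousOn c.continuousOn
  refine ⟨max C 0, le_max_right _ _, fun y => ?_⟩
  by_cases hy : ‖y‖ ≤ 2
  · exact ((le_abs_self _).trans (hC y (mem_closedBall_zero_iff.2 hy))).trans (le_max_left _ _)
  · have : bmp =ᶠ[𝓝 y] fun _ => 0 := by
      filter_upwards [(isOpen_lt continuous_const continuous_norm).mem_nhds (not_le.1 hy)] with z hz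
      by_contra h0
      have := bmp_ne h0
      have : (2 : ℝ) < ‖z‖ := hz
      linarith
    rw [this.fderiv_eq]
    simp

/-- `|x|^{-p}`, `p > 4`, is integrable at infinity -/
theorem int_far {p : ℝ} (hp : 4 < p) : IntegrableOn (fun x : E4 => ‖x‖ ^ (-p)) {x | 1 ≤ ‖x‖} := by
  have m : MeasurableSet {x : E4 | 1 ≤ ‖x‖} :=
    (isClosed_le continuous_const continuous_norm).measurableSet
  have i : Integrable fun x : E4 => (1 + ‖x‖) ^ (-p) := integrable_one_add_norm (by simpa using hp)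
  refine (i.const_mul (2 ^ p)).integrableOn.mono'
    (measurable_norm.pow_const _).aestronglyMeasurable ?_
  refine (ae_restrict_iff' m).2 (Eventually.of_forall fun x hx => ?_)
  have hx : (1 : ℝ) ≤ ‖x‖ := hx
  rw [Real.norm_of_nonneg (by positivity)]
  have : (2 * ‖x‖) ^ (-p) ≤ (1 + ‖x‖) ^ (-p) :=
    Real.rpow_le_rpow_of_nonpos (by positivity) (by linarith) (by linarith)
  rw [Real.mul_rpow (by norm_num) (norm_nonneg _), Real.rpow_neg (by norm_num : (0 : ℝ) ≤ 2),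
    inv_mul_le_iff₀ (by positivity)] at this
  exact this

variable {M : Type*} {T : TD M} {L : T.V → ℝ}

/-- the cut-off at the root end -/
def cutR (T : TD M) (R : ℝ) : T.S → E4 → ℝ := fun s x =>
  if s = Sum.inr T.root then bmp (R⁻¹ • x) else 1

theorem cutR_sm (R : ℝ) (s : T.S) : ContDiff ℝ ∞ (cutR T R s) := by
  unfold cutR
  split_ifs
  · exact bmp_sm.comp (contDiff_const_smul _)
  · exact contDiff_const

theorem nrm_inv {R : ℝ} (hR : 0 < R) (x : E4) : ‖R⁻¹ • x‖ = ‖x‖ / R := by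
  rw [norm_smul, Real.norm_of_nonneg (inv_pos.2 hR).le, inv_mul_eq_div]

theorem cutR_comp {R : ℝ} (hR : 4 ≤ R) : (gl1 T L).CompF (cutR T R) := by
  have R0 : 0 < R := by linarith
  have k : ∀ s, ∀ x : E4, cutR T R s x = Sum.elim (fun _ : T.V × M => (1 : ℝ))
      (fun p : T.V × Set E4 => if p.1 = T.root then Real.smoothTransition
        ((9 / 4 - (sSup (norm '' p.2) / R) ^ 2) / (5 / 4)) else 1) ((T.glob L).c s x) := by
    rintro (a | w) x
    · simp [cutR, glob]
    · rw [glob_c_inr]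
      split_ifs with a1 a2
      · simp only [cutR, Sum.elim_inl]
        split_ifs
        · exact bmp_one (by rw [nrm_inv R0, div_le_one R0]; linarith)
        · rfl
      · simp [cutR, a2.1]
      · have : norm '' T.orb w x = {‖x‖} := by
          refine Subset.antisymm ?_ (singleton_subset_iff.2 ⟨x, mem_orb w x, rfl⟩)
          rintro _ ⟨_, ⟨γ, -, rfl⟩, rfl⟩
          exact LinearIsometryEquiv.norm_map γ x
        simp only [Sum.elim_inr, this, csSup_singleton, cutR, Sum.inr.injEq, bmp, nrm_inv R0]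
  intro a b x _ y _ e
  rw [k, k]
  exact congrArg _ e

theorem cutR_one {R : ℝ} (hR : 0 < R) {s : T.S} {x : E4} (h : s = Sum.inr T.root → ‖x‖ < R) :
    cutR T R s =ᶠ[𝓝 x] fun _ => 1 := by
  unfold cutR
  split_ifs with e
  · filter_upwards [(isOpen_lt continuous_norm continuous_const).mem_nhds (h e)] with z hz
    exact bmp_one (by rw [nrm_inv hR, div_le_one hR]; exact le_of_lt hz)
  · rfl

theorem cutR_abs (R : ℝ) (s : T.S) (x : E4) : |cutR T R s x| ≤ 1 := by
  unfold cutR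
  split_ifs
  · rw [abs_of_nonneg (bmp_nonneg _)]; exact Real.smoothTransition.le_one _
  · simp

theorem cutR_pd : ∃ C : ℝ, 0 ≤ C ∧ ∀ R : ℝ, 0 < R → ∀ (x : E4) (a : Fin 4),
    ‖x‖ * |pderiv a (cutR T R (Sum.inr T.root)) x| ≤ C := by
  obtain ⟨C, C0, hC⟩ := bmp_bd
  refine ⟨C, C0, fun R hR x a => ?_⟩
  have e : cutR T R (Sum.inr T.root) = fun x => bmp (R⁻¹ • x) := by funext x; simp [cutR]
  refine (mul_le_mul_of_nonneg_left (abs_pd_le _ x a) (norm_nonneg _)).trans ?_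
  rw [e, fderiv_comp_smul, norm_smul, Real.norm_of_nonneg (inv_pos.2 hR).le, ← mul_assoc,
    ← div_eq_mul_inv, ← nrm_inv hR]
  exact hC _

/-- families that vanish far out on the root end have compact support -/
theorem cs1 (hA : (gl1 T L).Ok) (hp : (gl1 T L).PoU T.χ (T.gK L)) {k : ℕ} {Z : T.S → Tn 4 k}
    (hZ : (gl1 T L).Compat Z) {R : ℝ} (h0 : ∀ x : E4, R ≤ ‖x‖ → Z (Sum.inr T.root) x = 0) :
    ∃ S, (gl1 T L).CS S ∧ (gl1 T L).Van Z S := by
  set ρ : T.S → ℝ := Sum.elim (fun _ => 3 / 2) fun w => max R (3 / 4 * T.r * Real.exp (L w))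
  refine ⟨_, ⟨fun s => T.gK L s ∩ closedBall 0 (ρ s), fun s => ⟨(isCompact_closedBall _ _).inter_left
    (N207.M.isClosed_gK s), inter_subset_left.trans (hp.sub s)⟩, Subset.rfl⟩, fun b y hy hne => ?_⟩
  obtain ⟨s, -, hs⟩ := Finset.exists_ne_zero_of_sum_ne_zero ((hp.sum b y hy).trans_ne one_ne_zero)
  obtain ⟨x, hx, e⟩ := hp.supp s b y hy hs
  refine mem_iUnion.2 ⟨s, x, ⟨hx, mem_closedBall_zero_iff.2 ?_⟩, e⟩
  rcases s with a | w
  · exact mem_gK_inl.1 hx
  · by_cases hw : w = T.root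
    · subst hw
      refine le_max_of_le_left (not_lt.1 fun hlt => hne ?_)
      exact hZ.eq_zero hA hy (hp.sub _ hx) e.symm (h0 x hlt.le)
    · exact le_max_of_le_right ((mem_gK_inr.1 hx).2 hw)

theorem chi_le {X : Type*} {α : Type} [Fintype α] {A : Atl X α} {χ : α → X → ℝ} {K : α → Set E4}
    (hp : A.PoU χ K) (s : α) {b : α} {y : E4} (hy : y ∈ A.U b) : χ s (A.c b y) ≤ 1 :=
  (Finset.single_le_sum (fun a _ => hp.nonneg a (A.c b y)) (Finset.mem_univ s)).trans_eq
    (hp.sum b y hy)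

theorem card_inv_le (n : ℕ) : (n : ℝ)⁻¹ ≤ 1 := by
  rcases n with _ | n
  · simp
  · exact inv_le_one_of_one_le₀ (by simp)

/-- **divergence theorem** on `gl1 L`: the flux density is `O(|x|^{-p})`, `p > 3`, at the root end -/
theorem div_root (hA : (gl1 T L).Ok) (hp : (gl1 T L).PoU T.χ (T.gK L)) {G : T.S → MetricField 4}
    (hG : (gl1 T L).IsMet G) {W : T.S → Tn 4 1} (hW : (gl1 T L).Sec W)
    (hi : (gl1 T L).Intg T.χ G fun s x => divT (G s) (W s) x ![]) {C R p : ℝ} (h3 : 3 < p)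
    (hd : ∀ x : E4, R ≤ ‖x‖ → ∀ a, |√(G (Sum.inr T.root) x).det *
      ∑ b, (G (Sum.inr T.root) x)⁻¹ a b * W (Sum.inr T.root) x ![b]| ≤ C * ‖x‖ ^ (-p)) :
    (gl1 T L).int T.χ G (fun s x => divT (G s) (W s) x ![]) = 0 := by
  obtain ⟨C1, C10, h1⟩ := cutR_pd (T := T)
  set A := gl1 T L
  set Rn : ℕ → ℝ := fun n => n + max R 4 with hRn
  have R4 : ∀ n, 4 ≤ Rn n := fun n => (le_max_right R 4).trans (le_add_of_nonneg_left n.cast_nonneg)
  have RR : ∀ n, R ≤ Rn n := fun n => (le_max_left R 4).trans (le_add_of_nonneg_left n.cast_nonneg)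
  have R0 : ∀ n, 0 < Rn n := fun n => by linarith [R4 n]
  have key : ∀ n, A.Intg T.χ G (fun s x => divT (G s) (smT (cutR T (Rn n) s) (W s)) x ![]) ∧
      A.int T.χ G (fun s x => divT (G s) (smT (cutR T (Rn n) s) (W s)) x ![]) = 0 := fun n => by
    have sec := hW.smT (cutR_comp (R4 n)) fun s => (cutR_sm (Rn n) s).contDiffOn
    obtain ⟨S, hS, hv⟩ := cs1 hA hp sec.compat (R := 2 * Rn n) fun x hx => by
      have : cutR T (Rn n) (Sum.inr T.root) x = 0 := by
        simp only [cutR, if_true]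
        by_contra h0
        have := bmp_ne h0
        rw [nrm_inv (R0 n), div_le_iff₀ (R0 n)] at this
        linarith [R0 n]
      funext I
      simp [smT, this]
    exact Atl.int_div hA hG hp sec hS hv
  have ex : ∀ n s, ∀ x ∈ A.U s, A.den T.χ G s x *
      divT (G s) (smT (cutR T (Rn n) s) (W s)) x ![] =
      (Nat.card (A.Γ s) : ℝ)⁻¹ * T.χ s (A.c s x) * ∑ a, pderiv a (cutR T (Rn n) s) x *
        (√(G s x).det * ∑ b, (G s x)⁻¹ a b * W s x ![b]) +
      cutR T (Rn n) s x * (A.den T.χ G s x * divT (G s) (W s) x ![]) := fun n s x hx => by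
    rw [divT_smT ((cutR_sm _ s).differentiable (by simp) x) (hW.dfT hA hx)]
    simp only [Atl.den, mul_add, Finset.mul_sum]
    congr 1
    · refine Finset.sum_congr rfl fun a _ => Finset.sum_congr rfl fun b _ => ?_
      rw [show (Fin.cons b ![] : Fin 1 → Fin 4) = ![b] from rfl]
      ring
    · ring
  have pd0 : ∀ n s (x : E4), (s = Sum.inr T.root → ‖x‖ < Rn n) → ∀ a,
      pderiv a (cutR T (Rn n) s) x = 0 := fun n s x h a => by
    rw [pderiv, (cutR_one (R0 n) h).fderiv_eq]; simp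
  have lim : Tendsto (fun n => A.int T.χ G
      fun s x => divT (G s) (smT (cutR T (Rn n) s) (W s)) x ![]) atTop
      (𝓝 (A.int T.χ G fun s x => divT (G s) (W s) x ![])) := by
    refine tendsto_finset_sum _ fun s _ => ?_
    have m := (hA.isOpen s).measurableSet
    refine tendsto_integral_of_dominated_convergence (fun x =>
      (if s = Sum.inr T.root then 4 * (C1 * |C|) * ‖x‖ ^ (-(p + 1)) else 0) +
        ‖A.den T.χ G s x * divT (G s) (W s) x ![]‖) (fun n => ((key n).1 s).1)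
      (Integrable.add ?_ (hi s).norm) (fun n => ?_) ?_
    · split_ifs with e
      · subst e
        exact ((int_far (p := p + 1) (by linarith)).mono_set fun x hx =>
          le_trans (by norm_num) (le_of_lt hx.1)).const_mul _
      · exact integrable_zero _ _ _
    · refine (ae_restrict_iff' m).2 (Eventually.of_forall fun x hx => ?_)
      rw [ex n s x hx]
      refine (norm_add_le _ _).trans (add_le_add ?_ ?_)
      · by_cases e : s = Sum.inr T.root ∧ Rn n ≤ ‖x‖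
        · obtain ⟨rfl, e⟩ := e
          have x0 : 0 < ‖x‖ := (R0 n).trans_le e
          have c1 := chi_le hp (Sum.inr T.root) hx
          have c0 := hp.nonneg (Sum.inr T.root) (A.c (Sum.inr T.root) x)
          rw [if_pos rfl, norm_mul, Real.norm_of_nonneg (by positivity)]
          refine (mul_le_of_le_one_left (norm_nonneg _)
            (mul_le_one₀ (card_inv_le _) c0 c1)).trans ((norm_sum_le _ _).trans ?_)
          refine (Finset.sum_le_card_nsmul _ _ (C1 * |C| * ‖x‖ ^ (-(p + 1))) fun a _ => ?_).trans_eq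
            (by simp [mul_assoc])
          have b1 := h1 _ (R0 n) x a
          have b2 := (hd x ((RR n).trans e) a).trans
            (mul_le_mul_of_nonneg_right (le_abs_self C) (by positivity))
          rw [Real.norm_eq_abs, abs_mul, neg_add, Real.rpow_add x0, Real.rpow_neg_one]
          rw [mul_comm, ← le_div_iff₀ x0] at b1
          calc _ ≤ C1 / ‖x‖ * (|C| * ‖x‖ ^ (-p)) := by gcongr
            _ = _ := by ring
        · have := pd0 n s x fun h => not_le.1 fun h' => e ⟨h, h'⟩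
          simp only [this, zero_mul, Finset.sum_const_zero, mul_zero, norm_zero]
          split_ifs
          · positivity
          · rfl
      · rw [norm_mul]
        exact mul_le_of_le_one_left (norm_nonneg _) (cutR_abs _ _ _)
    · refine (ae_restrict_iff' m).2 (Eventually.of_forall fun x hx => ?_)
      refine tendsto_const_nhds.congr' ?_
      filter_upwards [eventually_gt_atTop ⌈‖x‖⌉₊] with n hn
      have : ‖x‖ < Rn n := by
        have : ‖x‖ ≤ n := (Nat.le_ceil _).trans (by exact_mod_cast hn.le)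
        have := le_max_right R 4
        simp only [hRn]; linarith
      rw [ex n s x hx, (cutR_one (R0 n) fun _ => this).self_of_nhds]
      simp [pd0 n s x fun _ => this]
  simp only [fun n => (key n).2] at lim
  exact (tendsto_nhds_unique tendsto_const_nhds lim).symm

end Crest.Agent.N207.NS.Ty

end
end

-- ▼ part N207/N/Tay3
section

/-!
# Row 207, block N (helper32): Taylor expansion of `fgfF` in one chart; decay classes
-/

set_option autoImplicit false

open scoped ContDiff Topology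
open Metric Set Filter MeasureTheory
open Crest.GeometryTopology.CoordMetric
open Crest.Agent.N207.I Crest.Agent.N207.Lg

noncomputable section

namespace Crest.Agent.N207.NS.Ty

variable {U : Set E4} {b G K H g1 g2 : MetricField 4} {x : E4}

/-- the flux of the first variation -/
def WV (b G K : MetricField 4) (c : Fin 4) (z : E4) : ℝ := wF (sq G z) (iv G z) (TG b G z) (K z) c

/-- its coordinate divergence -/
def DV (b G K : MetricField 4) (x : E4) : ℝ := ∑ c, pderiv c (WV b G K c) x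

theorem wF_gen {s s' t u : ℝ} {H H' k k' : A2} {T T' : A3} (h1 : vG s' H' k' = u • vG s H k)
    (h2 : chr H' T' = t • chr H T) (h3 : gv H' T' = t • gv H T) (c : Fin 4) :
    wF s' H' T' k' c = t * u * wF s H T k c := by
  simp only [wF, wL, h1, h2, h3, fl, Pi.smul_apply, smul_eq_mul, mul_add, mul_neg, mul_sub,
    Finset.mul_sum]
  congr 1
  · congr 2 <;> exact Finset.sum_congr rfl fun _ _ => Finset.sum_congr rfl fun _ _ => by ring
  · exact Finset.sum_congr rfl fun _ _ => by ring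

theorem wF_hom (s t u : ℝ) (H k : A2) (T : A3) (c : Fin 4) :
    wF s H (t • T) (u • k) c = t * u * wF s H T k c :=
  wF_gen (vG_smul ..) (chr_smul ..) (gv_smul' ..) c

theorem WV_smul {a : ℝ} (ha : a ≠ 0) (b G K : MetricField 4) (c : Fin 4) :
    WV (a • b) (a • G) (a • K) c = fun z => a * WV b G K c z := by
  funext z
  have e1 : sq (a • G) z = a ^ 2 * sq G z := N207.M.sqrt_det_smul _
  have e2 : iv (a • G) z = a⁻¹ • iv G z := by
    funext i j; simp only [iv, Pi.smul_apply, N207.M.inv_smul_mat ha, Matrix.smul_apply]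
  have e3 : TG (a • b) (a • G) z = a • TG b G z := by
    rw [TG_eq, TG_eq, jet_smul, show christoffel (a • b) = _ from N207.M.chr_smul_met ha b]
    exact bar_smul ..
  rw [WV, e1, e2, e3, WV, ← one_mul a]
  refine wF_gen ?_ ?_ ?_ c
  · rw [one_mul]
    refine (vG_smul a (a⁻¹ • iv G z) (K z) _).trans ?_
    congr 1
    funext i j
    simp only [vG, smul_tr2, smul_up, Pi.smul_apply, smul_eq_mul]
    field_simp
  · rw [one_mul, chr_smul, smul_chr, smul_smul, mul_inv_cancel₀ ha]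
  · rw [one_mul, gv_smul', smul_gv, smul_smul, mul_inv_cancel₀ ha]

theorem DV_smul {a : ℝ} (ha : a ≠ 0) (b G K : MetricField 4) (x : E4) :
    DV (a • b) (a • G) (a • K) x = a * DV b G K x := by
  simp only [DV, WV_smul ha, pd_cmul, Finset.mul_sum]

theorem WV_eq (hG : IsRiemannianOn G U) (hx : x ∈ U) (hK : Sy2 (K x)) (c : Fin 4) :
    WV b G K c x = √(G x).det * ∑ j, (G x)⁻¹ c j * omF b G K x ![j] :=
  wF_eq b (hG.posDef x hx).det_pos.ne' (g_sy_ev hG hx) hK c

theorem DV_eq (hb : IsRiemannianOn b U) (hG : IsRiemannianOn G U) (hK : SmT (matT K) U)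
    (hs : ∀ z ∈ U, Sy2 (K z)) (hx : x ∈ U) :
    DV b G K x = √(G x).det * divT G (omF b G K) x ![] := by
  rw [sqrt_det_mul_divT hG hx ((smT_omF hb hG hK).dAt hG.isOpen hx)]
  exact Finset.sum_congr rfl fun c _ => pd_congr_on c hG.isOpen hx fun z hz => WV_eq hG hz (hs z hz) c

theorem DV_cont (hb : IsRiemannianOn b U) (hG : IsRiemannianOn G U) (hK : SmT (matT K) U)
    (hs : ∀ z ∈ U, Sy2 (K z)) : ContinuousOn (DV b G K) U :=
  ((sm_sqrt_det hG).mul ((smT_omF hb hG hK).divT hG ![])).continuousOn.congr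
    fun _ hx => DV_eq hb hG hK hs hx

theorem fv_cont (hb : IsRiemannianOn b U) (hG : IsRiemannianOn G U) (hK : SmT (matT K) U) :
    ContinuousOn (fv b G K) U :=
  ((sm_sqrt_det hG).mul ((smT_ktT hG hK).ip hG (smT_redT hb hG))).continuousOn.congr
    fun x hx => tr2_vG_eq (hG.posDef x hx).det_pos.ne' (g_sy hG hx) K _

theorem sy_sub (h1 : IsRiemannianOn g1 U) (h2 : IsRiemannianOn g2 U) (hx : x ∈ U) :
    Sy2 ((g2 - g1) x) := fun i j => by
  rw [Pi.sub_apply, Matrix.sub_apply, Matrix.sub_apply, g_sy h1 hx i j, g_sy h2 hx i j]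

theorem sm_sub (h1 : IsRiemannianOn g1 U) (h2 : IsRiemannianOn g2 U) : SmT (matT (g2 - g1)) U :=
  SmT.matT fun i j => (h2.contDiffOn i j).sub (h1.contDiffOn i j)

theorem le_sum2 {f : Fin 4 → Fin 4 → ℝ} (h : ∀ a b, 0 ≤ f a b) (a b : Fin 4) :
    f a b ≤ ∑ a, ∑ b, f a b :=
  (Finset.single_le_sum (fun j _ => h a j) (Finset.mem_univ b)).trans
    (Finset.single_le_sum (f := fun a => ∑ b, f a b)
      (fun i _ => Finset.sum_nonneg fun j _ => h i j) (Finset.mem_univ a))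

theorem e0_nonneg (K : MetricField 4) (x : E4) : 0 ≤ e0 K x := by unfold e0; positivity

theorem e1_nonneg (K : MetricField 4) (x : E4) : 0 ≤ e1 K x := by unfold e1 Hd.g2; positivity

theorem nrm_e0 (K : MetricField 4) (x : E4) : ‖(fun a b => K x a b : A2)‖ ^ 2 ≤ e0 K x := by
  refine (Real.le_sqrt (norm_nonneg _) (e0_nonneg K x)).1 ?_
  simp only [pi_norm_le_iff_of_nonneg (Real.sqrt_nonneg _)]
  exact fun a b => Real.abs_le_sqrt (le_sum2 (f := fun a b => K x a b ^ 2) (fun _ _ => sq_nonneg _) a b)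

theorem nrm_e1 (K : MetricField 4) (x : E4) : ‖jet K x‖ ^ 2 ≤ e1 K x := by
  refine (Real.le_sqrt (norm_nonneg _) (e1_nonneg K x)).1 ?_
  simp only [pi_norm_le_iff_of_nonneg (Real.sqrt_nonneg _)]
  refine fun c a b => Real.abs_le_sqrt (le_trans ?_ (le_sum2
    (f := fun a b => Hd.g2 (fun y => K y a b) x) (fun _ _ => by unfold Hd.g2; positivity) a b))
  exact Finset.single_le_sum (f := fun i => pderiv i (fun y => K y a b) x ^ 2)
    (fun _ _ => sq_nonneg _) (Finset.mem_univ c)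

/-- scaled bounds for the 2-jet -/
def JB (Λ r : ℝ) (H : MetricField 4) (x : E4) : Prop :=
  ‖iv H x‖ ≤ Λ ∧ ‖r • jet H x‖ ≤ Λ ∧ ‖r ^ 2 • jet2 H x‖ ≤ Λ

theorem jb_of {Λ r : ℝ} (hΛ : 0 ≤ Λ) (hr : 0 ≤ r) (hH : ∀ a b, ContDiffAt ℝ ∞ (fun y => H y a b) x)
    (h0 : ∀ a b, |(H x)⁻¹ a b| ≤ Λ)
    (h : ∀ k ≤ 2, ∀ a b, r ^ k * ‖iteratedFDeriv ℝ k (fun y => H y a b) x‖ ≤ Λ) : JB Λ r H x := by
  simp only [JB, pi_norm_le_iff_of_nonneg hΛ]
  refine ⟨h0, fun c a b => le_trans ?_ (h 1 one_le_two a b), fun c d a b => le_trans ?_ (h 2 le_rfl a b)⟩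
  · have := U.norm_itd_pd_le (hH a b) c 0
    rw [norm_iteratedFDeriv_zero] at this
    simp only [Pi.smul_apply, norm_smul, Real.norm_of_nonneg hr, pow_one]
    exact mul_le_mul_of_nonneg_left this hr
  · have := (U.norm_itd_pd_le (U.cda_pd (hH a b) d) c 0).trans (U.norm_itd_pd_le (hH a b) d 1)
    rw [norm_iteratedFDeriv_zero] at this
    simp only [Pi.smul_apply, norm_smul, Real.norm_of_nonneg (sq_nonneg r)]
    exact mul_le_mul_of_nonneg_left this (sq_nonneg _)

/-- **Taylor expansion in one chart** -/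
theorem tay_fun (Λ : ℝ) (hΛ : 0 < Λ) : ∃ C : ℝ, 0 ≤ C ∧ ∀ (U : Set E4) (b g1 g2 : MetricField 4)
    (x : E4) (r : ℝ), IsRiemannianOn b U → IsRiemannianOn g1 U → IsRiemannianOn g2 U → x ∈ U →
    0 < r → (∀ t ∈ Icc (0 : ℝ) 1, (∀ p q, |(g1 x + t • (g2 x - g1 x)) p q| ≤ Λ) ∧
      Λ⁻¹ ≤ √(g1 x + t • (g2 x - g1 x)).det) → JB Λ r b x → JB Λ r g1 x → JB Λ r g2 x →
    |fgfF b g2 x - fgfF b g1 x - fv b g1 (g2 - g1) x - DV b g1 (g2 - g1) x| ≤
      C * (e1 (g2 - g1) x + e0 (g2 - g1) x / r ^ 2) := by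
  obtain ⟨C, C0, hC⟩ := tay_pt Λ hΛ
  refine ⟨C, C0, fun U b g1 g2 x r hb h1 h2 hx hr ht jb j1 j2 => ?_⟩
  have d1 := d_g h1 hx
  have d2 := d_g h2 hx
  have e : jet g1 x + jet (g2 - g1) x = jet g2 x := by rw [jet_sub d2 d1]; abel
  have a := hC (fun i j => g1 x i j) (fun i j => (g2 - g1) x i j) (iv b x) (jet g1 x)
    (jet (g2 - g1) x) (jet b x) (jet2 b x) r hr
    (sy_sub h1 h2 hx) (fun t h => ⟨by
      simp only [pi_norm_le_iff_of_nonneg hΛ.le]; exact (ht t h).1, (ht t h).2⟩) j1.2.1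
    (by rw [e]; exact j2.2.1) jb.1 jb.2.1 jb.2.2
  have cb := C2.of_riem hb hx
  have e' : ((fun i j => g1 x i j : A2) + fun i j => (g2 - g1) x i j) = fun i j => g2 x i j := by
    funext i j; simp
  have f := dfgf_eq (K := g2 - g1) hb h1 hx (fun a b => (d2 a b).sub (d1 a b))
    (mem_of_superset (hb.isOpen.mem_nhds hx) fun z hz => sy_sub h1 h2 hz)
  rw [TG_eq, TG_eq, chr_eq, cb.ricci_raw] at f
  rw [e, e'] at a
  rw [cb.fgfF_raw, cb.fgfF_raw, sub_sub _ (fv _ _ _ _)]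
  refine le_trans (le_of_eq ?_) (a.trans ?_)
  · congr 2
    exact f.symm
  · have := nrm_e0 (g2 - g1) x
    have := nrm_e1 (g2 - g1) x
    gcongr

theorem pd_cvx {A B : Matrix (Fin 4) (Fin 4) ℝ} (hA : A.PosDef) (hB : B.PosDef) {t : ℝ}
    (ht : t ∈ Icc (0 : ℝ) 1) : (A + t • (B - A)).PosDef := by
  rw [show A + t • (B - A) = (1 - t) • A + t • B by module]
  rcases ht.2.eq_or_lt with rfl | h
  · simpa using hB
  · exact (hA.smul (sub_pos.2 h)).add_posSemidef (hB.posSemidef.smul ht.1)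

/-! ### decay at infinity -/

/-- bounded near infinity -/
def Bd (f : E4 → ℝ) : Prop := ∃ C R : ℝ, ∀ x : E4, R ≤ ‖x‖ → |f x| ≤ C

theorem cl_bd : Cl Bd :=
  ⟨fun c => ⟨|c|, 0, fun _ _ => le_rfl⟩,
    fun ⟨C, R, h⟩ ⟨C', R', h'⟩ => ⟨C + C', max R R', fun x hx => (abs_add_le _ _).trans
      (add_le_add (h x (le_of_max_le_left hx)) (h' x (le_of_max_le_right hx)))⟩,
    fun ⟨C, R, h⟩ ⟨C', R', h'⟩ => ⟨C * C', max R R', fun x hx => by
      have := h x (le_of_max_le_left hx)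
      rw [abs_mul]
      exact mul_le_mul this (h' x (le_of_max_le_right hx)) (abs_nonneg _)
        ((abs_nonneg _).trans this)⟩⟩

theorem Bd.congr {f f' : E4 → ℝ} (h : Bd f) {R : ℝ} (e : ∀ x, R ≤ ‖x‖ → f' x = f x) : Bd f' :=
  let ⟨C, R', h⟩ := h
  ⟨C, max R R', fun x hx => (e x (le_of_max_le_left hx)).symm ▸ h x (le_of_max_le_right hx)⟩

theorem Bd.dec {f : E4 → ℝ} {p : ℝ} (h : Bd fun x => ‖x‖ ^ p * f x) :
    ∃ C R : ℝ, ∀ x : E4, R ≤ ‖x‖ → |f x| ≤ C * ‖x‖ ^ (-p) := by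
  obtain ⟨C, R, h⟩ := h
  refine ⟨C, max R 1, fun x hx => ?_⟩
  have x0 : 0 < ‖x‖ := one_pos.trans_le (le_of_max_le_right hx)
  have := h x (le_of_max_le_left hx)
  rw [abs_mul, abs_of_pos (by positivity)] at this
  rwa [Real.rpow_neg x0.le, ← div_eq_mul_inv, le_div_iff₀' (by positivity)]

theorem bd_of_dec {f : E4 → ℝ} {p C R : ℝ} (h : ∀ x : E4, R ≤ ‖x‖ → |f x| ≤ C * ‖x‖ ^ (-p)) :
    Bd fun x => ‖x‖ ^ p * f x := by
  refine ⟨C, max R 1, fun x hx => ?_⟩
  have x0 : 0 < ‖x‖ := one_pos.trans_le (le_of_max_le_right hx)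
  have := h x (le_of_max_le_left hx)
  rw [abs_mul, abs_of_pos (by positivity)]
  rwa [Real.rpow_neg x0.le, ← div_eq_mul_inv, le_div_iff₀' (by positivity)] at this

/-- metrics that are asymptotically flat of order `3/2` -/
structure Far (H : MetricField 4) : Prop where
  g : P2 Bd fun x a b => H x a b
  iv : P2 Bd (iv H)
  sq : Bd (sq H)
  jet : P3 Bd fun x => ‖x‖ ^ (5 / 2 : ℝ) • jet H x
  dv : P2 Bd fun x => ‖x‖ ^ (3 / 2 : ℝ) • fun a b => (H x - 1) a b

theorem far_of {Λ R : ℝ} (h : ∀ x : E4, R ≤ ‖x‖ → (∀ p q, |H x p q| ≤ Λ ∧ |(H x)⁻¹ p q| ≤ Λ) ∧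
    sq H x ≤ Λ) (hd : Dec (3 / 2) fun x => H x - 1) : Far H := by
  obtain ⟨C, R', hd⟩ := hd
  refine ⟨fun a b => ⟨Λ, R, fun x hx => ((h x hx).1 a b).1⟩,
    fun a b => ⟨Λ, R, fun x hx => ((h x hx).1 a b).2⟩,
    ⟨Λ, R, fun x hx => (abs_of_nonneg (Real.sqrt_nonneg _)).trans_le (h x hx).2⟩,
    fun c a b => bd_of_dec (C := C) (R := R') fun x hx => ?_,
    fun a b => bd_of_dec fun x hx => (hd x hx a b).1⟩
  have := (hd x hx a b).2
  simp only [Matrix.sub_apply, fderiv_sub_const] at this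
  rw [show -(5 / 2 : ℝ) = -(3 / 2) - 1 by norm_num]
  exact (abs_pd_le _ x c).trans this

theorem Far.tg (hb : Far b) (hG : Far G) : P3 Bd fun x => ‖x‖ ^ (5 / 2 : ℝ) • TG b G x := by
  simp only [TG_eq, chr_eq, ← bar_hom, ← chr_smul]
  exact cl_bd.bar hG.g hG.jet (cl_bd.chr hb.iv hb.jet)

theorem sq_rpow (x : E4) : (‖x‖ ^ (5 / 2 : ℝ)) ^ 2 = ‖x‖ ^ (5 : ℝ) := by
  rw [← Real.rpow_natCast, ← Real.rpow_mul (norm_nonneg _)]; norm_num

theorem Far.fgf (hb : Far b) (hG : Far G) {R : ℝ} (hr : ∀ x : E4, R ≤ ‖x‖ → ∀ i j, ricci b x i j = 0) :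
    Bd fun x => ‖x‖ ^ (5 : ℝ) * fgfF b G x := by
  simp only [← sq_rpow, fgfF, ← fgf_hom]
  exact cl_bd.fgf hG.sq hG.iv (hb.tg hG) fun i j => (cl_bd.const 0).congr (R := R)
    fun x hx => by simp [hr x hx i j]

theorem Far.k (h1 : Far g1) (h2 : Far g2) :
    P2 Bd fun x => ‖x‖ ^ (3 / 2 : ℝ) • fun a b => (g2 - g1) x a b := fun a b =>
  (cl_bd.sub (h2.dv a b) (h1.dv a b)).congr (R := 0) fun x _ => by simp; ring

theorem Far.wv (hb : Far b) (h1 : Far g1) (h2 : Far g2) (c : Fin 4) :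
    Bd fun x => ‖x‖ ^ (4 : ℝ) * WV b g1 (g2 - g1) c x :=
  (cl_bd.wF h1.sq h1.iv (hb.tg h1) (h1.k h2) c).congr (R := 0) fun x _ => by
    refine Eq.trans ?_ (wF_hom _ _ _ _ _ _ c).symm
    rw [← Real.rpow_add' (norm_nonneg _) (by norm_num), show (5 / 2 + 3 / 2 : ℝ) = 4 by norm_num]
    rfl

theorem Far.en (h1 : Far g1) (h2 : Far g2) {R : ℝ}
    (d1 : ∀ x : E4, R ≤ ‖x‖ → ∀ a b, DifferentiableAt ℝ (fun z => g1 z a b) x)
    (d2 : ∀ x : E4, R ≤ ‖x‖ → ∀ a b, DifferentiableAt ℝ (fun z => g2 z a b) x) :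
    Bd fun x => ‖x‖ ^ (5 : ℝ) * (e1 (g2 - g1) x + e0 (g2 - g1) x / ‖x‖ ^ 2) := by
  have j := fun c a b => cl_bd.sub (h2.jet c a b) (h1.jet c a b)
  refine (cl_bd.add (cl_bd.sum Finset.univ fun a => cl_bd.sum Finset.univ fun b =>
    cl_bd.sum Finset.univ fun c => cl_bd.mul (j c a b) (j c a b)) (cl_bd.sum Finset.univ fun a =>
      cl_bd.sum Finset.univ fun b => cl_bd.mul (h1.k h2 a b) (h1.k h2 a b))).congr (R := max R 1)
    fun x hx => ?_
  have x0 : 0 < ‖x‖ := one_pos.trans_le (le_of_max_le_right hx)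
  have e := jet_sub (d2 x (le_of_max_le_left hx)) (d1 x (le_of_max_le_left hx))
  have e2 : ‖x‖ ^ (5 : ℝ) / ‖x‖ ^ 2 = ‖x‖ ^ (3 / 2 : ℝ) * ‖x‖ ^ (3 / 2 : ℝ) := by
    rw [← Real.rpow_add x0, ← Real.rpow_natCast, ← Real.rpow_sub x0]; norm_num
  rw [mul_add, ← mul_div_assoc, mul_div_right_comm, e2, ← sq_rpow]
  simp only [e1, e0, Hd.g2, Finset.mul_sum, Pi.smul_apply, smul_eq_mul]
  congr 1
  · refine Finset.sum_congr rfl fun a _ => Finset.sum_congr rfl fun b _ =>
      Finset.sum_congr rfl fun c _ => ?_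
    rw [show pderiv c (fun y => (g2 - g1) y a b) x = _ from congrFun (congrFun (congrFun e c) a) b]
    simp only [Pi.sub_apply]; ring
  · exact Finset.sum_congr rfl fun a _ => Finset.sum_congr rfl fun b _ => by ring

end Crest.Agent.N207.NS.Ty

end
end

-- ▼ part N207/N/Tay4

/-!
# Row 207, block N (helper32): the leaf `TAY`
-/

set_option autoImplicit false

open scoped ContDiff Topology
open Metric Set Filter MeasureTheory
open Crest.GeometryTopology.CoordMetric
open Crest.Agent.N207.I Crest.Agent.N207.Lg Crest.Agent.N207.CB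

noncomputable section

namespace Crest.Agent.N207.NS

namespace Ty

theorem sec_omF {X : Type*} {α : Type} {A : Atl X α} {b G K : α → MetricField 4} (hA : A.Ok)
    (hb : A.IsMet b) (hG : A.IsMet G) (hK : A.Sec fun s => matT (K s)) :
    A.Sec fun s => omF (b s) (G s) (K s) :=
  ⟨fun a => smT_omF (hb.riem a) (hG.riem a) (hK.sm a), fun _ _ x _ t =>
    let ⟨_, h1, h2, p⟩ := hG.loc hA t
    rel_omF p (hb.pull hA p.isOpen h2) (hK.compat.rel h2) x h1⟩

variable {M : Type*} {T : TD M} {L : T.V → ℝ} {f : T.S → E4 → ℝ}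

theorem mem_root {x : E4} (hx : 2 ≤ ‖x‖) : x ∈ U1 T L (Sum.inr T.root) :=
  ⟨by linarith, fun h => absurd rfl h⟩

/-- continuous densities that decay faster than `|x|⁻⁴` are integrable on `K1` -/
theorem intK (c : Ch T L) (hf : ∀ s, ContinuousOn (f s) (U1 T L s)) {p : ℝ} (hp : 4 < p)
    (hd : Bd fun x => ‖x‖ ^ p * f (Sum.inr T.root) x) (s : T.S) : IntegrableOn (f s) (K1 T L s) := by
  by_cases hs : s = Sum.inr T.root
  · subst hs
    obtain ⟨C, R, h⟩ := hd.dec
    have m : MeasurableSet {x : E4 | max R 2 ≤ ‖x‖} :=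
      (isClosed_le continuous_const continuous_norm).measurableSet
    have i1 : IntegrableOn (f (Sum.inr T.root)) (closedBall 0 (max R 2) ∩ K1 T L (Sum.inr T.root)) :=
      ((hf _).mono (inter_subset_right.trans (c.K1_U1 _))).integrableOn_compact
        ((isCompact_closedBall _ _).inter_right (c.cl_K1 _))
    have i2 : IntegrableOn (f (Sum.inr T.root)) {x : E4 | max R 2 ≤ ‖x‖} :=
      Integrable.mono' (((int_far hp).mono_set (t := {x : E4 | 1 ≤ ‖x‖}) (s := {x | max R 2 ≤ ‖x‖})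
        fun x (hx : max R 2 ≤ ‖x‖) => le_trans one_le_two (le_of_max_le_right hx)).const_mul C)
        (((hf _).mono fun x hx => mem_root (le_of_max_le_right hx)).aestronglyMeasurable m)
        ((ae_restrict_iff' m).2 (Eventually.of_forall fun x hx => h x (le_of_max_le_left hx)))
    refine (i1.union i2).mono_set fun x hx => ?_
    exact (le_total ‖x‖ (max R 2)).imp (fun h => ⟨mem_closedBall_zero_iff.2 h, hx⟩) id
  · exact ((hf s).mono (c.K1_U1 s)).integrableOn_compact (c.cpt s hs)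

/-- and for the partition of unity -/
theorem IntL_of_dec (c : Ch T L) (hf : ∀ s, ContinuousOn (f s) (U1 T L s)) {p : ℝ} (hp : 4 < p)
    (hd : Bd fun x => ‖x‖ ^ p * f (Sum.inr T.root) x) : IntL T L f :=
  c.IntL_of_le (c.intL_le_K1 (f := fun s x => |f s x|) (fun s => (hf s).abs)
    (fun _ _ _ => abs_nonneg _) fun s => (intK c hf hp hd s).abs).1 hf fun _ _ _ => le_rfl

theorem abs_intL_le (c : Ch T L) {f' : T.S → E4 → ℝ} (h : IntL T L f) (h' : IntL T L f')
    (e : ∀ s, ∀ x ∈ U1 T L s, |f s x| ≤ f' s x) : |intL T L f| ≤ intL T L f' := by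
  refine abs_le.2 ⟨?_, c.intL_mono h h' fun s x hx => (abs_le.1 (e s x hx)).2⟩
  rw [← neg_one_mul, ← intL_smul]
  exact c.intL_mono (h'.smul _) h fun s x hx => by linarith [(abs_le.1 (e s x hx)).1]

theorem uni4 {F : Fin 4 → E4 → ℝ} {p : ℝ} (h : ∀ i, Bd fun x => ‖x‖ ^ p * F i x) :
    ∃ C R : ℝ, ∀ x : E4, R ≤ ‖x‖ → ∀ i, |F i x| ≤ C * ‖x‖ ^ (-p) := by
  choose C R h using fun i => (h i).dec
  have k : ∀ (u : Fin 4 → ℝ) i, u i ≤ ∑ j, |u j| := fun u i => (le_abs_self _).trans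
    (Finset.single_le_sum (f := fun j => |u j|) (fun _ _ => abs_nonneg _) (Finset.mem_univ i))
  exact ⟨_, _, fun x hx i => (h i x ((k R i).trans hx)).trans
    (mul_le_mul_of_nonneg_right (k C i) (by positivity))⟩

/-- the divergence term of the first variation integrates to zero -/
theorem intL_DV (c : Ch T L) {b G k : Fam T} (hb : Met1 T L b) (hG : Met1 T L G)
    (hk : (gl1 T L).Sec fun s => matT (rt T L k s)) (hs : ∀ s, ∀ x ∈ U1 T L s, Sy2 (k s x))
    (hi : IntL T L fun s => DV (b s) (G s) (k s)) {p : ℝ} (hp : 3 < p)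
    (hd : ∀ i, Bd fun x => ‖x‖ ^ p *
      WV (b (Sum.inr T.root)) (G (Sum.inr T.root)) (k (Sum.inr T.root)) i x) :
    intL T L (fun s => DV (b s) (G s) (k s)) = 0 := by
  have a0 : ∀ s, ep T L s ^ 2 ≠ 0 := fun s => pow_ne_zero _ (ep_pos L s).ne'
  have sy : ∀ s, ∀ x ∈ U1 T L s, Sy2 (rt T L k s x) := fun s x hx i j => by
    simp only [rt, Matrix.smul_apply, hs s x hx i j]
  have e : ∀ s, ∀ x ∈ U1 T L s, (gl1 T L).den T.χ (rt T L G) s x *
      divT (rt T L G s) (omF (rt T L b s) (rt T L G s) (rt T L k s)) x ![] =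
      ep T L s ^ 2 * (Nat.card (T.grp s) : ℝ)⁻¹ *
        (T.χ s ((T.glob L).c s x) * DV (b s) (G s) (k s) x) := fun s x hx => by
    have h1 := DV_eq (Atl.IsMet.riem hb s) (Atl.IsMet.riem hG s) (hk.sm s) (sy s) hx
    have h2 : DV (rt T L b s) (rt T L G s) (rt T L k s) x = _ := DV_smul (a0 s) (b s) (G s) (k s) x
    rw [Atl.den, mul_assoc, mul_assoc, ← h1, h2]
    change (Nat.card (T.grp s) : ℝ)⁻¹ * (T.χ s ((T.glob L).c s x) * _) = _
    ring
  obtain ⟨C, R, h⟩ := uni4 hd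
  have := div_root c.ok1 c.pou1 hG (sec_omF c.ok1 hb hG hk) (fun s =>
    ((hi s).const_mul (ep T L s ^ 2 * (Nat.card (T.grp s) : ℝ)⁻¹)).congr
      ((ae_restrict_iff' (c.op1 s).measurableSet).2
        (Eventually.of_forall fun x hx => (e s x hx).symm))) hp
    (C := ep T L (Sum.inr T.root) ^ 2 * C) (R := max R 2) fun x hx i => by
      have m := mem_root (T := T) (L := L) (le_of_max_le_right hx)
      rw [← WV_eq (Atl.IsMet.riem hG _) m (sy _ x m) i]
      have : WV (rt T L b (Sum.inr T.root)) (rt T L G (Sum.inr T.root))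
        (rt T L k (Sum.inr T.root)) i = _ := WV_smul (a0 _) _ _ _ i
      rw [this, abs_mul, abs_of_nonneg (sq_nonneg _), mul_assoc]
      exact mul_le_mul_of_nonneg_left (h x (le_of_max_le_left hx) i) (sq_nonneg _)
  refine Eq.trans (Finset.sum_congr rfl fun s _ => ?_) this
  rw [← mul_assoc, ← integral_const_mul]
  exact setIntegral_congr_fun (c.op1 s).measurableSet fun x hx => (e s x hx).symm

theorem en_cont {U : Set E4} (hU : IsOpen U) {K : MetricField 4} (hK : SmT (matT K) U)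
    {r : E4 → ℝ} (hr : ContinuousOn r U) (h0 : ∀ x ∈ U, r x ≠ 0) :
    ContinuousOn (fun x => e1 K x + e0 K x / r x ^ 2) U := by
  have k : ∀ a b, ContDiffOn ℝ ∞ (fun y => K y a b) U := fun a b => hK ![a, b]
  refine ContinuousOn.add ?_ (ContinuousOn.div ?_ (hr.pow 2) fun x hx => pow_ne_zero _ (h0 x hx))
  · exact continuousOn_finset_sum _ fun a _ => continuousOn_finset_sum _ fun b _ =>
      continuousOn_finset_sum _ fun i _ => (sm_pd hU (k a b) i).continuousOn.pow 2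
  · exact continuousOn_finset_sum _ fun a _ => continuousOn_finset_sum _ fun b _ =>
      (k a b).continuousOn.pow 2

theorem scl_cont (s : T.S) : Continuous (scl T s) := by
  rcases s with a | w
  exacts [continuous_const, continuous_norm]

end Ty

open Ty

variable {M : Type*} {T : TD M} {g : T.V → Fam T}

/-- **leaf TAY** -/
theorem tay (h : Std T g) (hC : CHI T) (hE : ELL T g) (hG : GB T g) : TAY T g := by
  obtain ⟨δ, Λ, TE, δ0, Λ1, hE⟩ := hE
  obtain ⟨TG, hG⟩ := hG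
  obtain ⟨CG, hG⟩ := hG 0
  obtain ⟨TC, hC⟩ := hC.ch h.ok
  obtain ⟨C, C0, hT⟩ := tay_fun (Λ + 1) (by linarith)
  refine ⟨min δ 1, C + 1, max (max TE TG) (max TC 0), lt_min δ0 one_pos, by linarith,
    fun T0 hT0 L hL b g1 g2 hb hR h1 h2 i1 iv1 => ?_⟩
  simp only [max_le_iff] at hT0
  have c : Ch T L := hC L (hL.mono (by
    have := le_max_left TC 0
    have := le_max_right (max TE TG) (max TC 0)
    linarith [hT0.2.2]))
  have hE := hE T0 hT0.1.1 L (hL.mono (by gcongr; exact le_max_of_le_left (le_max_left _ _)))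
  have hG := riem_of_rt ((hG T0 hT0.1.2).2 L
    (hL.mono (by gcongr; exact le_max_of_le_left (le_max_right _ _)))).2.1
  have r1 : ∀ s, ∀ x ∈ U1 T L s, 1 ≤ scl T s x := fun s x hx => (c.cell s x (c.U1_W1 s hx)).1
  have n0 : ∀ {H}, Adm T g T0 L (min δ 1) H → ∀ s, ∀ x ∈ U1 T L s, ∀ p q,
      |H s x p q - gbL T g T0 L s x p q| ≤ δ := fun hH s x hx p q => by
    have := hH.near s x hx 0 (Nat.zero_le _) p q
    rw [pow_zero, one_mul, norm_iteratedFDeriv_zero] at this
    exact this.trans (min_le_left _ _)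
  have el := fun {H} (hH : Adm T g T0 L (min δ 1) H) s x (hx : x ∈ U1 T L s) =>
    hE H s x (c.U1_W1 s hx) ((hH.met.riem s).posDef x hx) (n0 hH s x hx)
  have jb : ∀ {H}, Adm T g T0 L (min δ 1) H → ∀ s, ∀ x ∈ U1 T L s,
      JB (Λ + 1) (scl T s x) (H s) x := fun {H} hH s x hx => by
    have c1 := fun a b => ((hH.met.riem s).contDiffOn a b).contDiffAt ((c.op1 s).mem_nhds hx)
    have c2 := fun a b => ((hG s).contDiffOn a b).contDiffAt ((hG s).isOpen.mem_nhds (c.U1_U s hx))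
    refine jb_of (by linarith) (by linarith [r1 s x hx]) c1
      (fun a b => ((el hH s x hx).1 a b).2.trans (by linarith)) fun k hk a b => ?_
    have a1 := (hH.near s x hx k hk a b).trans (min_le_right _ _)
    have a2 := (el hH s x hx).2.2.2.2 k (by omega) a b
    simp only [Matrix.sub_apply] at a1
    rw [fun_iteratedFDeriv_sub_apply ((c1 a b).of_le (by exact_mod_cast le_top))
      ((c2 a b).of_le (by exact_mod_cast le_top))] at a1
    have := mul_le_mul_of_nonneg_left (norm_le_insert' (iteratedFDeriv ℝ k (fun y => H s y a b) x)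
      (iteratedFDeriv ℝ k (fun y => gbL T g T0 L s y a b) x))
      (pow_nonneg (zero_le_one.trans (r1 s x hx)) k)
    linarith
  have fa : ∀ {H}, Adm T g T0 L (min δ 1) H → Far (H (Sum.inr T.root)) := fun hH =>
    far_of (Λ := Λ) (R := 2) (fun x hx => ⟨(el hH _ x (mem_root hx)).1,
      (el hH _ x (mem_root hx)).2.2.1⟩) hH.dec
  have rb := hb.met.riem
  have r1' := h1.met.riem
  have r2 := h2.met.riem
  obtain ⟨R, hR⟩ := hR
  have i2 : IntL T L fun s => fgfF (b s) (g2 s) := IntL_of_dec c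
    (fun s => (sm_fgfF (rb s) (r2 s)).continuousOn) (by norm_num) ((fa hb).fgf (fa h2) hR)
  have ce : ∀ s, ContinuousOn (fun x => e1 ((g2 - g1) s) x + e0 ((g2 - g1) s) x / scl T s x ^ 2)
      (U1 T L s) := fun s => en_cont (c.op1 s) (sm_sub (r1' s) (r2 s)) (scl_cont s).continuousOn
    fun x hx => by linarith [r1 s x hx]
  obtain ⟨iE, hEn⟩ := c.intL_le_K1 ce
    (fun s x _ => add_nonneg (e1_nonneg _ _) (div_nonneg (e0_nonneg _ _) (sq_nonneg _)))
    (intK c ce (by norm_num) ((fa h1).en (fa h2) (R := 2)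
      (fun x hx => d_g (r1' _) (mem_root hx)) fun x hx => d_g (r2 _) (mem_root hx)))
  have pt : ∀ s, ∀ x ∈ U1 T L s, |fgfF (b s) (g2 s) x - fgfF (b s) (g1 s) x -
      fv (b s) (g1 s) (g2 s - g1 s) x - DV (b s) (g1 s) (g2 s - g1 s) x| ≤
      C * (e1 ((g2 - g1) s) x + e0 ((g2 - g1) s) x / scl T s x ^ 2) := fun s x hx => by
    refine hT _ _ _ _ x _ (rb s) (r1' s) (r2 s) hx (by linarith [r1 s x hx]) (fun t ht => ?_)
      (jb hb s x hx) (jb h1 s x hx) (jb h2 s x hx)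
    have := hE (fun _ _ => g1 s x + t • (g2 s x - g1 s x)) s x (c.U1_W1 s hx)
      (pd_cvx ((r1' s).posDef x hx) ((r2 s).posDef x hx) ht) fun p q => by
        have a1 := abs_le.1 (n0 h1 s x hx p q)
        have a2 := abs_le.1 (n0 h2 s x hx p q)
        simp only [Matrix.add_apply, Matrix.smul_apply, Matrix.sub_apply, smul_eq_mul]
        rw [abs_le]
        constructor <;> nlinarith [ht.1, ht.2]
    exact ⟨fun p q => (this.1 p q).1.trans (by linarith),
      (inv_anti₀ (by linarith) (by linarith)).trans this.2.1⟩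
  have cd := fun s => DV_cont (rb s) (r1' s) (sm_sub (r1' s) (r2 s)) fun z hz => sy_sub (r1' s) (r2 s) hz
  have iR : IntL T L fun s x => fgfF (b s) (g2 s) x - fgfF (b s) (g1 s) x -
      fv (b s) (g1 s) (g2 s - g1 s) x - DV (b s) (g1 s) (g2 s - g1 s) x :=
    c.IntL_of_le (iE.smul C) (fun s => (((sm_fgfF (rb s) (r2 s)).continuousOn.sub
      (sm_fgfF (rb s) (r1' s)).continuousOn).sub
      (fv_cont (rb s) (r1' s) (sm_sub (r1' s) (r2 s)))).sub (cd s)) pt
  have i3 := (i2.sub i1).sub iv1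
  have iD : IntL T L fun s => DV (b s) (g1 s) (g2 s - g1 s) :=
    c.IntL_congr (i3.sub iR) fun s x _ => by ring
  have z := intL_DV c (k := g2 - g1) hb.met h1.met (h2.met.sec_sub h1.met)
    (fun s x hx => sy_sub (r1' s) (r2 s) hx) iD (by norm_num) ((fa hb).wv (fa h1) (fa h2))
  have fin := abs_intL_le c iR (iE.smul C) pt
  rw [intL_sub i3 iD, intL_sub (i2.sub i1) iv1, intL_sub i2 i1, intL_smul] at fin
  refine ⟨i2, ?_⟩
  have E0 := (c.intL_nonneg
    (fun s x _ => add_nonneg (e1_nonneg ((g2 - g1) s) x)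
      (div_nonneg (e0_nonneg ((g2 - g1) s) x) (sq_nonneg (scl T s x))))).trans hEn
  have z' : intL T L (fun s x => DV (b s) (g1 s) (g2 s - g1 s) x) = 0 := z
  rw [z', sub_zero] at fin
  refine fin.trans ((mul_le_mul_of_nonneg_left hEn C0).trans ?_)
  exact mul_le_mul_of_nonneg_right (by linarith) E0

end Crest.Agent.N207.NS

end
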