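import Crest.Agent.N207.CB.Gl4_Mg
import Crest.Agent.N207.M.Cx
import Crest.Agent.N207.M.H4_Mg
import Crest.Agent.N207.M.Cel
import Crest.Agent.N207.N.Grl_Mg
import Crest.Agent.N207.K.CoerH_Mg
import Crest.Agent.N207.N.Thb
import Crest.Agent.N207.N.Tay4
import Crest.Agent.N207.N.Cmpg1_Mg
import Crest.Agent.N207.N.Cmpg_Mg
import Crest.Agent.N207.N.Pull
import Crest.Agent.N207.N.Kl_Mg
import Crest.Agent.N207.O.Fin2

-- ▼ part N207/M/We
section

/-!
# Row 207, X3 (helper99): the weighted energy estimate `WE`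
-/

set_option autoImplicit false

open scoped ContDiff
open Set Filter Topology MeasureTheory
open Crest.GeometryTopology.CoordMetric
open Crest.Agent.N207.I Crest.Agent.N207.I.TD Crest.Agent.N207.CB Crest.Agent.N207.N
  Crest.Agent.N207.Ga

noncomputable section

namespace Crest.Agent.N207.M

theorem We.cmp {σ D l r : ℝ} (hr : 0 < r) (h : |l - Real.log r| ≤ D) :
    r ^ (2 * σ - 2) ≤ Real.exp (2 * |σ| * D) * (Real.exp (σ * l) ^ 2 / r ^ 2) ∧
      Real.exp (σ * l) ^ 2 * r ^ 2 ≤ Real.exp (2 * |σ| * D) * r ^ (2 * σ + 2) := by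
  have a : |σ * (l - Real.log r)| ≤ |σ| * D := by
    rw [abs_mul]; exact mul_le_mul_of_nonneg_left h (abs_nonneg σ)
  obtain ⟨a1, a2⟩ := abs_le.1 a
  have e2 : r ^ 2 = Real.exp (2 * Real.log r) := by
    rw [show 2 * Real.log r = Real.log r + Real.log r by ring, Real.exp_add, Real.exp_log hr, sq]
  rw [e2, Real.rpow_def_of_pos hr, Real.rpow_def_of_pos hr, sq, ← Real.exp_add, ← Real.exp_sub,
    ← Real.exp_add, ← Real.exp_add, ← Real.exp_add]
  exact ⟨Real.exp_le_exp.2 (by nlinarith), Real.exp_le_exp.2 (by nlinarith)⟩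

variable {M : Type*} {T : TD M}

theorem we (h : T.Ok) (h4 : H4 T) (hg : HG T) : WE T := by
  intro γ C Λ σ hγ hΛ hσ
  obtain ⟨θ, A, τ, D, l0, hθ, -, H1⟩ := h4 γ C Λ σ hγ hΛ hσ
  obtain ⟨c, hc, H2⟩ := hg γ C Λ hΛ
  have h1θ := sub_pos.2 hθ
  refine ⟨Real.exp (2 * |σ| * D) * ((((1 - θ) * c) ^ 2)⁻¹ * Real.exp (2 * |σ| * D)), l0,
    by positivity, fun L H hL hC om ⟨hs, R, hR⟩ => ?_⟩
  obtain ⟨l, hl, H3⟩ := H1 L hL
  have hA := h.glob_ok hL.1
  have hχ := h.glob_pou hL.1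
  have hG := hC.met
  obtain ⟨S0, hS0, hv0⟩ := exists_cs h hL.1 hs.compat hR
  obtain ⟨S, hsub, hS, hcl⟩ := hS0.exists_cl hA
  have hv := hv0.mono hsub
  set f : T.S → E4 → ℝ := fun s x => Real.exp (σ * l s x) with hf
  have fc : (T.glob L).CompF f := hl.comp.map fun t => Real.exp (σ * t)
  have fs : ∀ s, ContDiffOn ℝ ∞ (f s) ((T.glob L).U s) := fun s =>
    (contDiffOn_const.mul (hl.sm s)).exp
  have sU := hs.smT fc fs
  have rc : (T.glob L).Ct (Sk.rw T L) := fun s => (rw_cont s).continuousOn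
  have rp : ∀ s, ∀ x ∈ (T.glob L).U s, 0 < Sk.rw T L s x := fun s x hx => rw_pos hx
  have k4 := H3 H hC _ ⟨sU, R, fun x hx => by funext I; simp [smT, hR x hx]⟩
  have kg := H2 L H hL.1 hC _ S sU hS (hv.smT_right f)
  have key := We.west hA hG hχ hS hs hv fc fs rc rp hθ hc (le_trans (le_of_eq (by
      rw [← Atl.int_const_mul]
      exact Atl.int_congr hA fun s x hx => by
        rw [We.nsq_smT, hf, We.nsq_dT_exp σ (dAt (hl.sm s) (hA.isOpen s) hx)]; ring)) k4)
    (le_trans (le_of_eq (by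
      congr 1
      exact Atl.int_congr hA fun s x _ => by rw [We.nsq_smT]; ring)) kg)
  have sl := hs.lapT hA hG
  have cf : (T.glob L).Ct f := fun s => (fs s).continuousOn
  have cr : ∀ q : ℝ, (T.glob L).Ct fun s x => Sk.rw T L s x ^ q := fun q s =>
    (rc s).rpow_const fun x hx => Or.inl (rp s x hx).ne'
  have m1 := Atl.int_mono hA hχ (We.intg_w hA hG hχ hS hs hv hs (cr (2 * σ - 2)))
    ((We.intg_w hA hG hχ hS hs hv hs (f := fun s x => f s x ^ 2 / Sk.rw T L s x ^ 2) fun s =>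
      ((cf s).pow 2).div ((rc s).pow 2) fun x hx => (pow_pos (rp s x hx) 2).ne').const_mul
      (Real.exp (2 * |σ| * D))) fun s x hx => by
    rw [← mul_assoc]
    exact mul_le_mul_of_nonneg_right (We.cmp (rp s x hx) (hl.cmp s x hx)).1
      (nsq_nn (hG.riem s) hx _)
  have m2 := Atl.int_mono hA hχ
    (We.intg_w hA hG hχ hS sl (hv.lapT hA hcl) sl
      (f := fun s x => f s x ^ 2 * Sk.rw T L s x ^ 2) fun s => ((cf s).pow 2).mul ((rc s).pow 2))
    ((We.intg_w hA hG hχ hS sl (hv.lapT hA hcl) sl (cr (2 * σ + 2))).const_mul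
      (Real.exp (2 * |σ| * D))) fun s x hx => by
    rw [← mul_assoc]
    exact mul_le_mul_of_nonneg_right (We.cmp (rp s x hx) (hl.cmp s x hx)).2
      (nsq_nn (hG.riem s) hx _)
  rw [Atl.int_const_mul] at m1 m2
  refine m1.trans ((mul_le_mul_of_nonneg_left (key.trans (mul_le_mul_of_nonneg_left m2
    (inv_nonneg.2 (sq_nonneg _)))) (Real.exp_pos _).le).trans (le_of_eq ?_))
  simp only [mul_assoc, nsq]

end Crest.Agent.N207.M

end
end

-- ▼ part N207/M/X3
section

/-!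
# Row 207, X3 (helper50): the uniform weighted estimate for the vector Laplacian
-/

set_option autoImplicit false

open Crest.Agent.N207.I Crest.Agent.N207.CB Crest.Agent.N207.Ga

namespace Crest.Agent.N207.M

theorem x3_we {M : Type*} {T : TD M} (h : T.Ok) (hc : ∀ v, (T.base v).Conn) {g : T.V → Fam T}
    {γ γ' : ℝ} (hL : T.Lim g γ) (we : WE T) (h0 : 0 < γ') (h1 : 2 * γ' ≤ γ) (h2 : γ ≤ 1) :
    X3 T g γ' :=
  x3_of h m1 (cel T) (gbc h hL) (lex h (hg h hc)) we (cx h pe) (fl h pe) (rb h pe)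
    (ce h m1 m2w (trf h) (cel T)) (nc h m2w (cel T)) (ct h m2w (cel T)) h0 h1 h2

/-- **X3** -/
theorem x3 {M : Type*} {T : TD M} (h : T.Ok) (hc : ∀ v, (T.base v).Conn) {g : T.V → Fam T}
    {γ γ' : ℝ} (hL : T.Lim g γ) (h0 : 0 < γ') (h1 : 2 * γ' ≤ γ) (h2 : γ ≤ 1) : X3 T g γ' :=
  x3_we h hc hL (we h (h4 h pw (hg h hc)) (hg h hc)) h0 h1 h2

end Crest.Agent.N207.M
end

-- ▼ part N207/N/Fin0

/-!
# Row 207, block N (helper34): the static chain modulo the existence theorem `LStmt`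
-/

set_option autoImplicit false

open Crest.Agent.N207.I Crest.Agent.N207.CB

namespace Crest.Agent.N207.NS

variable {X : Type*} {T : TD X} {g : T.V → Fam T}

theorem gaua (h : Std T g) : GAUA T g := fun _ _ _ hS hF =>
  Ga.gauge_x3 h.ok (by norm_num) (by norm_num) h.lim hS hF
    (M.x3 h.ok h.conn h.lim (by norm_num) (by norm_num) (by norm_num))

theorem tay' (h : Std T g) : TAY T g := tay h (chi h) (ell h) (gb' h)

theorem rest (h : Std T g) : REST T g :=
  fun κ _ _ ψ c η C _ _ _ hG hc =>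
    have t := tol h κ ψ c η C hG
    ⟨thb h (chi h) (vol h) (gb' h) (ell h) (pull h) (pull2 T) t,
      cmpg h mul (chi h) (gb' h) (ell h) (pull h) (pull2 T) (int h) (act h.ok) (tay' h) hc t,
      grt h mul (ell h) (chi h) (vol h) (gb' h) (tay' h) (xc h) hc t,
      grl h mul (ell h) (chi h) (gb' h) (act h.ok) (pull h) (int h) (dil h (gb' h) (ell h)) hG.psi
        (core h mul (ell h) (chi h) (vol h) (gb' h) (tay' h) (xc h) hc t) t⟩

/-- **the static chain modulo `LStmt`** -/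
theorem swl_L (hL : ∀ T : TD X, LStmt T) : Sk.SWL' X :=
  swl_of O.ost hL fun _ _ H => ⟨famx H, kl H, cmp H, nearg H, gaua H, rest H⟩

end Crest.Agent.N207.NS
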