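import Crest.Agent.N207.N.St
import Crest.Agent.N207.Lg.Flat
import Crest.Agent.N207.Lg.Alg4
import Crest.Agent.N207.N.Chi
import Crest.Agent.N207.I.Cal5
import Crest.Agent.N207.N.Har
import Crest.Agent.N207.K.Hd5
import Crest.Agent.N207.N.Gb
import Crest.Agent.N207.N.Gr0
import Crest.Agent.N207.M.Scl
import Crest.Agent.N207.I.Cal3
import Crest.Agent.N207.Ga.Met2

-- ▼ part N207/N/Dif
section

/-!
# Row 207 (helper54): leaf DIF, the difference of two reduced Ricci tensors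
-/

set_option autoImplicit false

open scoped ContDiff Topology
open Metric Set Filter Finset
open Crest.GeometryTopology.CoordMetric Crest.GeometryTopology.ChartCurvature
  Crest.GeometryTopology.MetricFamily
open Crest.Agent.N207.I Crest.Agent.N207.Lg

noncomputable section

namespace Crest.Agent.N207.NS.Df

section Jet

variable {ι : Type} [Fintype ι]

/-- the reduced Ricci tensor as a polynomial of the jets -/
def wj (g H : M2 ι ℝ) (p : M3 ι ℝ) (q : M4 ι ℝ) (β : M3 ι ℝ) (dβ : M4 ι ℝ) : M2 ι ℝ := fun i j =>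
  -(1 / 2) * lapJ H (bar3 (bar g p β) (dbar g p q β dβ) β) i j + qd H (bar g p β) i j -
    cvJ g H (rie β dβ) i j

theorem wj_q (g H : M2 ι ℝ) (p : M3 ι ℝ) (q q' : M4 ι ℝ) (β : M3 ι ℝ) (dβ : M4 ι ℝ) (i j : ι) :
    wj g H p q β dβ i j + (1 / 2) * lapJ H (q - q') i j = wj g H p q' β dβ i j := by
  have e : bar3 (bar g p β) (dbar g p q β dβ) β =
      bar3 (bar g p β) (dbar g p q' β dβ) β + (q - q') := by
    funext c d a b; simp only [bar3, dbar, Pi.add_apply, Pi.sub_apply]; ring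
  simp only [wj, e, lapJ_add, Pi.add_apply]; ring

theorem cvJ_smul (t : ℝ) (g H : M2 ι ℝ) (R : M4 ι ℝ) : cvJ g H (t • R) = t • cvJ g H R := by
  funext i j
  simp only [cvJ, Pi.smul_apply, smul_eq_mul, mul_sum]
  exact sum_congr rfl fun _ _ => sum_congr rfl fun _ _ => sum_congr rfl fun _ _ => by ring

theorem wj_hom (t : ℝ) (g H : M2 ι ℝ) (p : M3 ι ℝ) (q : M4 ι ℝ) (β : M3 ι ℝ) (dβ : M4 ι ℝ) :
    wj g H (t • p) (t ^ 2 • q) (t • β) (t ^ 2 • dβ) = t ^ 2 • wj g H p q β dβ := by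
  funext i j
  simp only [wj, bar_hom, dbar_hom, bar3_hom, rie_hom, qd_hom, lapJ_smul, cvJ_smul, Pi.smul_apply,
    smul_eq_mul]
  ring

/-- the space of jets -/
abbrev JS (ι : Type) : Type :=
  (M2 ι ℝ × M2 ι ℝ × M3 ι ℝ) × M4 ι ℝ × M2 ι ℝ × M3 ι ℝ × M4 ι ℝ

/-- `wj` with the background connection computed from its jets -/
def wz (z : JS ι) : M2 ι ℝ :=
  wj z.1.1 z.1.2.1 z.1.2.2 z.2.1 (chr z.2.2.1 z.2.2.2.1) (dG2 z.2.2.1 z.2.2.2.1 z.2.2.2.2)

theorem cl_cd {X : Type} [NormedAddCommGroup X] [NormedSpace ℝ X] :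
    Cl (fun f : X → ℝ => ContDiff ℝ 1 f) :=
  ⟨fun _ => contDiff_const, fun hf hg => hf.add hg, fun hf hg => hf.mul hg⟩

theorem cd_wz : ContDiff ℝ 1 (wz (ι := ι)) := by
  have h := cl_cd (X := JS ι)
  have h1 : P2 (fun f : JS ι → ℝ => ContDiff ℝ 1 f) fun z => z.1.1 := fun a b => by
    beta_reduce; fun_prop
  have h2 : P2 (fun f : JS ι → ℝ => ContDiff ℝ 1 f) fun z => z.1.2.1 := fun a b => by
    beta_reduce; fun_prop
  have h3 : P3 (fun f : JS ι → ℝ => ContDiff ℝ 1 f) fun z => z.1.2.2 := fun a b c => by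
    beta_reduce; fun_prop
  have h4 : P4 (fun f : JS ι → ℝ => ContDiff ℝ 1 f) fun z => z.2.1 := fun a b c d => by
    beta_reduce; fun_prop
  have h5 : P2 (fun f : JS ι → ℝ => ContDiff ℝ 1 f) fun z => z.2.2.1 := fun a b => by
    beta_reduce; fun_prop
  have h6 : P3 (fun f : JS ι → ℝ => ContDiff ℝ 1 f) fun z => z.2.2.2.1 := fun a b c => by
    beta_reduce; fun_prop
  have h7 : P4 (fun f : JS ι → ℝ => ContDiff ℝ 1 f) fun z => z.2.2.2.2 :=
    fun a b c d => by
    beta_reduce; fun_prop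
  have hβ := h.chr h5 h6
  have hd := h.dG2 h5 h6 h7
  have hT := h.bar h1 h3 hβ
  refine contDiff_pi.2 fun i => contDiff_pi.2 fun j => ?_
  exact h.sub (h.add (h.mul (h.const _) (h.lapJ h2 (h.bar3 hT (h.dbar h1 h3 h4 hβ hd) hβ) i j))
    (h.qd h2 hT i j)) (h.cvJ h1 h2 (h.rie hβ hd) i j)

theorem wz_lip (R : ℝ) : ∃ K : ℝ, 0 ≤ K ∧ ∀ z z' : JS ι, ‖z‖ ≤ R → ‖z'‖ ≤ R → ∀ i j,
    |wz z i j - wz z' i j| ≤ K * ‖z - z'‖ := by
  obtain ⟨K, hK⟩ := (cd_wz (ι := ι)).contDiffOn.exists_lipschitzOnWith one_ne_zero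
    (convex_closedBall (0 : JS ι) R) (isCompact_closedBall 0 R)
  refine ⟨K, K.2, fun z z' hz hz' i j => ?_⟩
  have := hK.dist_le_mul z (mem_closedBall_zero_iff.2 hz) z' (mem_closedBall_zero_iff.2 hz')
  rw [dist_eq_norm, dist_eq_norm] at this
  exact ((norm_le_pi_norm ((wz z - wz z') i) j).trans (norm_le_pi_norm _ i)).trans this

theorem n2_le {A : M2 ι ℝ} {c : ℝ} (hc : 0 ≤ c) (h : ∀ a b, |A a b| ≤ c) : ‖A‖ ≤ c :=
  (pi_norm_le_iff_of_nonneg hc).2 fun a => (pi_norm_le_iff_of_nonneg hc).2 fun b => h a b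

theorem n3_le {A : M3 ι ℝ} {c : ℝ} (hc : 0 ≤ c) (h : ∀ a b d, |A a b d| ≤ c) : ‖A‖ ≤ c :=
  (pi_norm_le_iff_of_nonneg hc).2 fun a => n2_le hc (h a)

theorem n4_le {A : M4 ι ℝ} {c : ℝ} (hc : 0 ≤ c) (h : ∀ a b d e, |A a b d e| ≤ c) : ‖A‖ ≤ c :=
  (pi_norm_le_iff_of_nonneg hc).2 fun a => n3_le hc (h a)

theorem up2_le {H k H' : M2 ι ℝ} {Λ δ : ℝ} (hH : ∀ a b, |H a b| ≤ Λ) (hH' : ∀ a b, |H' a b| ≤ Λ)
    (hk : ∀ a b, |k a b| ≤ δ) (i j : ι) :
    |up2 H k H' i j| ≤ (Fintype.card ι : ℝ) ^ 2 * Λ ^ 2 * δ := by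
  have h0 : 0 ≤ Λ := (abs_nonneg _).trans (hH i j)
  have h1 : 0 ≤ δ := (abs_nonneg _).trans (hk i j)
  calc |up2 H k H' i j| ≤ ∑ a, ∑ b, |H i a * k a b * H' b j| :=
        (abs_sum_le_sum_abs _ _).trans (sum_le_sum fun a _ => abs_sum_le_sum_abs _ _)
    _ ≤ ∑ _a : ι, ∑ _b : ι, Λ * δ * Λ := sum_le_sum fun a _ => sum_le_sum fun b _ => by
        rw [abs_mul, abs_mul]
        exact mul_le_mul (mul_le_mul (hH _ _) (hk _ _) (abs_nonneg _) h0) (hH' _ _) (abs_nonneg _)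
          (mul_nonneg h0 h1)
    _ = _ := by simp only [sum_const, card_univ, nsmul_eq_mul]; ring

theorem resc {X : Type} [NormedAddCommGroup X] [NormedSpace ℝ X] {t c : ℝ} (ht : 0 ≤ t)
    (hc : 0 ≤ c) {p : X} (h : ‖p‖ ≤ t * c) : t • t⁻¹ • p = p ∧ ‖t⁻¹ • p‖ ≤ c := by
  rcases ht.eq_or_lt with rfl | ht
  · have : p = 0 := norm_le_zero_iff.1 (by simpa using h)
    simp [this, hc]
  · refine ⟨smul_inv_smul₀ ht.ne' p, ?_⟩
    rw [norm_smul, norm_inv, Real.norm_of_nonneg ht.le, inv_mul_le_iff₀ ht]; exact h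

/-- the jet form of DIF -/
theorem dif_jet [DecidableEq ι] (Λ : ℝ) : ∃ C : ℝ, 0 < C ∧ ∀ (g1 g2 H1 H2 Hb : M2 ι ℝ)
    (p1 p2 pb : M3 ι ℝ) (q qb : M4 ι ℝ) (t δ : ℝ), 0 ≤ t → Iv g1 H1 → Iv g2 H2 →
    (∀ a b, |g1 a b| ≤ Λ) → (∀ a b, |g2 a b| ≤ Λ) → (∀ a b, |H1 a b| ≤ Λ) → (∀ a b, |H2 a b| ≤ Λ) →
    (∀ a b, |Hb a b| ≤ Λ) → ‖p1‖ ≤ t * Λ → ‖p2‖ ≤ t * Λ → ‖pb‖ ≤ t * Λ → ‖q‖ ≤ t ^ 2 * Λ →
    ‖qb‖ ≤ t ^ 2 * Λ → (∀ a b, |g1 a b - g2 a b| ≤ δ) → ∀ i j,
    |wj g1 H1 p1 q (chr Hb pb) (dG2 Hb pb qb) i j - wj g2 H2 p2 q (chr Hb pb) (dG2 Hb pb qb) i j| ≤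
      C * (t * ‖p1 - p2‖ + t ^ 2 * δ) := by
  obtain ⟨K, hK0, hK⟩ := wz_lip (ι := ι) Λ
  set N : ℝ := (Fintype.card ι : ℝ) ^ 2 * Λ ^ 2 with hN
  have hN0 : 0 ≤ N := by positivity
  refine ⟨(K + 1) * (N + 1), by positivity, ?_⟩
  intro g1 g2 H1 H2 Hb p1 p2 pb q qb t δ ht i1 i2 b1 b2 c1 c2 cb d1 d2 db eq eb hδ i j
  have hΛ : 0 ≤ Λ := (abs_nonneg _).trans (b1 i j)
  have hδ0 : 0 ≤ δ := (abs_nonneg _).trans (hδ i j)
  obtain ⟨r1, s1⟩ := resc ht hΛ d1
  obtain ⟨r2, s2⟩ := resc ht hΛ d2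
  obtain ⟨rb, sb⟩ := resc ht hΛ db
  obtain ⟨rq, sq⟩ := resc (sq_nonneg t) hΛ eq
  obtain ⟨rqb, sqb⟩ := resc (sq_nonneg t) hΛ eb
  have key : ∀ (g H : M2 ι ℝ) (p : M3 ι ℝ), t • t⁻¹ • p = p →
      wj g H p q (chr Hb pb) (dG2 Hb pb qb) i j =
        t ^ 2 * wz ((g, H, t⁻¹ • p), (t ^ 2)⁻¹ • q, Hb, t⁻¹ • pb, (t ^ 2)⁻¹ • qb) i j := by
    intro g H p hp
    have := congrFun (congrFun (wj_hom t g H (t⁻¹ • p) ((t ^ 2)⁻¹ • q) (chr Hb (t⁻¹ • pb))
      (dG2 Hb (t⁻¹ • pb) ((t ^ 2)⁻¹ • qb))) i) j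
    rw [hp, rq, ← chr_smul, ← dG2_hom, rb, rqb] at this
    exact this
  have nz : ∀ (g H : M2 ι ℝ) (p : M3 ι ℝ), (∀ a b, |g a b| ≤ Λ) → (∀ a b, |H a b| ≤ Λ) → ‖p‖ ≤ Λ →
      ‖(((g, H, p), (t ^ 2)⁻¹ • q, Hb, t⁻¹ • pb, (t ^ 2)⁻¹ • qb) : JS ι)‖ ≤ Λ := by
    intro g H p hg hH hp
    simp only [Prod.norm_mk, max_le_iff]
    exact ⟨⟨n2_le hΛ hg, n2_le hΛ hH, hp⟩, sq, n2_le hΛ cb, sb, sqb⟩
  have h1 := hK _ _ (nz g1 H1 _ b1 c1 s1) (nz g2 H2 _ b2 c2 s2) i j
  have h2 : ‖H1 - H2‖ ≤ N * δ := by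
    rw [inv_sub i1 i2, norm_neg]
    exact n2_le (by positivity) (up2_le c1 c2 hδ)
  have h3 : ‖g1 - g2‖ ≤ δ := n2_le hδ0 hδ
  have h4 : t ^ 2 * ‖t⁻¹ • p1 - t⁻¹ • p2‖ ≤ t * ‖p1 - p2‖ := by
    rw [← smul_sub, norm_smul, norm_inv, Real.norm_of_nonneg ht]
    rcases ht.eq_or_lt with rfl | ht
    · simp
    · apply le_of_eq; field_simp
  have h5 : ‖(((g1, H1, t⁻¹ • p1), (t ^ 2)⁻¹ • q, Hb, t⁻¹ • pb, (t ^ 2)⁻¹ • qb) : JS ι) -
      ((g2, H2, t⁻¹ • p2), (t ^ 2)⁻¹ • q, Hb, t⁻¹ • pb, (t ^ 2)⁻¹ • qb)‖ ≤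
      (N + 1) * δ + ‖t⁻¹ • p1 - t⁻¹ • p2‖ := by
    have hn := norm_nonneg (t⁻¹ • p1 - t⁻¹ • p2)
    have hNδ : 0 ≤ N * δ := by positivity
    simp only [Prod.mk_sub_mk, sub_self, Prod.norm_mk, max_le_iff, norm_zero]
    have : (N + 1) * δ = N * δ + δ := by ring
    refine ⟨⟨by linarith, by linarith, by linarith⟩, ?_⟩
    show (0 : ℝ) ≤ _; linarith
  rw [key g1 H1 p1 r1, key g2 H2 p2 r2, ← mul_sub, abs_mul, abs_of_nonneg (sq_nonneg t)]
  have h6 := mul_le_mul_of_nonneg_left (h1.trans (mul_le_mul_of_nonneg_left h5 hK0)) (sq_nonneg t)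
  have h7 : 0 ≤ t * ‖p1 - p2‖ := by positivity
  have h8 : 0 ≤ t ^ 2 * δ := by positivity
  have h9 := mul_le_mul_of_nonneg_left h4 hK0
  have h10 : 0 ≤ K * N * (t * ‖p1 - p2‖) := by positivity
  have h11 : 0 ≤ N * (t * ‖p1 - p2‖) := by positivity
  have h12 : 0 ≤ N * (t ^ 2 * δ) := by positivity
  nlinarith

end Jet

variable {n : ℕ} {f : EuclideanSpace ℝ (Fin n) → ℝ} {x : EuclideanSpace ℝ (Fin n)}

theorem abs_pd_le (c : Fin n) : |pderiv c f x| ≤ ‖iteratedFDeriv ℝ 1 f x‖ := by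
  rw [norm_iteratedFDeriv_one]
  simpa [pderiv] using (fderiv ℝ f x).le_opNorm (EuclideanSpace.single c (1 : ℝ))

theorem abs_pd2_le (hf : ContDiffAt ℝ 2 f x) (c d : Fin n) :
    |pderiv c (pderiv d f) x| ≤ ‖iteratedFDeriv ℝ 2 f x‖ := by
  refine (abs_pd_le c).trans ?_
  rw [show (2 : ℕ) = 1 + 1 from rfl, ← norm_iteratedFDeriv_fderiv (n := 1)]
  have hc : ContDiffAt ℝ (1 : ℕ) (fderiv ℝ f) x := hf.fderiv_right (by norm_num)
  have := (ContinuousLinearMap.apply ℝ ℝ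
    (EuclideanSpace.single d (1 : ℝ) : EuclideanSpace ℝ (Fin n))).norm_iteratedFDeriv_comp_left hc le_rfl
  refine le_trans (le_of_eq rfl) (this.trans (mul_le_of_le_one_left (norm_nonneg _) ?_))
  refine ContinuousLinearMap.opNorm_le_bound _ zero_le_one fun L => ?_
  simpa using L.le_opNorm (EuclideanSpace.single d (1 : ℝ))

theorem jet2_sub {K K' : MetricField n} (hK : ∀ a b, ContDiffAt ℝ 2 (fun z => K z a b) x)
    (hK' : ∀ a b, ContDiffAt ℝ 2 (fun z => K' z a b) x) :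
    jet2 (K - K') x = jet2 K x - jet2 K' x := by
  funext c d a b
  have e1 := ((hK a b).eventually (by simp)).and ((hK' a b).eventually (by simp))
  have d1 : ∀ {K : MetricField n}, ContDiffAt ℝ 2 (fun z => K z a b) x →
      DifferentiableAt ℝ (fun z => jet K z d a b) x := fun h =>
    (((h.fderiv_right (m := 1) (by norm_num)).differentiableAt one_ne_zero).clm_apply
      (differentiableAt_const _))
  rw [Pi.sub_apply, Pi.sub_apply, Pi.sub_apply, Pi.sub_apply]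
  refine Eq.trans (pd_congr c (e1.mono fun z hz => ?_)) (pd_sub c (d1 (hK a b)) (d1 (hK' a b)))
  exact pd_sub d (hz.1.differentiableAt (by norm_num)) (hz.2.differentiableAt (by norm_num))

theorem redT_wj {gb G : MetricField n} (hb : C2 gb x) (h : C2 G x) (i j : Fin n) :
    redT gb G x ![i, j] = wj (G x) (iv G x) (jet G x) (jet2 G x) (chr (iv gb x) (jet gb x))
      (dG2 (iv gb x) (jet gb x) (jet2 gb x)) i j := by
  rw [hb.redT_eq h, hb.TTG_eq h.c2, TG_eq, hb.riemann_raw, hb.dGam_eq, chr_eq]; rfl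

theorem abs_le_e0 (k : MetricField 4) (x : E4) (a b : Fin 4) : |k x a b| ≤ √(e0 k x) :=
  Real.abs_le_sqrt ((single_le_sum (f := fun b => k x a b ^ 2) (fun _ _ => sq_nonneg _)
    (mem_univ b)).trans (single_le_sum (f := fun a => ∑ b, k x a b ^ 2)
    (fun _ _ => sum_nonneg fun _ _ => sq_nonneg _) (mem_univ a)))

theorem abs_le_e1 (k : MetricField 4) (x : E4) (c a b : Fin 4) : |jet k x c a b| ≤ √(e1 k x) := by
  have h0 : ∀ a b, 0 ≤ Hd.g2 (fun y => k y a b) x := fun a b => sum_nonneg fun _ _ => sq_nonneg _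
  exact Real.abs_le_sqrt (((single_le_sum (f := fun c => pderiv c (fun y => k y a b) x ^ 2)
    (fun _ _ => sq_nonneg _) (mem_univ c)).trans
    (single_le_sum (f := fun b => Hd.g2 (fun y => k y a b) x) (fun _ _ => h0 _ _)
    (mem_univ b))).trans (single_le_sum (f := fun a => ∑ b, Hd.g2 (fun y => k y a b) x)
    (fun _ _ => sum_nonneg fun _ _ => h0 _ _) (mem_univ a)))

end Crest.Agent.N207.NS.Df

namespace Crest.Agent.N207.NS

open Df

/-- leaf DIF -/
theorem dif : DIF := by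
  intro Λ
  set Λ' : ℝ := max Λ 1 with hΛ'
  have hΛ1 : 1 ≤ Λ' := le_max_right _ _
  have hΛΛ : Λ ≤ Λ' := le_max_left _ _
  obtain ⟨C, hC, h⟩ := dif_jet (ι := Fin 4) Λ'
  refine ⟨C * Λ', by positivity, ?_⟩
  intro U b g1 g2 x r e hb h1 h2 hx hr he heΛ hH p q
  have cb := C2.of_riem hb hx
  have c1 := C2.of_riem h1 hx
  have c2 := C2.of_riem h2 hx
  have hse : √e ≤ Λ' := Real.sqrt_le_iff.2 ⟨by linarith, by nlinarith⟩
  have hs0 := Real.sqrt_nonneg e
  have hss := Real.mul_self_sqrt he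
  set t : ℝ := √e / r with ht
  have ht0 : 0 ≤ t := by positivity
  have ht2 : t ^ 2 = e / r ^ 2 := by rw [ht, div_pow, Real.sq_sqrt he]
  have j1 : ∀ H ∈ [b, g1, g2], ‖jet H x‖ ≤ t * Λ' := fun H hm =>
    n3_le (by positivity) fun c a d => by
      refine (abs_pd_le c).trans ?_
      have := (hH H hm a d).2.2.1
      rw [ht, div_mul_eq_mul_div, le_div_iff₀ hr]
      nlinarith
  have j2 : ∀ H ∈ [b, g1, g2], C2 H x → ‖jet2 H x‖ ≤ t ^ 2 * Λ' := fun H hm hc =>
    n4_le (by positivity) fun c d a a' => by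
      refine (abs_pd2_le (hc.c2 a a') c d).trans ?_
      have := (hH H hm a a').2.2.2
      rw [ht2, div_mul_eq_mul_div, le_div_iff₀ (by positivity)]
      nlinarith
  have mb : b ∈ [b, g1, g2] := by simp
  have m1 : g1 ∈ [b, g1, g2] := by simp
  have m2 : g2 ∈ [b, g1, g2] := by simp
  have k := h (g1 x) (g2 x) (iv g1 x) (iv g2 x) (iv b x) (jet g1 x) (jet g2 x) (jet b x) (jet2 g2 x)
    (jet2 b x) t (√(e0 (g1 - g2) x)) ht0 c1.iv_inv c2.iv_inv
    (fun a d => (hH g1 m1 a d).1.trans hΛΛ) (fun a d => (hH g2 m2 a d).1.trans hΛΛ)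
    (fun a d => (hH g1 m1 a d).2.1.trans hΛΛ) (fun a d => (hH g2 m2 a d).2.1.trans hΛΛ)
    (fun a d => (hH b mb a d).2.1.trans hΛΛ) (j1 g1 m1) (j1 g2 m2) (j1 b mb) (j2 g2 m2 c2)
    (j2 b mb cb) (fun a d => abs_le_e0 (g1 - g2) x a d) p q
  have e2 : ∑ i, ∑ j, (g1 x)⁻¹ i j * pderiv i (pderiv j fun y => (g1 - g2) y p q) x =
      lapJ (iv g1 x) (jet2 g1 x - jet2 g2 x) p q := by
    rw [← jet2_sub c1.c2 c2.c2]; rfl
  have e3 := wj_q (g1 x) (iv g1 x) (jet g1 x) (jet2 g1 x) (jet2 g2 x) (chr (iv b x) (jet b x))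
    (dG2 (iv b x) (jet b x) (jet2 b x)) p q
  have n1 : ‖jet g1 x - jet g2 x‖ ≤ √(e1 (g1 - g2) x) := by
    rw [← jet_sub c1.d c2.d]
    exact n3_le (Real.sqrt_nonneg _) (abs_le_e1 _ x)
  rw [e2, redT_wj cb c1, redT_wj cb c2, sub_add_eq_add_sub, e3]
  refine k.trans ?_
  have a0 := Real.sqrt_nonneg (e0 (g1 - g2) x)
  have a1 := Real.sqrt_nonneg (e1 (g1 - g2) x)
  have s1 : t * ‖jet g1 x - jet g2 x‖ ≤ Λ' * √e * (√(e1 (g1 - g2) x) / r) := by
    refine (mul_le_mul_of_nonneg_left n1 ht0).trans ?_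
    have : t * √(e1 (g1 - g2) x) = 1 * √e * (√(e1 (g1 - g2) x) / r) := by rw [ht]; ring
    rw [this]; gcongr
  have s2 : t ^ 2 * √(e0 (g1 - g2) x) ≤ Λ' * √e * (√(e0 (g1 - g2) x) / r ^ 2) := by
    have : t ^ 2 * √(e0 (g1 - g2) x) = √e * √e * (√(e0 (g1 - g2) x) / r ^ 2) := by
      rw [ht2, hss]; ring
    rw [this]; gcongr
  calc _ ≤ C * (Λ' * √e * (√(e1 (g1 - g2) x) / r) + Λ' * √e * (√(e0 (g1 - g2) x) / r ^ 2)) := by
        gcongr
    _ = _ := by ring

end Crest.Agent.N207.NS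

end
end

-- ▼ part N207/N/Loc0
section

/-!
# Row 207, block N (helper75): sections on `gl1 L` read in the charts of `core v`
-/

set_option autoImplicit false

open scoped ContDiff Topology
open Metric Set Filter
open Crest.GeometryTopology.CoordMetric
open Crest.Agent.N207.I Crest.Agent.N207.Lg Crest.Agent.N207.CB

noncomputable section

namespace Crest.Agent.N207.NS

variable {M : Type*} {T : TD M} {L : T.V → ℝ} {v w : T.V} {c : ℝ} {s : T.S} {x : E4}

/-- the dilation from the chart `s` of `core v` to the chart `s` of `glob L` -/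
def lam (L : T.V → ℝ) (v : T.V) : T.S → ℝ :=
  Sum.elim (fun _ => 1) fun w => if w = v then 1 else Real.exp (L w)

theorem lam_inl (a : T.B) : lam L v (Sum.inl a) = 1 := rfl

theorem lam_out : lam L v (Sum.inr v) = 1 := if_pos rfl

theorem lam_inn (h : w ≠ v) : lam L v (Sum.inr w) = Real.exp (L w) := if_neg h

theorem lam_pos (s : T.S) : 0 < lam L v s := by
  rcases s with a | w
  · exact one_pos
  · by_cases h : w = v
    · rw [h, lam_out]; exact one_pos
    · rw [lam_inn h]; exact Real.exp_pos _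

theorem loc_apply (k : Fam T) (s : T.S) (x : E4) : loc T L v k s x = k s (lam L v s • x) := by
  rcases s with a | w
  · rw [lam_inl, one_smul]; rfl
  · by_cases h : w = v
    · rw [h, lam_out, one_smul]; exact if_pos rfl
    · rw [lam_inn h]; exact if_neg h

theorem mem_cU1_inl {a : T.B} : x ∈ cU1 T v c (Sum.inl a) ↔ T.vx a = v ∧ ‖x‖ < 25 / 16 := by
  by_cases h : T.vx a = v <;> simp [cU1, h]

theorem mem_cU1_out : x ∈ cU1 T v c (Sum.inr v) ↔ 45 / 32 < ‖x‖ ∧ ‖x‖ < Real.exp (c + 1) := by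
  simp [cU1]

theorem mem_cU1_inn (h : w ≠ v) : x ∈ cU1 T v c (Sum.inr w) ↔
    T.kid v w ∧ Real.exp (-(c + 1)) < ‖x‖ ∧ ‖x‖ < 25 / 32 * T.r := by
  by_cases hk : T.kid v w <;> simp only [cU1, Sum.elim_inr, h, hk, if_true, if_false,
    mem_ofPred_eq, mem_empty_iff_false, true_and, false_and]

theorem cU1_open (s : T.S) : IsOpen (cU1 T v c s) := by
  have h1 : ∀ a b : ℝ, IsOpen {x : E4 | a < ‖x‖ ∧ ‖x‖ < b} := fun a b =>
    (isOpen_lt continuous_const continuous_norm).inter (isOpen_lt continuous_norm continuous_const)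
  rcases s with a | w <;> simp only [cU1, Sum.elim_inl, Sum.elim_inr] <;> split_ifs
  exacts [isOpen_ball, isOpen_empty, h1 _ _, h1 _ _, isOpen_empty]

theorem cU1_sub (h : T.Ok) (s : T.S) : cU1 T v c s ⊆ (T.core v).U s := fun x hx => by
  rcases s with a | w
  · rw [mem_cU1_inl] at hx
    exact TD.mem_core_inl.2 ⟨hx.1, by linarith [hx.2]⟩
  · by_cases hw : w = v
    · subst hw
      exact TD.mem_core_out.2 (by linarith [(mem_cU1_out.1 hx).1])
    · rw [mem_cU1_inn hw] at hx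
      exact (TD.mem_core_inn hw).2 ⟨hx.1, (Real.exp_pos _).trans hx.2.1,
        by linarith [hx.2.2, h.r_pos]⟩

theorem cU1_ok (h : T.Ok) (v : T.V) (c : ℝ) : Atl.Ok { T.core v with U := cU1 T v c } :=
  Ga.res_ok (h.core_ok v) cU1_open (cU1_sub h) fun s γ _ x hx => by
    rcases s with a | w
    · rw [mem_cU1_inl] at hx ⊢; rwa [γ.norm_map]
    · by_cases hw : w = v
      · subst hw; rw [mem_cU1_out] at hx ⊢; rwa [γ.norm_map]
      · rw [mem_cU1_inn hw] at hx ⊢; rwa [γ.norm_map]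

/-- the scales match -/
theorem ep_lam (h : T.Ok) (hx : x ∈ cU1 T v c s) : ep T L s * lam L v s = T.eps L v := by
  rcases s with a | w
  · rw [lam_inl, mul_one, ← (mem_cU1_inl.1 hx).1]; rfl
  · by_cases hw : w = v
    · rw [hw, lam_out, mul_one]; rfl
    · obtain ⟨⟨h1, h2⟩, -⟩ := (mem_cU1_inn hw).1 hx
      rw [lam_inn hw, ← h2]
      show T.eps L w * _ = _
      rw [h.eps_kid L h1, mul_assoc, ← Real.exp_add, neg_add_cancel, Real.exp_zero, mul_one]

theorem orb_smul (w : T.V) (a : ℝ) (x : E4) :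
    T.orb w (a • x) = (fun y => a • y) '' T.orb w x := by
  ext y
  constructor
  · rintro ⟨γ, hγ, rfl⟩
    exact ⟨γ x, ⟨γ, hγ, rfl⟩, (map_smul γ a x).symm⟩
  · rintro ⟨_, ⟨γ, hγ, rfl⟩, rfl⟩
    exact ⟨γ, hγ, map_smul γ a x⟩

/-- the map of the carriers -/
def car (L : T.V → ℝ) (v : T.V) : T.Car → T.Car :=
  Sum.elim Sum.inl fun p => Sum.inr (p.1, (fun y => lam L v (Sum.inr p.1) • y) '' p.2)

section

variable (h : T.Ok) (hL : ∀ w, w ≠ T.root → 16 + 4 * Real.exp (c + 1) ≤ T.r * Real.exp (L w))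
include h hL

theorem four_le (hw : w ≠ T.root) (hx : Real.exp (-(c + 1)) < ‖x‖) :
    4 ≤ ‖Real.exp (L w) • x‖ := by
  have h1 := hL w hw
  have h2 : Real.exp (c + 1) * Real.exp (-(c + 1)) = 1 := by rw [← Real.exp_add]; simp
  have h3 := Real.exp_pos (L w)
  have h4 := Real.exp_pos (-(c + 1))
  have h5 : 4 * Real.exp (c + 1) ≤ Real.exp (L w) := by nlinarith [h.r_lt]
  rw [norm_smul, Real.norm_of_nonneg h3.le]
  nlinarith

theorem loc_maps (hx : x ∈ cU1 T v c s) : lam L v s • x ∈ U1 T L s := by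
  rcases s with a | w
  · rw [lam_inl, one_smul, mem_U1_inl]; exact (mem_cU1_inl.1 hx).2
  · by_cases hw : w = v
    · subst hw
      rw [lam_out, one_smul]
      obtain ⟨h1, h2⟩ := mem_cU1_out.1 hx
      exact ⟨h1, fun h3 => by linarith [hL w h3, Real.exp_pos (c + 1)]⟩
    · obtain ⟨h1, h2, h3⟩ := (mem_cU1_inn hw).1 hx
      rw [lam_inn hw]
      refine ⟨by linarith [four_le h hL h1.1 h2], fun _ => ?_⟩
      rw [norm_smul, Real.norm_of_nonneg (Real.exp_pos _).le, mul_comm]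
      exact mul_lt_mul_of_pos_right h3 (Real.exp_pos _)

theorem loc_car (hx : x ∈ cU1 T v c s) :
    (T.glob L).c s (lam L v s • x) = car L v ((T.core v).c s x) := by
  rcases s with a | w
  · rw [lam_inl, one_smul]; rfl
  · by_cases hw : w = v
    · subst hw
      obtain ⟨h1, h2⟩ := mem_cU1_out.1 hx
      rw [lam_out, one_smul, TD.glob_eq_out fun h3 => by linarith [hL w h3], TD.core_c_out]
      split_ifs
      · rfl
      · simp [car, lam_out]
    · obtain ⟨h1, h2, h3⟩ := (mem_cU1_inn hw).1 hx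
      have e : Real.exp (-L w) • Real.exp (L w) • x = x := by
        rw [smul_smul, ← Real.exp_add, neg_add_cancel, Real.exp_zero, one_smul]
      rw [lam_inn hw, TD.glob_c_inr, if_neg (not_lt.2 (four_le h hL h1.1 h2)), e,
        TD.core_c_inn hw, h1.2]
      by_cases h4 : T.r / 4 < ‖x‖
      · rw [if_pos ⟨h1.1, h4⟩, if_pos h4]; rfl
      · rw [if_neg fun h5 => h4 h5.2, if_neg h4, orb_smul, ← lam_inn hw]; rfl

theorem loc_mor (v : T.V) :
    Atl.Mor { T.core v with U := cU1 T v c } (gl1 T L) id fun s x => lam L v s • x := by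
  refine ⟨fun s x hx => loc_maps h hL hx, fun s => (contDiff_const_smul _).contDiffOn,
    fun s x _ => ?_, fun s t x hx y hy e => ?_⟩
  · rw [show fderiv ℝ (fun z : E4 => lam L v s • z) x = _ from
      ((hasFDerivAt_id x).const_smul (lam L v s)).fderiv]
    exact smul_right_injective _ (lam_pos s).ne'
  · exact (loc_car h hL hx).trans ((congrArg (car L v) e).trans (loc_car h hL hy).symm)

end

theorem pullT_dil (a : ℝ) (H : MetricField 4) (y : E4) :
    pullT (fun z => a • z) (matT H) y = a ^ 2 • matT (fun z => H (a • z)) y := by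
  have h1 : fderiv ℝ (fun z : E4 => a • z) y = a • ContinuousLinearMap.id ℝ E4 :=
    ((hasFDerivAt_id y).const_smul a).fderiv
  funext I
  rw [pullT, AI.evT_two]
  simp only [h1, matT, smul_apply, ContinuousLinearMap.id_apply,
    PiLp.smul_apply, PiLp.single_apply, smul_eq_mul, mul_ite, ite_mul, mul_one, mul_zero, zero_mul,
    Finset.sum_ite_eq', Finset.mem_univ, if_true, Pi.smul_apply, Matrix.cons_val_zero,
    Matrix.cons_val_one]
  ring

theorem lng_loc (h : T.Ok) (hL : Lng T ((16 + 4 * Real.exp (c + 1)) / T.r) L) :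
    ∀ w, w ≠ T.root → 16 + 4 * Real.exp (c + 1) ≤ T.r * Real.exp (L w) :=
  fun _ hw => lng_exp h hL hw

/-- **the dictionary** -/
theorem loc_sec (h : T.Ok) (c : ℝ) : ∃ T1 : ℝ, ∀ L, Lng T T1 L → ∀ k : Fam T,
    (gl1 T L).Sec (fun s => matT (rt T L k s)) → ∀ v,
      Atl.Sec { T.core v with U := cU1 T v c } fun s => matT (loc T L v k s) := by
  refine ⟨(16 + 4 * Real.exp (c + 1)) / T.r, fun L hL k hk v => ?_⟩
  have h1 := lng_loc h hL
  have h2 : T.Long L := fun w hw => by linarith [h1 w hw, Real.exp_pos (c + 1)]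
  refine ((((loc_mor h h1 v).sec (cU1_ok h v c) (gl1_ok h h2) hk).smul
    (T.eps L v ^ 2)⁻¹)).congr fun s x hx => ?_
  have h3 := (TD.eps_pos L v).ne'
  rw [Pi.smul_apply, Pi.smul_apply, pullT_dil, smul_smul]
  funext I
  simp only [matT, rt, loc_apply, Pi.smul_apply, Matrix.smul_apply, smul_eq_mul, id]
  rw [← ep_lam h hx] at h3 ⊢
  have := left_ne_zero_of_mul h3
  have := right_ne_zero_of_mul h3
  field_simp

end Crest.Agent.N207.NS

end
end

-- ▼ part N207/N/Locg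
section

/-!
# Row 207, block N (helper34): the leaf `LOCG`
-/

set_option autoImplicit false

open scoped ContDiff Topology Pointwise
open Metric Set Filter MeasureTheory
open Crest.GeometryTopology.CoordMetric
open Crest.Agent.N207.I Crest.Agent.N207.Lg Crest.Agent.N207.CB

noncomputable section

namespace Crest.Agent.N207.NS

namespace Lc

theorem int_smul (f : E4 → ℝ) {t : ℝ} (ht : 0 < t) (S : Set E4) :
    ∫ x in t • S, f x = t ^ 4 * ∫ y in S, f (t • y) := by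
  rw [Measure.setIntegral_comp_smul_of_pos volume f S ht, finrank_euclideanSpace_fin, smul_eq_mul,
    mul_inv_cancel_left₀ (by positivity)]

theorem int_le {f g : E4 → ℝ} {A B : Set E4} (hA : MeasurableSet A) (hAB : A ⊆ B)
    (hg : IntegrableOn g B) (h0 : ∀ x, 0 ≤ f x) (h1 : ∀ x, 0 ≤ g x) (h : ∀ x ∈ A, f x ≤ g x) :
    ∫ x in A, f x ≤ ∫ x in B, g x :=
  (integral_mono_of_nonneg (Eventually.of_forall h0) (hg.mono_set hAB)
    (ae_restrict_of_forall_mem hA h)).trans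
    (setIntegral_mono_set hg (Eventually.of_forall h1) hAB.eventuallyLE)

theorem int_un {f : E4 → ℝ} {S A B : Set E4} (h : S ⊆ A ∪ B) (hA : IntegrableOn f A)
    (hB : IntegrableOn f B) (h0 : ∀ x, 0 ≤ f x) : ∫ x in S, f x ≤ (∫ x in A, f x) + ∫ x in B, f x := by
  rw [← integral_add_measure hA hB]
  exact integral_mono_measure ((Measure.restrict_mono h le_rfl).trans (Measure.restrict_union_le _ _))
    (Eventually.of_forall h0) (Integrable.add_measure hA hB)

theorem cont_e0 {k : MetricField 4} {U : Set E4} (hk : ∀ a b, ContDiffOn ℝ ∞ (fun y => k y a b) U) :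
    ContinuousOn (e0 k) U :=
  continuousOn_finsetSum _ fun a _ => continuousOn_finsetSum _ fun b _ =>
    (hk a b).continuousOn.pow 2

/-- the estimate in one chart, after a dilation by `t` -/
theorem key {t a b η P : ℝ} {k : MetricField 4} {ρ : E4 → ℝ} {A K U S0 S1 : Set E4} (ht : 0 < t)
    (ha : 0 ≤ a) (hb : 1 ≤ b) (hη : 0 ≤ η) (hU : IsOpen U) (hKU : K ⊆ U)
    (hk : ∀ a b, ContDiffOn ℝ ∞ (fun y => k y a b) U) (hρ : ∀ x ∈ K, 0 < ρ x)
    (hF : IntegrableOn (fun x => e1 k x + e0 k x / ρ x ^ 2) K) (hA : MeasurableSet A)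
    (hS : MeasurableSet S1) (h01 : S0 ⊆ S1) (h0 : ∀ x ∈ A, t⁻¹ • x ∈ S0 ∧ t ^ 2 ≤ a * ρ x ^ 2)
    (h1 : ∀ y ∈ S1, t • y ∈ K ∧ ρ (t • y) ^ 2 ≤ b * t ^ 2)
    (hl : ∫ y in S0, e0 (fun y => k (t • y)) y ≤ η * (∫ y in S1,
      (e1 (fun y => k (t • y)) y + e0 (fun y => k (t • y)) y)) + P) :
    ∫ x in A, e0 k x / ρ x ^ 2 ≤
      a * (b * η * (∫ x in K, (e1 k x + e0 k x / ρ x ^ 2)) + t ^ 2 * P) := by
  have sub : t • S1 ⊆ K := by
    rintro _ ⟨y, hy, rfl⟩
    exact (h1 y hy).1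
  have mS : MeasurableSet (t • S1) := hS.const_smul₀ t
  have t2 : 0 < t ^ 2 := by positivity
  have nn : ∀ x, 0 ≤ e1 k x + e0 k x / ρ x ^ 2 := fun x =>
    add_nonneg (Hr.e1_nn k x) (div_nonneg (Hr.e0_nn k x) (sq_nonneg _))
  have dom : ∀ x ∈ t • S1, t ^ 2 * e1 k x + e0 k x ≤ b * t ^ 2 * (e1 k x + e0 k x / ρ x ^ 2) := by
    rintro _ ⟨y, hy, rfl⟩
    obtain ⟨a1, a2⟩ := h1 y hy
    have p := pow_pos (hρ _ a1) 2
    have q : e0 k (t • y) ≤ b * t ^ 2 * (e0 k (t • y) / ρ (t • y) ^ 2) := by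
      rw [mul_div_assoc', le_div_iff₀ p, mul_comm]
      exact mul_le_mul_of_nonneg_right a2 (Hr.e0_nn _ _)
    have r := mul_le_mul_of_nonneg_right hb (mul_nonneg t2.le (Hr.e1_nn k (t • y)))
    dsimp only
    nlinarith
  have i0 : IntegrableOn (e0 k) (t • S1) :=
    Integrable.mono' ((hF.mono_set sub).const_mul (b * t ^ 2))
      (((cont_e0 hk).mono (sub.trans hKU)).aestronglyMeasurable mS)
      (ae_restrict_of_forall_mem mS fun x hx => by
        rw [Real.norm_of_nonneg (Hr.e0_nn k x)]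
        nlinarith [dom x hx, mul_nonneg t2.le (Hr.e1_nn k x)])
  have sA : A ⊆ t • S0 := fun x hx => ⟨_, (h0 x hx).1, smul_inv_smul₀ ht.ne' x⟩
  have s1 : ∫ x in A, e0 k x / ρ x ^ 2 ≤ ∫ x in t • S0, a / t ^ 2 * e0 k x :=
    int_le hA sA ((i0.mono_set (smul_set_mono h01)).const_mul _)
      (fun x => div_nonneg (Hr.e0_nn k x) (sq_nonneg _))
      (fun x => mul_nonneg (by positivity) (Hr.e0_nn k x)) fun x hx => by
        have p := pow_pos (hρ _ (sub (smul_set_mono h01 (sA hx)))) 2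
        rw [div_mul_eq_mul_div, div_le_div_iff₀ p t2]
        nlinarith [mul_le_mul_of_nonneg_left (h0 x hx).2 (Hr.e0_nn k x)]
  have s2 : t ^ 4 * ∫ y in S1, (e1 (fun y => k (t • y)) y + e0 (fun y => k (t • y)) y) =
      ∫ x in t • S1, (t ^ 2 * e1 k x + e0 k x) := by
    rw [int_smul _ ht]
    refine congrArg _ (setIntegral_congr_fun hS fun y hy => ?_)
    refine congrArg₂ _ ?_ rfl
    simp only [e1, Finset.mul_sum]
    refine Finset.sum_congr rfl fun p _ => Finset.sum_congr rfl fun q _ => ?_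
    have := Hd.g2_affine (u := fun y => k y p q) 0 t (z := y) (by
      rw [zero_add]
      exact ((hk p q).contDiffAt (hU.mem_nhds (hKU (h1 y hy).1))).differentiableAt (by simp))
    simpa only [zero_add] using this
  have s3 : ∫ x in t • S1, (t ^ 2 * e1 k x + e0 k x) ≤
      ∫ x in K, b * t ^ 2 * (e1 k x + e0 k x / ρ x ^ 2) :=
    int_le mS sub (hF.const_mul _)
      (fun x => add_nonneg (mul_nonneg t2.le (Hr.e1_nn k x)) (Hr.e0_nn k x))
      (fun x => mul_nonneg (by positivity) (nn x)) dom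
  rw [integral_const_mul] at s1 s3
  rw [int_smul _ ht] at s1
  rw [← s2] at s3
  change ∫ y in S0, e0 k (t • y) ≤ _ at hl
  refine s1.trans ?_
  have e : ∀ z : ℝ, a / t ^ 2 * (t ^ 4 * z) = a * (t ^ 2 * z) := fun z => by field_simp
  rw [e]
  refine mul_le_mul_of_nonneg_left ((mul_le_mul_of_nonneg_left hl t2.le).trans ?_) ha
  have s4 : t ^ 2 * (t ^ 2 * ∫ y in S1, (e1 (fun y => k (t • y)) y + e0 (fun y => k (t • y)) y)) ≤
      t ^ 2 * (b * ∫ x in K, (e1 k x + e0 k x / ρ x ^ 2)) := by linarith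
  have s5 := mul_le_mul_of_nonneg_left (le_of_mul_le_mul_left s4 t2) hη
  linarith

variable {M : Type*} {T : TD M} {L : T.V → ℝ} {v : T.V} {c : ℝ}

/-- the dilation from the chart `s` of `core v` to the chart `s` of `glob L` -/
def dl (L : T.V → ℝ) (v : T.V) : T.S → ℝ :=
  Sum.elim (fun _ => 1) fun w => if w = v then 1 else Real.exp (L w)

theorem dl_pos (s : T.S) : 0 < dl L v s := by
  cases s with
  | inl a => exact one_pos
  | inr w => simp only [dl, Sum.elim_inr]; split_ifs; exacts [one_pos, Real.exp_pos _]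

theorem loc_eq (k : Fam T) (s : T.S) : loc T L v k s = fun y => k s (dl L v s • y) := by
  funext y
  cases s with
  | inl a => simp [loc, dl]
  | inr w => simp only [loc, dl, Sum.elim_inr]; split_ifs <;> simp

theorem nrm_e (t : ℝ) (x : E4) : ‖Real.exp t • x‖ = Real.exp t * ‖x‖ := by
  rw [norm_smul, Real.norm_of_nonneg (Real.exp_pos _).le]

theorem far (h : T.Ok) (hL : ∀ w, w ≠ T.root → 4 * Real.exp (c + 1) ≤ T.r * Real.exp (L w))
    {w : T.V} (hw : w ≠ T.root) : 4 ≤ Real.exp (L w) * Real.exp (-(c + 1)) := by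
  rw [Real.exp_neg, ← div_eq_mul_inv, le_div_iff₀ (Real.exp_pos _)]
  nlinarith [hL w hw, h.r_lt, Real.exp_pos (L w)]

theorem mem_U1 (h : T.Ok) (hL : ∀ w, w ≠ T.root → 4 * Real.exp (c + 1) ≤ T.r * Real.exp (L w))
    (s : T.S) {x : E4} (hx : x ∈ cU1 T v c s) : dl L v s • x ∈ U1 T L s := by
  cases s with
  | inl a =>
    simp only [cU1, dl, Sum.elim_inl, one_smul] at hx ⊢
    split_ifs at hx
    exacts [hx, hx.elim]
  | inr w =>
    simp only [cU1, dl, Sum.elim_inr] at hx ⊢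
    split_ifs at hx ⊢ with h1 h2
    · rw [one_smul]
      exact ⟨hx.1, fun hw => by nlinarith [hL w hw, hx.2, Real.exp_pos (c + 1)]⟩
    · have p := Real.exp_pos (L w)
      have q := far h hL h2.1
      exact ⟨by rw [nrm_e]; nlinarith [hx.1], fun _ => by rw [nrm_e]; nlinarith [hx.2]⟩
    · exact hx.elim

theorem mem_K1 (h : T.Ok) (hc : 0 ≤ c)
    (hL : ∀ w, w ≠ T.root → 4 * Real.exp (c + 1) ≤ T.r * Real.exp (L w)) (s : T.S) {y : E4}
    (hy : y ∈ cK1 T v (c + 1) s) : dl L v s • y ∈ K1 T L s ∧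
      scl T s (dl L v s • y) ^ 2 ≤ Real.exp (c + 1) ^ 2 * dl L v s ^ 2 := by
  have o : 1 ≤ Real.exp (c + 1) := Real.one_le_exp (by linarith)
  cases s with
  | inl a =>
    simp only [cK1, dl, scl, Sum.elim_inl, one_smul] at hy ⊢
    split_ifs at hy
    exacts [⟨hy, by nlinarith⟩, hy.elim]
  | inr w =>
    simp only [cK1, dl, scl, Sum.elim_inr] at hy ⊢
    split_ifs at hy ⊢ with h1 h2
    · rw [one_smul, one_pow, mul_one]
      exact ⟨⟨hy.1, fun hw => by nlinarith [hL w hw, hy.2]⟩,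
        pow_le_pow_left₀ (norm_nonneg _) hy.2 2⟩
    · have p := Real.exp_pos (L w)
      have q := far h hL h2.1
      refine ⟨⟨by rw [nrm_e]; nlinarith [hy.1], fun _ => by rw [nrm_e]; nlinarith [hy.2]⟩, ?_⟩
      rw [nrm_e, ← mul_pow, mul_comm]
      exact pow_le_pow_left₀ (by positivity)
        (mul_le_mul_of_nonneg_right (by linarith [hy.2, h.r_lt, h.r_pos]) p.le) 2
    · exact hy.elim

theorem meas_cK1 (s : T.S) : MeasurableSet (cK1 T v c s) := by
  cases s with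
  | inl a =>
    simp only [cK1, Sum.elim_inl]
    split_ifs
    exacts [measurableSet_closedBall, MeasurableSet.empty]
  | inr w =>
    simp only [cK1, Sum.elim_inr]
    split_ifs
    exacts [(Hd.isCompact_An _ _).measurableSet, (Hd.isCompact_An _ _).measurableSet,
      MeasurableSet.empty]

theorem cK_sub (s : T.S) : cK0 T v c s ⊆ cK1 T v (c + 1) s := fun x hx => by
  have hx := hx.2
  cases s with
  | inl a => exact hx
  | inr w =>
    simp only [cK1, Sum.elim_inr] at hx ⊢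
    split_ifs at hx ⊢
    · exact ⟨hx.1, hx.2.trans (Real.exp_le_exp.2 (by linarith))⟩
    · exact ⟨(Real.exp_le_exp.2 (by linarith)).trans hx.1, hx.2⟩
    · exact hx

theorem mem_cK0 (h : T.Ok) (hc : 0 ≤ c) (s : T.S) {x : E4} (hx : x ∈ T.gK L s)
    (hi : InK T L v c s x) : ep T L s * dl L v s = T.eps L v ∧ (dl L v s)⁻¹ • x ∈ cK0 T v c s ∧
      dl L v s ^ 2 ≤ Real.exp c ^ 2 * scl T s x ^ 2 := by
  have o : 1 ≤ Real.exp c := Real.one_le_exp hc
  cases s with
  | inl a =>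
    have e : T.vx a = v := hi
    have := TD.mem_gK_inl.1 hx
    simp only [cK0, cK1, TD.cK, dl, scl, ep, TD.un, Sum.elim_inl, inv_one, one_smul, e, if_true,
      mul_one, one_pow, mem_inter_iff, mem_closedBall_zero_iff]
    exact ⟨trivial, ⟨this, by linarith⟩, by nlinarith⟩
  | inr w =>
    have x1 := hx.1
    rcases hi with ⟨rfl, hi⟩ | ⟨hk, hi⟩
    · simp only [cK0, cK1, TD.cK, dl, scl, ep, TD.un, Sum.elim_inr, inv_one, one_smul, if_true,
        mul_one, one_pow, mem_inter_iff, mem_ofPred_eq, id]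
      refine ⟨trivial, ⟨x1, by linarith, (Real.log_le_iff_le_exp (by linarith)).1 hi⟩, ?_⟩
      rw [← mul_pow]
      exact one_le_pow₀ (by nlinarith)
    · have hw := h.kid_ne hk
      have p := Real.exp_pos (L w)
      have h2 : 0 < ‖Real.exp (-L w) • x‖ := by rw [TD.nrm_exp]; exact div_pos (by linarith) p
      have h3 : Real.exp (-c) ≤ ‖Real.exp (-L w) • x‖ := (Real.le_log_iff_exp_le h2).1 (by linarith)
      have h4 := TD.nrm_exp_le.2 (hx.2 hk.1)
      simp only [cK0, cK1, TD.cK, dl, scl, ep, TD.un, Sum.elim_inr, if_neg hw, if_pos hk,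
        mem_inter_iff, mem_ofPred_eq, id, ← Real.exp_neg]
      refine ⟨?_, ⟨⟨h2, h4⟩, h3, by linarith [h.r_pos]⟩, ?_⟩
      · rw [h.eps_kid L hk.1, hk.2, mul_assoc, ← Real.exp_add, neg_add_cancel, Real.exp_zero, mul_one]
      · rw [TD.nrm_exp, Real.exp_neg, inv_le_iff_one_le_mul₀' (Real.exp_pos _), mul_div_assoc',
          one_le_div p] at h3
        rw [← mul_pow]
        exact pow_le_pow_left₀ p.le h3 2

theorem cor_sub (s : T.S) : T.gK L s ∩ Cor T L c s ⊆ T.gK L s ∩ {x | InK T L (T.un s) c s x} ∪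
    T.gK L s ∩ {x | InK T L (T.par (T.un s)) c s x} := by
  rintro x ⟨hx, v, hv⟩
  cases s with
  | inl a => exact Or.inl ⟨hx, rfl⟩
  | inr w =>
    rcases hv with ⟨rfl, hv⟩ | ⟨hk, hv⟩
    exacts [Or.inl ⟨hx, Or.inl ⟨rfl, hv⟩⟩, Or.inr ⟨hx, Or.inr ⟨⟨hk.1, rfl⟩, hv⟩⟩]

end Lc

open Lc in
/-- **leaf LOCG** -/
theorem locg' {M : Type*} {T : TD M} {g : T.V → Fam T} (h : T.Ok) :
    LOCG T g := fun κ _ _ ψ c η C hc hη G => by
  obtain ⟨T2, hS⟩ := loc_sec h (c + 1)
  refine ⟨2 * Fintype.card T.S * (Real.exp c ^ 2 * |C|) + 1,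
    max T2 (4 * Real.exp (c + 1 + 1) / T.r), by positivity, fun L hL k k1 k2 k3 => ?_⟩
  have l2 : Lng T T2 L := fun w hw => (le_max_left _ _).trans (hL w hw)
  have l3 : ∀ w, w ≠ T.root → 4 * Real.exp (c + 1 + 1) ≤ T.r * Real.exp (L w) := fun w hw =>
    lng_exp h (fun w hw => (le_max_right _ _).trans (hL w hw)) hw
  have l4 : ∀ w, w ≠ T.root → 4 * Real.exp (c + 1) ≤ T.r * Real.exp (L w) := fun w hw =>
    le_trans (by gcongr; linarith) (l3 w hw)
  have sm : ∀ s a b, ContDiffOn ℝ ∞ (fun y => k s y a b) (U1 T L s) := fun s a b =>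
    ((k1.sm s ![a, b]).const_smul (ep T L s ^ 2)⁻¹).congr fun y _ => by
      have := TD.eps_pos L (T.un s)
      simp only [matT, rt, Matrix.smul_apply, smul_eq_mul, Matrix.cons_val_zero, Matrix.cons_val_one]
      field_simp
  have int := Hr.int_K1 h (fun s a b => (sm s a b).of_le (by simp)) k3
  have ρ1 : ∀ s, ∀ x ∈ U1 T L s, 0 < scl T s x := fun s x hx =>
    one_pos.trans_le (one_le_scl s (U1_U h s hx))
  set Q := ∑ j : Σ v, κ v, T.eps L j.1 ^ 2 * pair T g j.1 (ψ j.1 j.2) (loc T L j.1 k) ^ 2 with hQ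
  have q0 : 0 ≤ Q := by positivity
  have q1 : ∀ v, T.eps L v ^ 2 * ∑ j, pair T g v (ψ v j) (loc T L v k) ^ 2 ≤ Q := fun v => by
    rw [hQ, Fintype.sum_sigma, Finset.mul_sum]
    exact Finset.single_le_sum (f := fun v => ∑ j, T.eps L v ^ 2 *
      pair T g v (ψ v j) (loc T L v k) ^ 2) (fun _ _ => by positivity) (Finset.mem_univ v)
  have f0 : ∀ s x, 0 ≤ e0 (k s) x / scl T s x ^ 2 := fun s x =>
    div_nonneg (Hr.e0_nn _ _) (sq_nonneg _)
  have one : ∀ v s, ep T L s ^ 2 * ∫ x in T.gK L s ∩ {x | InK T L v c s x},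
      e0 (k s) x / scl T s x ^ 2 ≤ Real.exp (4 * c + 2) * η * (ep T L s ^ 2 *
        ∫ x in K1 T L s, (e1 (k s) x + e0 (k s) x / scl T s x ^ 2)) + Real.exp c ^ 2 * |C| * Q := by
    intro v s
    have n : 0 ≤ ∫ x in K1 T L s, (e1 (k s) x + e0 (k s) x / scl T s x ^ 2) :=
      integral_nonneg fun x => add_nonneg (Hr.e1_nn _ _) (f0 s x)
    rcases (T.gK L s ∩ {x | InK T L v c s x}).eq_empty_or_nonempty with e | ⟨x0, hx0⟩
    · rw [e, setIntegral_empty, mul_zero]; positivity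
    have hl := G.loc v (loc T L v k) (hS L l2 k k1 v)
      (fun s x hx => by rw [loc_eq]; exact k2 s _ (mem_U1 h l3 s hx)) s
    rw [loc_eq] at hl
    have := mul_le_mul_of_nonneg_left (key (a := Real.exp c ^ 2) (b := Real.exp (c + 1) ^ 2)
      (dl_pos s) (sq_nonneg _) (one_le_pow₀ (Real.one_le_exp (by linarith))) hη (U1_open s)
      (K1_U1 h s) (sm s) (fun x hx => ρ1 s x (K1_U1 h s hx)) ((int s).1.add (int s).2)
      ((gK_closed s).measurableSet.inter (meas_InK v c s)) (meas_cK1 s) (cK_sub s)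
      (fun x hx => (mem_cK0 h (by linarith) s hx.1 hx.2).2)
      (fun y hy => mem_K1 h (by linarith) l4 s hy) hl) (sq_nonneg (ep T L s))
    refine this.trans ?_
    have e1 : Real.exp (4 * c + 2) = Real.exp c ^ 2 * Real.exp (c + 1) ^ 2 := by
      rw [← mul_pow, ← Real.exp_add, ← Real.exp_nat_mul]; congr 1; push_cast; ring
    have e2 := (mem_cK0 h (by linarith) s hx0.1 hx0.2).1
    have e3 := mul_le_mul (le_abs_self C) (q1 v) (by positivity) (abs_nonneg C)
    have e4 := mul_le_mul_of_nonneg_left e3 (sq_nonneg (Real.exp c))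
    rw [e1]
    rw [← e2] at e4
    nlinarith
  have two : Zc T L c k ≤ ∑ s, 2 * (Real.exp (4 * c + 2) * η * (ep T L s ^ 2 *
      ∫ x in K1 T L s, (e1 (k s) x + e0 (k s) x / scl T s x ^ 2)) + Real.exp c ^ 2 * |C| * Q) :=
    Finset.sum_le_sum fun s _ => by
      have i := fun v => (int s).2.mono_set
        ((inter_subset_left (t := {x | InK T L v c s x})).trans (gK_K1 h s))
      have := mul_le_mul_of_nonneg_left (int_un (cor_sub (c := c) s) (i _) (i _) (f0 s))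
        (sq_nonneg (ep T L s))
      linarith [one (T.un s) s, one (T.par (T.un s)) s]
  rw [← Finset.mul_sum, Finset.sum_add_distrib, ← Finset.mul_sum, Finset.sum_const,
    Finset.card_univ, nsmul_eq_mul] at two
  unfold En
  nlinarith

theorem locg {M : Type*} {T : TD M} {g : T.V → Fam T} (h : Std T g) : LOCG T g := locg' h.ok

end Crest.Agent.N207.NS

end
end

-- ▼ part N207/N/Xc
section

/-!
# Row 207, block N (helper98): the leaf `XC`
-/

set_option autoImplicit false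

open scoped ContDiff Topology
open Metric Set Filter MeasureTheory
open Crest.GeometryTopology.CoordMetric Crest.Agent.R202.Tens
open Crest.Agent.N207.I Crest.Agent.N207.Lg Crest.Agent.N207.CB

noncomputable section

namespace Crest.Agent.N207.NS

namespace Xc

theorem ipA_up {k : ℕ} {H : Matrix (Fin 4) (Fin 4) ℝ} {Λ : ℝ} (h : ∀ p q, |H p q| ≤ Λ)
    (B : Arr 4 k) : ipA H B B ≤ (4 * Λ) ^ k * ∑ I, B I ^ 2 := by
  have h1 : ∀ I J : Fin k → Fin 4, (∏ s, H (I s) (J s)) * (B I * B J) ≤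
      Λ ^ k * (B I ^ 2 / 2 + B J ^ 2 / 2) := fun I J => by
    have a1 : |∏ s, H (I s) (J s)| ≤ Λ ^ k := by
      rw [Finset.abs_prod]
      simpa using Finset.prod_le_prod (s := Finset.univ) (fun s _ => abs_nonneg (H (I s) (J s)))
        fun s _ => h (I s) (J s)
    refine (le_abs_self _).trans ((abs_mul _ _).trans_le (mul_le_mul a1 (abs_le.2 ⟨?_, ?_⟩)
      (abs_nonneg _) ((abs_nonneg _).trans a1)))
    · nlinarith [sq_nonneg (B I + B J)]
    · nlinarith [sq_nonneg (B I - B J)]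
  refine (Finset.sum_le_sum fun I _ => Finset.sum_le_sum fun J _ => h1 I J).trans_eq ?_
  simp only [← Finset.mul_sum, Finset.sum_add_distrib, Finset.sum_const, Finset.card_univ,
    Fintype.card_fun, Fintype.card_fin, nsmul_eq_mul, ← Finset.sum_div]
  push_cast
  rw [mul_pow]; ring

theorem bil_up {H : Matrix (Fin 4) (Fin 4) ℝ} {Λ : ℝ} (h : ∀ p q, |H p q| ≤ Λ) (v : E4) :
    bil H v v ≤ 4 * Λ * ‖v‖ ^ 2 := by
  have h1 : ∀ i j, H i j * v i * v j ≤ Λ * (v i ^ 2 / 2 + v j ^ 2 / 2) := fun i j => by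
    rw [mul_assoc]
    refine (le_abs_self _).trans ((abs_mul _ _).trans_le (mul_le_mul (h i j) (abs_le.2 ⟨?_, ?_⟩)
      (abs_nonneg _) ((abs_nonneg _).trans (h i j))))
    · nlinarith [sq_nonneg (v i + v j)]
    · nlinarith [sq_nonneg (v i - v j)]
  rw [bil_apply, Hd.norm_sq_eq]
  refine (Finset.sum_le_sum fun i _ => Finset.sum_le_sum fun j _ => h1 i j).trans_eq ?_
  simp only [Fin.sum_univ_four]; ring

theorem sum3 (f : (Fin 3 → Fin 4) → ℝ) : ∑ I, f I = ∑ a, ∑ b, ∑ l, f ![l, a, b] := by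
  rw [← (Fin.consEquiv fun _ : Fin 3 => Fin 4).sum_comp, Fintype.sum_prod_type, Finset.sum_comm,
    ← (piFinTwoEquiv fun _ => Fin 4).symm.sum_comp, Fintype.sum_prod_type]
  rfl

theorem sum2 (k : MetricField 4) (x : E4) : ∑ I, matT k x I ^ 2 = e0 k x := by
  rw [← (piFinTwoEquiv fun _ => Fin 4).symm.sum_comp, Fintype.sum_prod_type]
  rfl

theorem chr_up {G : MetricField 4} {x : E4} {Λ ρ : ℝ} (hρ : 0 < ρ) (h1 : ∀ p q, |(G x)⁻¹ p q| ≤ Λ)
    (h2 : ∀ p q, ρ * ‖iteratedFDeriv ℝ 1 (fun y => G y p q) x‖ ≤ Λ) (m i j : Fin 4) :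
    |christoffel G x m i j| ≤ 6 * Λ ^ 2 / ρ := by
  have h3 : ∀ l p q, |pderiv l (fun y => G y p q) x| ≤ Λ / ρ := fun l p q => by
    have a := (fderiv ℝ (fun y => G y p q) x).le_opNorm (EuclideanSpace.single l 1)
    rw [PiLp.norm_single, norm_one, mul_one, ← norm_iteratedFDeriv_one] at a
    exact a.trans ((le_div_iff₀' hρ).2 (h2 p q))
  have h4 : ∀ l, |inverseField G x m l * (pderiv i (fun y => G y j l) x +
      pderiv j (fun y => G y i l) x - pderiv l (fun y => G y i j) x)| ≤ Λ * (3 * (Λ / ρ)) :=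
    fun l => (abs_mul _ _).trans_le (mul_le_mul (h1 m l) (abs_le.2 ⟨by
      linarith [abs_le.1 (h3 i j l), abs_le.1 (h3 j i l), abs_le.1 (h3 l i j)], by
      linarith [abs_le.1 (h3 i j l), abs_le.1 (h3 j i l), abs_le.1 (h3 l i j)]⟩) (abs_nonneg _)
        ((abs_nonneg _).trans (h1 m l)))
  have h5 := (Finset.abs_sum_le_sum_abs _ _).trans (Finset.sum_le_sum fun l (_ : l ∈ Finset.univ) => h4 l)
  rw [christoffel, abs_mul, abs_of_pos (by norm_num : (0 : ℝ) < 1 / 2)]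
  simp only [Finset.sum_const, Finset.card_univ, Fintype.card_fin, nsmul_eq_mul] at h5
  have e : 6 * Λ ^ 2 / ρ = 1 / 2 * ((4 : ℕ) * (Λ * (3 * (Λ / ρ)))) := by push_cast; ring
  rw [e]; linarith

theorem cov_cmp {G k : MetricField 4} {x : E4} {c : ℝ} (h : ∀ m i j, |christoffel G x m i j| ≤ c) :
    ∑ I, cov G (matT k) x I ^ 2 ≤ 2 * e1 k x + 8192 * c ^ 2 * e0 k x ∧
      e1 k x ≤ 2 * ∑ I, cov G (matT k) x I ^ 2 + 8192 * c ^ 2 * e0 k x := by
  have h0 : ∀ p q, |k x p q| ≤ √(e0 k x) := fun p q => Real.abs_le_sqrt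
    ((Finset.single_le_sum (f := fun b => k x p b ^ 2) (fun _ _ => sq_nonneg _)
      (Finset.mem_univ q)).trans (Finset.single_le_sum (f := fun a => ∑ b, k x a b ^ 2)
        (fun _ _ => by positivity) (Finset.mem_univ p)))
  have h1 : ∀ (i j : Fin 4) (f : Fin 4 → ℝ), (∀ m, |f m| ≤ √(e0 k x)) →
      |∑ m, christoffel G x m i j * f m| ≤ 4 * (c * √(e0 k x)) := fun i j f hf => by
    simpa using (Finset.abs_sum_le_sum_abs _ _).trans (Finset.sum_le_sum
      fun m (_ : m ∈ Finset.univ) => (abs_mul _ _).trans_le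
        (mul_le_mul (h m i j) (hf m) (abs_nonneg _) ((abs_nonneg _).trans (h m i j))))
  have h2 : ∀ l a b, (cov G (matT k) x ![l, a, b] - pderiv l (fun y => k y a b) x) ^ 2 ≤
      64 * c ^ 2 * e0 k x := fun l a b => by
    have a1 := abs_le.1 (h1 l a _ fun m => h0 m b)
    have a2 := abs_le.1 (h1 l b _ fun m => h0 a m)
    have a3 := cov_two G (matT k) x l a b
    simp only [matT, Matrix.cons_val_zero, Matrix.cons_val_one] at a3
    refine (sq_le_sq' (b := 8 * (c * √(e0 k x))) ?_ ?_).trans_eq ?_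
    · erw [a3]; linarith
    · erw [a3]; linarith
    · rw [mul_pow, mul_pow, Real.sq_sqrt (Hr.e0_nn _ _)]; ring
  have h3 : ∀ u v : Fin 4 → Fin 4 → Fin 4 → ℝ, (∀ l a b, (u l a b - v l a b) ^ 2 ≤
      64 * c ^ 2 * e0 k x) → ∑ a, ∑ b, ∑ l, u l a b ^ 2 ≤
        2 * ∑ a, ∑ b, ∑ l, v l a b ^ 2 + 8192 * c ^ 2 * e0 k x := fun u v huv => by
    refine (Finset.sum_le_sum fun a _ => Finset.sum_le_sum fun b _ => Finset.sum_le_sum fun l _ =>
      show u l a b ^ 2 ≤ 2 * v l a b ^ 2 + 128 * c ^ 2 * e0 k x by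
        nlinarith [huv l a b, sq_nonneg (u l a b - 2 * v l a b)]).trans_eq ?_
    simp only [Finset.sum_add_distrib, ← Finset.mul_sum, Finset.sum_const, Finset.card_univ,
      Fintype.card_fin, nsmul_eq_mul]
    push_cast; ring
  rw [sum3]
  exact ⟨h3 _ _ h2, h3 _ _ fun l a b => by rw [← neg_sub, neg_sq]; exact h2 l a b⟩

/-- the invariant energy density and the flat one are comparable -/
theorem pt (Λ E : ℝ) (hΛ : 1 ≤ Λ) (hE : 1 ≤ E) : ∃ D : ℝ, 0 < D ∧ ∀ (G k : MetricField 4) (x : E4)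
    (ρ w : ℝ), 0 < ρ → (G x).PosDef → (∀ p q, |G x p q| ≤ Λ ∧ |(G x)⁻¹ p q| ≤ Λ) →
    Λ⁻¹ ≤ sq G x → sq G x ≤ Λ → (∀ p q, ρ * ‖iteratedFDeriv ℝ 1 (fun y => G y p q) x‖ ≤ Λ) →
    (ρ ^ 2)⁻¹ ≤ E * w → w ≤ E * (ρ ^ 2)⁻¹ →
    e1 k x + e0 k x / ρ ^ 2 ≤ D * (sq G x * (nsq G (cov G (matT k)) x + w * nsq G (matT k) x)) ∧
    sq G x * (nsq G (cov G (matT k)) x + w * nsq G (matT k) x) ≤ D * (e1 k x + e0 k x / ρ ^ 2) := by
  obtain ⟨A, hA⟩ : ∃ A, A = (4 * Λ) ^ 3 := ⟨_, rfl⟩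
  obtain ⟨B, hB⟩ : ∃ B, B = 8192 * (6 * Λ ^ 2) ^ 2 + 2 := ⟨_, rfl⟩
  have A1 : 1 ≤ A := hA ▸ one_le_pow₀ (by linarith)
  have A2 : (4 * Λ) ^ 2 ≤ A := hA ▸ pow_le_pow_right₀ (by linarith) (by norm_num)
  have B2 : 2 ≤ B := by rw [hB]; linarith [show 0 ≤ 8192 * (6 * Λ ^ 2) ^ 2 by positivity]
  refine ⟨Λ * (A * (B + E) * E), by positivity, fun G k x ρ w hρ hG h1 h2 h3 h4 h5 h6 => ?_⟩
  obtain ⟨c1, c2⟩ := cov_cmp (k := k) (chr_up hρ (fun p q => (h1 p q).2) h4)
  have u3 : nsq G (cov G (matT k)) x ≤ _ := ipA_up (fun p q => (h1 p q).2) (cov G (matT k) x)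
  have u2 : nsq G (matT k) x ≤ _ := ipA_up (fun p q => (h1 p q).2) (matT k x)
  have l3 : _ ≤ _ * nsq G (cov G (matT k)) x :=
    Ar.sum_sq_le_ipA hG (by positivity) (bil_up fun p q => (h1 p q).1) (cov G (matT k) x)
  have l2 : _ ≤ _ * nsq G (matT k) x :=
    Ar.sum_sq_le_ipA hG (by positivity) (bil_up fun p q => (h1 p q).1) (matT k x)
  have n3 : 0 ≤ nsq G (cov G (matT k)) x := Ar.ipA_nonneg hG (cov G (matT k) x)
  have n2 : 0 ≤ nsq G (matT k) x := Ar.ipA_nonneg hG (matT k x)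
  have p0 := Hr.e0_nn k x
  have p1 := Hr.e1_nn k x
  have pr : 0 < (ρ ^ 2)⁻¹ := by positivity
  have pw : 0 < w := (mul_pos_iff_of_pos_left (by linarith)).1 (pr.trans_le h5)
  have e : 8192 * (6 * Λ ^ 2 / ρ) ^ 2 * e0 k x = (B - 2) * ((ρ ^ 2)⁻¹ * e0 k x) := by
    rw [hB]; field_simp; ring
  rw [sum2] at u2 l2
  rw [← hA] at u3 l3
  rw [e] at c1 c2
  rw [div_eq_inv_mul]
  replace u2 := u2.trans (mul_le_mul_of_nonneg_right A2 p0)
  replace l2 := l2.trans (mul_le_mul_of_nonneg_right A2 n2)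
  generalize nsq G (cov G (matT k)) x = a3 at *
  generalize nsq G (matT k) x = a2 at *
  generalize ∑ I, cov G (matT k) x I ^ 2 = S at *
  have q1 : (ρ ^ 2)⁻¹ * e0 k x ≤ E * A * (w * a2) :=
    (mul_le_mul h5 l2 p0 (by positivity)).trans_eq (by ring)
  have q2 : w * a2 ≤ E * A * ((ρ ^ 2)⁻¹ * e0 k x) :=
    (mul_le_mul h6 u2 n2 (by positivity)).trans_eq (by ring)
  have q0 := mul_nonneg pr.le p0
  have q3 := mul_nonneg pw.le n2
  generalize (ρ ^ 2)⁻¹ * e0 k x = z at *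
  generalize w * a2 = y at *
  have K0 := mul_le_mul_of_nonneg_left hE (show 0 ≤ A * (B + E) by positivity)
  have K1 : 2 * A ≤ A * (B + E) * E := by nlinarith
  have K2 : (B - 1) * (E * A) ≤ A * (B + E) * E := by
    nlinarith [mul_pos (by linarith : 0 < A) (by linarith : 0 < E)]
  have K3 : A * (B - 2) + E * A ≤ A * (B + E) * E := by nlinarith
  constructor
  · have r1 : e1 k x + z ≤ A * (B + E) * E * (a3 + y) := by
      nlinarith [mul_le_mul_of_nonneg_left q1 (show 0 ≤ B - 1 by linarith),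
        mul_le_mul_of_nonneg_right K1 n3, mul_le_mul_of_nonneg_right K2 q3]
    have r2 : 1 ≤ Λ * sq G x := by rwa [inv_le_iff_one_le_mul₀' (by linarith)] at h2
    calc _ ≤ _ := r1
      _ ≤ Λ * sq G x * (A * (B + E) * E * (a3 + y)) := le_mul_of_one_le_left (by positivity) r2
      _ = _ := by ring
  · have r1 : a3 + y ≤ A * (B + E) * E * (e1 k x + z) := by
      nlinarith [mul_le_mul_of_nonneg_left c1 (show 0 ≤ A by linarith),
        mul_le_mul_of_nonneg_right K1 p1, mul_le_mul_of_nonneg_right K3 q0]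
    exact (mul_le_mul h3 r1 (by positivity) (by linarith)).trans_eq (by ring)

end Xc

open Xc

variable {M : Type*} {T : TD M} {g : T.V → Fam T}

/-- **leaf XC** -/
theorem xc (h : Std T g) : XC T := by
  obtain ⟨T1, hG⟩ := gb' h
  obtain ⟨_, hG⟩ := hG 0
  obtain ⟨δ, Λ, T2, hδ, hΛ, hE⟩ := ell h
  obtain ⟨D0, l0, hD0, hl⟩ := N207.M.exists_scf h.ok (A := 4 / T.r) (τ := 1) le_rfl one_pos
  obtain ⟨D, hD, hp⟩ := pt Λ (Real.exp (2 * D0)) hΛ (Real.one_le_exp (by positivity))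
  obtain ⟨n, hn⟩ : ∃ n : ℝ, n = ∑ s, (Nat.card (T.grp s) : ℝ) := ⟨_, rfl⟩
  have n0 : 0 ≤ n := by rw [hn]; positivity
  refine ⟨D * D * n + 1, max (2 * max T1 T2 + max T1 T2) l0, by positivity, fun L hL k hk hd => ?_⟩
  have hL1 := hL.mono (le_max_left _ _)
  obtain ⟨hL', hm, -⟩ := (hG _ (le_max_left T1 T2)).2 L (hL1.mono (by linarith [le_max_left T1 T2]))
  replace hE := hE _ (le_max_right T1 T2) L (hL1.mono (by linarith [le_max_right T1 T2]))
  obtain ⟨l, hl⟩ := hl L ⟨hL', hL.mono (le_max_right _ _)⟩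
  generalize gbL T g (max T1 T2) L = H at hm hE
  have ok := gl1_ok h.ok hL'
  have pou := gl1_pou h.ok hL'
  have hm1 : (gl1 T L).IsMet (rt T L H) := ⟨fun s => ⟨U1_open s, fun p q =>
    ((hm.riem s).contDiffOn p q).mono (U1_U h.ok s), fun x hx => (hm.riem s).posDef x (U1_U h.ok s hx)⟩,
    Ga.res_compat (U1_U h.ok) hm.compat⟩
  have hI := Hr.int_K1 h.ok (fun s a b => (sm_of_rt (hk.sm s) a b).of_le (by simp)) hd
  have hI' : ∀ s, IntegrableOn (fun x => e1 (k s) x + e0 (k s) x / scl T s x ^ 2) (K1 T L s) :=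
    fun s => (hI s).1.add (hI s).2
  refine ⟨hI', ?_⟩
  have hc := hk.cov ok hm1
  let f : T.S → E4 → ℝ := fun s x => nsq (rt T L H s) (cov (rt T L H s) (matT (rt T L k s))) x +
    Real.exp (-2 * l s x) * nsq (rt T L H s) (matT (rt T L k s)) x
  have ef : ∀ s x, √(rt T L H s x).det * f s x = ep T L s ^ 2 * (sq (H s) x *
      (nsq (H s) (cov (H s) (matT (k s))) x + ep T L s ^ 2 * Real.exp (-2 * l s x) *
        nsq (H s) (matT (k s)) x)) := fun s x => by
    have e0 := (ep_pos L s).ne'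
    have e1 : matT (rt T L k s) = ep T L s ^ 2 • matT (k s) := rfl
    have e2 : rt T L H s = fun y => ep T L s ^ 2 • H s y := rfl
    have e3 := pow_ne_zero 2 e0
    simp only [f, e1, e2, N207.M.cov_smul_met e3, N207.M.nsq_smul_met e3, N207.M.sqrt_det_smul,
      cov_smul]
    simp only [nsq, ip, Pi.smul_apply, Ar.ipA_smul_left, Ar.ipA_smul_right, Lg.sq]
    field_simp
    ring_nf
    field_simp
  have key : ∀ s, ∀ x ∈ U1 T L s, ep T L s ^ 2 * (e1 (k s) x + e0 (k s) x / scl T s x ^ 2) ≤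
      D * (√(rt T L H s x).det * f s x) ∧ √(rt T L H s x).det * f s x ≤
        D * (ep T L s ^ 2 * (e1 (k s) x + e0 (k s) x / scl T s x ^ 2)) := fun s x hx => by
    have a0 := U1_U h.ok s hx
    have a1 := (riem_of_rt hm s).posDef x a0
    obtain ⟨b1, b2, b3, -, b4⟩ := hE H s x (U1_W1 h.ok s hx) a1 fun p q => by simpa using hδ.le
    have a2 : 0 < scl T s x := one_pos.trans_le (one_le_scl s a0)
    have a3 := abs_le.1 (hl.cmp s x a0)
    have a4 := ep_pos L s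
    have a5 : (scl T s x ^ 2)⁻¹ = ep T L s ^ 2 * Real.exp (-2 * Real.log (Sk.rw T L s x)) := by
      have : Sk.rw T L s x = ep T L s * scl T s x := by cases s <;> rfl
      rw [this, neg_mul, Real.exp_neg, two_mul, Real.exp_add, Real.exp_log (by positivity)]
      field_simp
    have a6 : ∀ u v : ℝ, u ≤ 2 * D0 + v → ep T L s ^ 2 * Real.exp u ≤
        Real.exp (2 * D0) * (ep T L s ^ 2 * Real.exp v) := fun u v huv => by
      rw [mul_left_comm, ← Real.exp_add]; gcongr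
    obtain ⟨c1, c2⟩ := hp (H s) (k s) x _ (ep T L s ^ 2 * Real.exp (-2 * l s x)) a2 a1 b1 b2 b3
      (by simpa only [pow_one] using b4 1 (by norm_num)) (by rw [a5]; exact a6 _ _ (by linarith))
      (by rw [a5]; exact a6 _ _ (by linarith))
    rw [ef]
    exact ⟨(mul_le_mul_of_nonneg_left c1 (sq_nonneg (ep T L s))).trans_eq (by ring),
      (mul_le_mul_of_nonneg_left c2 (sq_nonneg (ep T L s))).trans_eq (by ring)⟩
  have ct : (gl1 T L).Ct f := fun s => (hc.ct_ip hm1 hc s).add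
    ((continuousOn_const.mul ((hl.sm s).continuousOn.mono (U1_U h.ok s))).rexp.mul (hk.ct_ip hm1 hk s))
  have n1 : ∀ s, ∀ x ∈ (gl1 T L).U s, ∀ (m : ℕ) (S : Tn 4 m), 0 ≤ nsq (rt T L H s) S x :=
    fun s x hx _ S => Ar.ipA_nonneg ((hm1.riem s).posDef x hx) (S x)
  have nn : ∀ s, ∀ x ∈ (gl1 T L).U s, 0 ≤ f s x := fun s x hx =>
    add_nonneg (n1 s x hx _ _) (mul_nonneg (Real.exp_pos _).le (n1 s x hx _ _))
  have j := fun s => (Hr.int_chi h.ok hL' s ((hI' s).mono_set (gK_K1 h.ok s))).1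
  have bd : ∀ s, ∀ x ∈ U1 T L s, (gl1 T L).den T.χ (rt T L H) s x * f s x ≤ D * (ep T L s ^ 2 *
      ((Nat.card (T.grp s) : ℝ)⁻¹ * (T.χ s ((T.glob L).c s x) *
        (e1 (k s) x + e0 (k s) x / scl T s x ^ 2)))) := fun s x hx => by
    have := mul_le_mul_of_nonneg_left (key s x hx).2 (mul_nonneg (Hr.card_inv_le h.ok hL' s).1.le
      (TD.χ_nonneg s ((T.glob L).c s x)))
    exact le_of_eq_of_le (by simp only [Atl.den, gl1, TD.glob]; ring) (this.trans_eq (by ring))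
  have ig : (gl1 T L).Intg T.χ (rt T L H) f := fun s => by
    refine Integrable.mono' (μ := volume.restrict (U1 T L s))
      ((((j s).const_mul (Nat.card (T.grp s) : ℝ)⁻¹).const_mul (ep T L s ^ 2)).const_mul D)
      (((Atl.sm_den hm1 pou s).continuousOn.mul (ct s)).aestronglyMeasurable
        (U1_open s).measurableSet) ((ae_restrict_mem (U1_open s).measurableSet).mono fun x hx => ?_)
    rw [Real.norm_of_nonneg (mul_nonneg (Atl.den_nonneg pou s x) (nn s x hx))]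
    exact bd s x hx
  have up : (gl1 T L).int T.χ (rt T L H) f ≤
      D * intL T L fun s x => e1 (k s) x + e0 (k s) x / scl T s x ^ 2 := by
    rw [intL, Finset.mul_sum]
    refine Finset.sum_le_sum fun s _ => ?_
    rw [← integral_const_mul, ← integral_const_mul, ← integral_const_mul]
    exact setIntegral_mono_on (ig s) ((((j s).const_mul _).const_mul _).const_mul D)
      (U1_open s).measurableSet (bd s)
  have i0 := Atl.int_nonneg (G := rt T L H) ok pou nn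
  have lo : En T L k ≤ D * n * (gl1 T L).int T.χ (rt T L H) f := by
    rw [En, hn, Finset.mul_sum, Finset.sum_mul]
    refine Finset.sum_le_sum fun s _ => ?_
    obtain ⟨a1, a2⟩ := Atl.int_U_le ok hm1 pou ((hc.compat.nsq ok hm1).map₂
      ((Ga.res_compF (U1_U h.ok) hl.comp).map₂ (hk.compat.nsq ok hm1)
        fun u v => Real.exp (-2 * u) * v) (· + ·)) (ct.ms ok) nn ig s
    rw [← integral_const_mul, mul_assoc]
    refine le_trans ?_ (mul_le_mul_of_nonneg_left a2 hD.le)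
    rw [← integral_const_mul]
    refine (setIntegral_mono_on ((hI' s).const_mul _)
      (IntegrableOn.mono_set (a1.const_mul D) (K1_U1 h.ok s))
      (K1_closed s).measurableSet fun x hx => (key s x (K1_U1 h.ok s hx)).1).trans
      (setIntegral_mono_set (a1.const_mul D) ((ae_restrict_mem (U1_open s).measurableSet).mono
        fun x hx => mul_nonneg hD.le (mul_nonneg (Real.sqrt_nonneg _) (nn s x hx)))
        (K1_U1 h.ok s).eventuallyLE)
  have i1 := (mul_nonneg_iff_of_pos_left hD).1 (i0.trans up)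
  nlinarith [mul_le_mul_of_nonneg_left up (show 0 ≤ D * n by positivity)]

end Crest.Agent.N207.NS

end
end

-- ▼ part N207/N/Tol1
section

/-!
# Row 207, block N (helper39): reading a core on `glob L`
-/

set_option autoImplicit false

open scoped ContDiff Topology
open Metric Set Filter MeasureTheory
open Crest.GeometryTopology.CoordMetric
open Crest.Agent.N207.I Crest.Agent.N207.Lg Crest.Agent.N207.CB

noncomputable section

namespace Crest.Agent.N207.NS.Tl

variable {M : Type*} {T : TD M} {L : T.V → ℝ} {v : T.V} {s : T.S} {x y : E4} {d : ℝ}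

/-- the chart `s` is a chart of `core v` -/
def Rl (T : TD M) (v : T.V) : T.S → Prop :=
  Sum.elim (fun a => T.vx a = v) fun w => w = v ∨ T.kid v w

/-- the change of units -/
abbrev al (L : T.V → ℝ) (v : T.V) (s : T.S) : ℝ := TD.sc (TD.lm L) s v

/-- depth at most `d` -/
def Dp (T : TD M) (v : T.V) (d : ℝ) (s : T.S) (y : E4) : Prop :=
  ∀ w, s = Sum.inr w → tau T v w d y ≤ 0

theorem al_inl (a : T.B) : al L v (Sum.inl a) = 1 := rfl

theorem al_out : al L v (Sum.inr v) = 1 := by simp [TD.sc, TD.lm]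

theorem al_inn {w : T.V} (hw : w ≠ v) : al L v (Sum.inr w) = Real.exp (-L w) := by
  simp [TD.sc, TD.lm, hw]

theorem al_pos : 0 < al L v s := by
  rcases s with a | w
  · exact one_pos
  · by_cases hw : w = v
    · rw [hw, al_out]; exact one_pos
    · rw [al_inn hw]; exact Real.exp_pos _

theorem Rl.cases (h : T.Ok) (r : Rl T v s) : (∃ a, s = Sum.inl a ∧ T.vx a = v) ∨ s = Sum.inr v ∨
    ∃ w, s = Sum.inr w ∧ w ≠ T.root ∧ T.par w = v ∧ w ≠ v := by
  rcases s with a | w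
  · exact Or.inl ⟨a, rfl, r⟩
  · rcases r with rfl | r
    · exact Or.inr (Or.inl rfl)
    · exact Or.inr (Or.inr ⟨w, rfl, r.1, r.2, h.kid_ne r⟩)

theorem rl_of_mem (hy : y ∈ (T.core v).U s) : Rl T v s := by
  rcases s with a | w
  · exact (TD.mem_core_inl.1 hy).1
  · by_cases hw : w = v
    · exact Or.inl hw
    · exact Or.inr ((TD.mem_core_inn hw).1 hy).1

theorem Rl.mem (h : T.Ok) (r : Rl T v s) (hx : x ∈ (T.glob L).U s) :
    al L v s • x ∈ (T.core v).U s := by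
  rcases r.cases h with ⟨a, rfl, rfl⟩ | rfl | ⟨w, rfl, h1, rfl, h2⟩
  · rw [al_inl, one_smul]; exact TD.mem_core_inl.2 ⟨rfl, TD.mem_glob_inl.1 hx⟩
  · rw [al_out, one_smul]; exact Ga.glob_out hx
  · rw [al_inn h2]; exact Ga.glob_inn h h1 hx

theorem Rl.toL (h : T.Ok) (r : Rl T v s) (X : Fam T) (hx : x ∈ (T.glob L).U s) :
    toL T L v X s x = X s (al L v s • x) := by
  rcases r.cases h with ⟨a, rfl, rfl⟩ | rfl | ⟨w, rfl, h1, rfl, h2⟩
  · simp [CB.toL, al_inl]
  · simp [CB.toL, al_out]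
  · rw [al_inn h2]
    simp only [CB.toL, Sum.elim_inr, if_neg h2]
    exact if_pos ⟨⟨h1, rfl⟩, TD.nrm_exp_lt.2 (hx.2 h1)⟩

theorem toL_of_not (r : ¬ Rl T v s) (X : Fam T) (x : E4) : toL T L v X s x = 0 := by
  rcases s with a | w
  · simp only [CB.toL, Sum.elim_inl, if_neg (show ¬ T.vx a = v from r)]; rfl
  · simp only [CB.toL, Sum.elim_inr]
    rw [if_neg fun e => r (Or.inl e), if_neg fun e => r (Or.inr e.1)]

theorem Rl.ep (h : T.Ok) (r : Rl T v s) : ep T L s = T.eps L v * al L v s := by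
  rcases r.cases h with ⟨a, rfl, rfl⟩ | rfl | ⟨w, rfl, h1, rfl, h2⟩
  · simp [NS.ep, TD.un, al_inl]
  · simp [NS.ep, TD.un, al_out]
  · rw [al_inn h2]; exact h.eps_kid L h1

theorem Rl.loc (h : T.Ok) (r : Rl T v s) (k : Fam T) (x : E4) :
    loc T L v k s (al L v s • x) = k s x := by
  rcases r.cases h with ⟨a, rfl, rfl⟩ | rfl | ⟨w, rfl, h1, rfl, h2⟩
  · simp [CB.loc, al_inl]
  · simp [CB.loc, al_out]
  · simp [CB.loc, al_inn h2, h2, smul_smul, ← Real.exp_add]

theorem scl_al (x : E4) : scl T s (al L v s • x) = al L v s * scl T s x := by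
  rcases s with a | w
  · simp [scl, al_inl]
  · simp only [scl, Sum.elim_inr, norm_smul, Real.norm_of_nonneg al_pos.le]

theorem inK_iff (h : T.Ok) : InK T L v d s x ↔ Rl T v s ∧ Dp T v d s (al L v s • x) := by
  rcases s with a | w
  · simp [InK, Rl, Dp]
  · by_cases hw : w = v
    · subst hw
      have : ¬ T.kid w w := fun k => h.kid_ne k rfl
      simp [InK, Rl, Dp, this, al_out, tau]
    · simp [InK, Rl, Dp, hw, al_inn hw, tau]

/-- the necks are long compared with the depth `d` -/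
def Big (T : TD M) (L : T.V → ℝ) (d : ℝ) : Prop :=
  T.Long L ∧ ∀ w, w ≠ T.root → 4 * Real.exp d ≤ T.r * Real.exp (L w)

theorem big_of (h : T.Ok) {c : ℝ} (hc : |d| + 16 / T.r ≤ c) (hL : Lng T c L) : Big T L d := by
  have hr := h.r_pos
  refine ⟨fun w hw => lng_exp h (c := 16) (fun w hw => by linarith [hL w hw, abs_nonneg d]) hw,
    fun w hw => ?_⟩
  have h1 : Real.exp d * Real.exp (16 / T.r) ≤ Real.exp (L w) := by
    rw [← Real.exp_add]; exact Real.exp_le_exp.2 (by linarith [hL w hw, le_abs_self d])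
  have h2 : 16 ≤ T.r * Real.exp (16 / T.r) := by
    have := mul_le_mul_of_nonneg_left (Real.add_one_le_exp (16 / T.r)) hr.le
    rw [mul_add, mul_div_cancel₀ _ hr.ne'] at this; linarith
  nlinarith [Real.exp_pos d, mul_le_mul_of_nonneg_left h1 hr.le]

theorem dp_out (h0 : 0 < ‖y‖) : Dp T v d (Sum.inr v) y ↔ ‖y‖ ≤ Real.exp d := by
  simp [Dp, tau, Real.log_le_iff_le_exp h0]

theorem dp_inn {w : T.V} (hw : w ≠ v) (h0 : 0 < ‖y‖) :
    Dp T v d (Sum.inr w) y ↔ Real.exp (-d) ≤ ‖y‖ := by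
  simp only [Dp, tau, Sum.inr.injEq, forall_eq', if_neg hw, ← Real.le_log_iff_exp_le h0]
  constructor <;> intro _ <;> linarith

theorem Big.glob (h : T.Ok) (B : Big T L d) (hy : al L v s • x ∈ (T.core v).U s)
    (hd : Dp T v d s (al L v s • x)) : x ∈ (T.glob L).U s ∧
      ∀ s', T.χ s' ((T.glob L).c s x) = T.χ s' ((T.core v).c s (al L v s • x)) := by
  rcases (rl_of_mem hy).cases h with ⟨a, rfl, rfl⟩ | rfl | ⟨w, rfl, h1, rfl, h2⟩
  · rw [al_inl, one_smul] at hy ⊢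
    exact ⟨TD.mem_glob_inl.2 (TD.mem_core_inl.1 hy).2, fun _ => rfl⟩
  · rw [al_out, one_smul] at hy hd ⊢
    have h1 := TD.mem_core_out.1 hy
    have h2 := (dp_out (by linarith)).1 hd
    exact ⟨⟨h1, fun hw => by linarith [B.2 v hw]⟩, fun _ => by
      rw [TD.glob_eq_out fun hw => by linarith [B.2 v hw]]⟩
  · rw [al_inn h2] at hy hd ⊢
    obtain ⟨-, h3, h4⟩ := (TD.mem_core_inn h2).1 hy
    have h5 := (dp_inn h2 h3).1 hd
    rw [TD.nrm_exp, le_div_iff₀ (Real.exp_pos _)] at h5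
    have h6 : 4 ≤ ‖x‖ := by
      have := mul_le_mul_of_nonneg_left (B.2 w h1) (Real.exp_pos (-d)).le
      rw [mul_left_comm, ← Real.exp_add, neg_add_cancel, Real.exp_zero] at this
      nlinarith [h.r_lt, mul_pos (Real.exp_pos (-d)) (Real.exp_pos (L w))]
    exact ⟨⟨by linarith, fun _ => TD.nrm_exp_lt.1 h4⟩, h.χ_glob_inn B.1 h1 h6⟩

theorem Rl.gbL (h : T.Ok) (r : Rl T v s) (g : T.V → Fam T) {T0 : ℝ} (hT : d ≤ T0)
    (hl : Lng T (2 * T0 + 1) L) (hx : x ∈ (T.glob L).U s) (hd : Dp T v d s (al L v s • x)) :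
    gbL T g T0 L s x = g v s (al L v s • x) := by
  rcases r.cases h with ⟨a, rfl, rfl⟩ | rfl | ⟨w, rfl, h1, rfl, h2⟩
  · simp [CB.gbL, al_inl]
  · have := hd v rfl
    rw [al_out, one_smul] at this ⊢
    simp only [tau, if_true] at this
    exact Ga.gbL_out h (Ga.glob_ne hx) (by linarith) (hl v)
  · have := hd w rfl
    rw [al_inn h2] at this ⊢
    simp only [tau, if_neg h2, Ga.log_smul _ (Ga.glob_ne hx)] at this
    exact Ga.gbL_inn h h1 (Ga.glob_ne hx) (by linarith) (hl w h1)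

theorem int_smul (f : E4 → ℝ) {a : ℝ} (ha : 0 < a) : a ^ 4 * ∫ x, f (a • x) = ∫ y, f y := by
  rw [Measure.integral_comp_smul, finrank_euclideanSpace_fin, smul_eq_mul,
    abs_of_pos (by positivity), ← mul_assoc, mul_inv_cancel₀ (by positivity), one_mul]

/-- change of variables between `glob L` and `core v` -/
theorem Big.int_tr (h : T.Ok) (B : Big T L d) (r : Rl T v s) {F F' : E4 → ℝ}
    (h1 : ∀ x ∈ (T.glob L).U s, ¬ Dp T v d s (al L v s • x) → F x = 0)
    (h2 : ∀ y ∈ (T.core v).U s, ¬ Dp T v d s y → F' y = 0)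
    (h3 : ∀ x ∈ (T.glob L).U s, Dp T v d s (al L v s • x) → F x = F' (al L v s • x)) :
    al L v s ^ 4 * ∫ x in U1 T L s, T.χ s ((T.glob L).c s x) * F x =
      ∫ y in (T.core v).U s, T.χ s ((T.core v).c s y) * F' y := by
  rw [← integral_indicator (U1_open s).measurableSet,
    ← integral_indicator ((h.core_ok v).isOpen s).measurableSet]
  refine Eq.trans ?_ (int_smul _ (al_pos (L := L) (v := v) (s := s)))
  congr 2
  funext x
  by_cases hx : x ∈ U1 T L s
  · have hx' := U1_U h s hx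
    rw [indicator_of_mem hx, indicator_of_mem (r.mem h hx')]
    by_cases hd : Dp T v d s (al L v s • x)
    · rw [h3 x hx' hd, (B.glob h (r.mem h hx') hd).2]
    · rw [h1 x hx' hd, h2 _ (r.mem h hx') hd, mul_zero, mul_zero]
  · rw [indicator_of_notMem hx]
    by_cases hy : al L v s • x ∈ (T.core v).U s
    · rw [indicator_of_mem hy]
      by_cases hd : Dp T v d s (al L v s • x)
      · obtain ⟨a1, a2⟩ := B.glob h hy hd
        rw [← a2, chi_zero h B.1 s a1 fun k => hx (K1_U1 h s (gK_K1 h s k)), zero_mul]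
      · rw [h2 _ hy hd, mul_zero]
    · rw [indicator_of_notMem hy]

theorem base_core (h : T.Ok) {u : T.V} {z : E4} (hz : z ∈ (T.base u).U s) :
    z ∈ (T.core u).U s ∧ (T.core u).c s z = Sum.inl (u, (T.base u).c s z) := by
  have h1 : TD.sc (fun _ _ => (1 : ℝ)) s u = 1 := by cases s <;> rfl
  simpa only [h1, one_smul] using (h.str_core u).conv' (s := s) (x := z) rfl (by rwa [h1, one_smul])

/-- compatibility of a family of `core u` read on `glob L` -/
theorem pm_base (h : T.Ok) {u : T.V} {X : Fam T} (hX : (T.core u).Compat fun s => matT (X s))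
    {a b : T.S} {F : E4 → E4} (t : (T.glob L).Tr a b x F)
    (e : ∀ᶠ z in 𝓝 x, al L u a • z ∈ (T.base u).U a ∧ al L u b • F z ∈ (T.base u).U b ∧
      (T.base u).c b (al L u b • F z) = (T.base u).c a (al L u a • z)) (c : ℝ) :
    Ga.PM (fderiv ℝ F x) ((c * al L u a) ^ 2 • X a (al L u a • x))
      ((c * al L u b) ^ 2 • X b (al L u b • F x)) := by
  obtain ⟨e1, e2, -⟩ := e.self_of_nhds
  have pa : 0 < al L u a := al_pos
  have pb : 0 < al L u b := al_pos
  set α := al L u a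
  set β := al L u b
  have i1 : ∀ z : E4, α⁻¹ • α • z = z := fun z => inv_smul_smul₀ pa.ne' z
  have tz : Tendsto (fun z : E4 => α⁻¹ • z) (𝓝 (α • x)) (𝓝 x) := by
    simpa only [ContinuousAt, i1] using (continuous_const_smul α⁻¹).continuousAt (x := α • x)
  have t' : (T.core u).Tr a b (α • x) fun z => β • F (α⁻¹ • z) :=
    ⟨(base_core h e1).1, by rw [i1]; exact (base_core h e2).1, (tz.eventually t.sm).mono fun z hz =>
      (hz.comp z (f := fun z : E4 => α⁻¹ • z) (by fun_prop)).const_smul β,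
      (tz.eventually e).mono fun z hz => by
        rw [smul_inv_smul₀ pa.ne'] at hz
        rw [(base_core h hz.1).2, (base_core h hz.2.1).2, hz.2.2]⟩
  have hd : fderiv ℝ (fun z => β • F (α⁻¹ • z)) (α • x) = (β / α) • fderiv ℝ F x := by
    have d1 : HasFDerivAt F (fderiv ℝ F x) (α⁻¹ • α • x) := by rw [i1]; exact t.diff.hasFDerivAt
    refine ((d1.comp (α • x) ((hasFDerivAt_id (α • x)).const_smul α⁻¹)).const_smul β).fderiv.trans ?_
    ext z : 1
    simp [smul_smul, div_eq_mul_inv]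
  have h2 := Ga.pm_iff.1 (hX _ _ _ _ t')
  rw [hd, i1] at h2
  have h3 := h2.scale.smul ((c * α) ^ 2)
  convert h3 using 1
  rw [smul_smul]
  congr 1
  field_simp

variable {X : Fam T}

theorem van_of (hV : Van T v d 0 X) (hy : y ∈ (T.core v).U s) (hd : ¬ Dp T v d s y) :
    X s y = 0 := by
  simp only [Dp, not_forall, not_le] at hd
  obtain ⟨w, rfl, hw⟩ := hd
  exact hV w y hy hw.le

theorem toL_supp (h : T.Ok) (hV : Van T v d 0 X) (hx : x ∈ (T.glob L).U s)
    (hn : ¬ InK T L v d s x) : toL T L v X s x = 0 := by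
  by_cases r : Rl T v s
  · rw [r.toL h X hx]
    exact van_of hV (r.mem h hx) fun hd => hn ((inK_iff h).2 ⟨r, hd⟩)
  · exact toL_of_not r X x

theorem Big.base_ne (h : T.Ok) (B : Big T L d) {u : T.V} (hu : u ≠ v)
    (hx : al L u s • x ∈ (T.base u).U s) : ¬ InK T L v d s x := by
  rcases s with a | w
  · exact fun k => hu ((TD.mem_base_inl.1 hx).1.symm.trans k)
  · rintro (⟨rfl, k⟩ | ⟨k, k'⟩)
    · rw [al_inn hu.symm] at hx
      obtain ⟨⟨h1, -⟩, h2, -⟩ := (TD.mem_base_inn hu.symm).1 hx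
      have h3 := TD.lt_nrm_exp.1 h2
      have h4 := mul_pos h.r_pos (Real.exp_pos (L w))
      have := (Real.log_le_iff_le_exp (by linarith)).1 k
      linarith [B.2 w h1]
    · by_cases hw : w = u
      · subst hw
        rw [al_out, one_smul] at hx
        obtain ⟨h1, h2⟩ := TD.mem_base_out.1 hx
        rw [Ga.log_smul _ (norm_pos_iff.1 (by linarith))] at k'
        have h3 : Real.exp (L w) ≤ Real.exp d * ‖x‖ := by
          rw [← Real.exp_log (show 0 < ‖x‖ by linarith), ← Real.exp_add]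
          exact Real.exp_le_exp.2 (by linarith)
        nlinarith [B.2 w k.1, h.r_lt, Real.exp_pos d, Real.exp_pos (L w)]
      · exact hu (((TD.mem_base_inn hw).1 hx).1.2.symm.trans k.2)

theorem pm_zero (D : E4 →L[ℝ] E4) : Ga.PM D 0 0 := fun i j => by simp [R202.Tens.bil_apply]

theorem toL_sm (h : T.Ok) (hX : CB.Sec T v X) (s : T.S) (a b : Fin 4) :
    ContDiffOn ℝ ∞ (fun x => toL T L v X s x a b) ((T.glob L).U s) := by
  by_cases r : Rl T v s
  · exact ((hX.sec.sm s ![a, b]).comp (f := fun x => al L v s • x) (by fun_prop)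
      fun x hx => r.mem h hx).congr fun x hx => by rw [r.toL h X hx]; rfl
  · exact (contDiffOn_const (c := 0)).congr fun x _ => by rw [toL_of_not r]; rfl

theorem Big.toL_sec (h : T.Ok) (B : Big T L d) (hX : CB.Sec T v X) (hV : Van T v d 0 X) :
    (T.glob L).Sec fun s => matT (rt T L (toL T L v X) s) := by
  refine ⟨fun s I => contDiffOn_const.mul (toL_sm h hX s _ _),
    (h.str_glob B.1).compat_of h (fun a b x F u _ t e => ?_) fun w e he x hx => ?_⟩
  · obtain ⟨e1, e2, -⟩ := e.self_of_nhds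
    rw [Ga.pm_iff]
    by_cases hu : u = v
    · subst hu
      have ra := rl_of_mem (base_core h e1).1
      have rb := rl_of_mem (base_core h e2).1
      simp only [rt, ra.ep h, rb.ep h, ra.toL h X t.mem, rb.toL h X t.mem']
      exact pm_base h hX.sec.compat t e _
    · simp only [rt, toL_supp h hV t.mem (B.base_ne h hu e1),
        toL_supp h hV t.mem' (B.base_ne h hu e2), smul_zero]
      exact pm_zero _
  · rw [Ga.pm_iff]
    by_cases r : Rl T v (Sum.inr w)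
    · have t := (h.core_ok v).tr_deck (a := Sum.inr w) he (r.mem h hx)
      have := Ga.pm_iff.1 (hX.sec.compat _ _ _ _ t)
      simp only [rt, r.toL h X hx, r.toL h X ((h.glob_ok B.1).inv (Sum.inr w) e he x hx)]
      rw [LinearIsometryEquiv.fderiv] at this ⊢
      rw [← e.map_smul]
      exact this.smul _
    · simp only [rt, toL_of_not r, smul_zero]
      exact pm_zero _

end Crest.Agent.N207.NS.Tl

end
end

-- ▼ part N207/N/Tol

/-!
# Row 207, block N (helper39): the leaf `TOL`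
-/

set_option autoImplicit false

open scoped ContDiff Topology
open Metric Set Filter MeasureTheory
open Crest.GeometryTopology.CoordMetric
open Crest.Agent.N207.I Crest.Agent.N207.Lg Crest.Agent.N207.CB

noncomputable section

namespace Crest.Agent.N207.NS

variable {M : Type*} {T : TD M} {L : T.V → ℝ} {v : T.V} {s : T.S} {x y : E4} {d : ℝ} {X : Fam T}
  {g : T.V → Fam T}

namespace Tl

theorem exists_cpt (h : T.Ok) (v : T.V) (d : ℝ) (s : T.S) : ∃ K, IsCompact K ∧ K ⊆ (T.core v).U s ∧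
    ∀ L, ∀ x ∈ W1 T L s, Rl T v s → Dp T v d s (al L v s • x) → al L v s • x ∈ K := by
  have hr := h.r_pos
  have cp : ∀ a b : ℝ, IsCompact {x : E4 | a ≤ ‖x‖ ∧ ‖x‖ ≤ b} := fun a b =>
    (isCompact_closedBall (0 : E4) b).of_isClosed_subset
      ((isClosed_le continuous_const continuous_norm).inter
        (isClosed_le continuous_norm continuous_const)) fun x hx => mem_closedBall_zero_iff.2 hx.2
  by_cases r : Rl T v s
  · rcases r.cases h with ⟨a, rfl, rfl⟩ | rfl | ⟨w, rfl, h1, rfl, h2⟩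
    · refine ⟨closedBall 0 (13 / 8), isCompact_closedBall _ _, fun x hx => TD.mem_core_inl.2
        ⟨rfl, by linarith [mem_closedBall_zero_iff.1 hx]⟩, fun L x hx _ _ => ?_⟩
      rw [al_inl, one_smul]; exact ball_subset_closedBall hx
    · refine ⟨_, cp (21 / 16) (Real.exp d), fun x hx => TD.mem_core_out.2 (by linarith [hx.1]),
        fun L x hx _ hd => ?_⟩
      rw [al_out, one_smul] at hd ⊢
      exact ⟨hx.1.le, (dp_out (by linarith [hx.1])).1 hd⟩
    · refine ⟨_, cp (Real.exp (-d)) (27 / 32 * T.r), fun x hx => (TD.mem_core_inn h2).2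
        ⟨⟨h1, rfl⟩, (Real.exp_pos _).trans_le hx.1, by linarith [hx.2]⟩, fun L x hx r hd => ?_⟩
      have := ((TD.mem_core_inn h2).1 (r.mem h (W1_U h _ hx))).2.1
      refine ⟨(dp_inn h2 this).1 hd, ?_⟩
      rw [al_inn h2]; exact (TD.nrm_exp_lt.2 (hx.2 h1)).le
  · exact ⟨∅, isCompact_empty, empty_subset _, fun L x _ r' => absurd r' r⟩

theorem not_dp_ev (hy : y ∈ (T.core v).U s) (hd : ¬ Dp T v d s y) :
    ∀ᶠ z in 𝓝 y, ¬ Dp T v d s z := by
  simp only [Dp, not_forall, not_le] at hd ⊢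
  obtain ⟨w, rfl, hw⟩ := hd
  have h0 : ‖y‖ ≠ 0 := norm_ne_zero_iff.2 (Ga.core_ne hy)
  have c : ContinuousAt (tau T v w d) y := by
    unfold tau
    split_ifs
    exacts [(continuous_norm.continuousAt.log h0).sub continuousAt_const,
      (continuous_norm.continuousAt.log h0).neg.sub continuousAt_const]
  exact (c.eventually (lt_mem_nhds hw)).mono fun z hz => ⟨w, rfl, hz⟩

theorem jet_bd (h : T.Ok) (hX : CB.Sec T v X) (hV : Van T v d 0 X) (s : T.S) (k : ℕ) (a b : Fin 4) :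
    ∃ P : ℝ, ∀ L, ∀ x ∈ W1 T L s,
      scl T s x ^ k * ‖iteratedFDeriv ℝ k (fun y => (toL T L v X s y - (0 : Fam T) s y) a b) x‖ ≤ P := by
  obtain ⟨K, hK, hU, hm⟩ := exists_cpt h v d s
  have ho := (h.core_ok v).isOpen s
  have c1 : Continuous (scl T s) := by
    rcases s with a | w
    exacts [continuous_const, continuous_norm]
  have c2 : ContinuousOn (iteratedFDeriv ℝ k fun y => X s y a b) K := fun y hy =>
    (((hX.sec.sm s ![a, b]).contDiffAt (ho.mem_nhds (hU hy))).continuousAt_iteratedFDeriv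
      (by exact_mod_cast le_top)).continuousWithinAt
  obtain ⟨P, hP⟩ := hK.exists_bound_of_continuousOn ((c1.pow k).continuousOn.mul c2.norm)
  refine ⟨|P|, fun L x hx => ?_⟩
  have hx' := W1_U h s hx
  have og : (T.glob L).U s ∈ 𝓝 x := by
    rcases s with a | w
    exacts [isOpen_ball.mem_nhds hx', (TD.glob_open w).mem_nhds hx']
  have z : ∀ f : E4 → ℝ, f =ᶠ[𝓝 x] (fun _ => 0) → scl T s x ^ k * ‖iteratedFDeriv ℝ k f x‖ ≤ |P| :=
    fun f e => by
      rw [(e.iteratedFDeriv ℝ k).eq_of_nhds, iteratedFDeriv_fun_zero]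
      simp
  by_cases r : Rl T v s
  · have e : (fun y => (toL T L v X s y - (0 : Fam T) s y) a b) =ᶠ[𝓝 x]
        fun y => X s (al L v s • y) a b := by
      filter_upwards [og] with y hy
      simp [r.toL h X hy]
    by_cases hd : Dp T v d s (al L v s • x)
    · rw [(e.iteratedFDeriv ℝ k).eq_of_nhds]
      have h1 := norm_iter_smul (fun y => X s y a b) (al_pos (L := L) (v := v) (s := s)) k x
      have h2 := (le_abs_self _).trans ((hP _ (hm L x hx r hd)).trans (le_abs_self P))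
      simp only [Pi.mul_apply, Pi.pow_apply, scl_al, mul_pow] at h2
      have h3 : 0 ≤ scl T s x ^ k := pow_nonneg (zero_le_one.trans (one_le_scl s hx')) k
      nlinarith [mul_le_mul_of_nonneg_left h1 h3]
    · refine z _ (e.trans ?_)
      have c : ContinuousAt (fun y : E4 => al L v s • y) x := by fun_prop
      filter_upwards [og, c.eventually (not_dp_ev (r.mem h hx') hd)] with y h1 h2
      rw [van_of hV (r.mem h h1) h2]; rfl
  · exact z _ (Eventually.of_forall fun y => by simp [toL_of_not r])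

theorem ip_zero {G A : MetricField 4} (S : Tn 4 2) (h0 : A x = 0) : ip G (matT A) S x = 0 := by
  simp [ip, ipA, matT, h0]

theorem ip_eq {G G' A A' B B' : MetricField 4} (h1 : G x = G' y) (h2 : A x = A' y)
    (h3 : B x = B' y) : ip G (matT A) (matT B) x = ip G' (matT A') (matT B') y := by
  simp only [ip, ipA, matT, h1, h2, h3]

theorem Big.prL (h : T.Ok) (B : Big T L d) (hV : Van T v d 0 X) {T0 : ℝ} (hT : d ≤ T0)
    (hl : Lng T (2 * T0 + 1) L) (k : Fam T) :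
    prL T L (gbL T g T0 L) v (toL T L v X) k = T.eps L v ^ 2 * pair T g v X (loc T L v k) := by
  simp only [NS.prL, intL, pair, Atl.int, Finset.mul_sum]
  refine Finset.sum_congr rfl fun s _ => ?_
  by_cases r : Rl T v s
  · have := B.int_tr h r
      (F := fun x => sq (gbL T g T0 L s) x * ip (gbL T g T0 L s) (matT (toL T L v X s)) (matT (k s)) x)
      (F' := fun y => sq (g v s) y * ip (g v s) (matT (X s)) (matT (loc T L v k s)) y)
      (fun x hx hd => by
        rw [ip_zero _ (toL_supp h hV hx fun i => hd ((inK_iff h).1 i).2), mul_zero])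
      (fun y hy hd => by rw [ip_zero _ (van_of hV hy hd), mul_zero])
      (fun x hx hd => by
        rw [ip_eq (r.gbL h g hT hl hx hd) (r.toL h X hx) (r.loc h k x).symm]
        simp only [Lg.sq, r.gbL h g hT hl hx hd])
    have e : sr T L v s = al L v s ^ 2 := by
      rw [sr, r.ep h, mul_div_cancel_left₀ _ (TD.eps_pos L v).ne']
    simp only [Atl.den, mul_assoc, mul_left_comm _ (sr T L v s), integral_const_mul]
    rw [e, r.ep h]
    change _ = _ * ((Nat.card (T.grp s) : ℝ)⁻¹ * ∫ y in (T.core v).U s, T.χ s ((T.core v).c s y) *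
      (sq (g v s) y * ip (g v s) (matT (X s)) (matT (loc T L v k s)) y))
    rw [← this]; ring
  · have e : (T.core v).U s = ∅ := eq_empty_of_forall_notMem fun y hy => r (rl_of_mem hy)
    simp [e, ip_zero _ (toL_of_not r X _)]

theorem Big.pair_gb (h : T.Ok) (B : Big T L d) (hV : Van T v d 0 X) {T0 : ℝ} (hT : d ≤ T0)
    (hl : Lng T (2 * T0 + 1) L) :
    pair T g v X (loc T L v (gbL T g T0 L)) = pair T g v X (g v) := by
  refine Finset.sum_congr rfl fun s _ => setIntegral_congr_fun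
    ((h.core_ok v).isOpen s).measurableSet fun y hy => ?_
  by_cases hd : Dp T v d s y
  · have r := rl_of_mem hy
    have e : al L v s • (al L v s)⁻¹ • y = y := smul_inv_smul₀ al_pos.ne' y
    have h1 := r.loc (L := L) h (gbL T g T0 L) ((al L v s)⁻¹ • y)
    rw [r.gbL h g hT hl (B.glob h (by rwa [e]) (by rwa [e])).1 (by rwa [e]), e] at h1
    simp only [ip_eq (G := g v s) (A := X s) rfl rfl h1]
  · simp only [ip_zero _ (van_of hV hy hd)]

end Tl

open Tl

/-- **leaf TOL** -/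
theorem tol (H : Std T g) : TOL T g := by
  intro κ _ _ ψ c η C hG
  have h := H.ok
  have hr := h.r_pos
  have hV : ∀ v j, Van T v (c + 1) 0 (ψ v j) := hG.psi.supp
  choose P hP using fun (p : (Σ v, κ v) × T.S × Fin 2 × Fin 4 × Fin 4) =>
    jet_bd h (hG.psi.sec p.1.1 p.1.2) (hV _ _) p.2.1 p.2.2.1 p.2.2.2.1 p.2.2.2.2
  obtain ⟨B1, hB1⟩ := (finite_range P).bddAbove
  obtain ⟨B2, hB2⟩ :=
    (finite_range fun j : Σ v, κ v => |pair T g j.1 (ψ j.1 j.2) (g j.1)|).bddAbove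
  have p1 : 0 < 16 / T.r := by positivity
  refine ⟨|B1| + |B2| + 1, |c + 1| + 16 / T.r + 1, by positivity, fun T0 hT L hL v j => ?_⟩
  have a0 := abs_nonneg (c + 1)
  have B : Big T L (c + 1) := big_of h (by linarith) hL
  have hT' : c + 1 ≤ T0 := by linarith [le_abs_self (c + 1)]
  have hl : Lng T (2 * T0 + 1) L := fun w hw => by linarith [hL w hw]
  refine ⟨B.toL_sec h (hG.psi.sec v j) (hV v j), fun s x hx => ?_,
    fun s x hx => toL_supp h (hV v j) hx, fun s x hx k hk a b => ?_, ?_,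
    fun k _ => B.prL h (hV v j) hT' hl k, ?_⟩
  · by_cases r : Rl T v s
    · rw [r.toL h _ hx]; exact (hG.psi.sec v j).symm s _ (r.mem h hx)
    · rw [toL_of_not r]; exact Matrix.isSymm_zero
  · have := hP (⟨v, j⟩, s, ⟨k, by omega⟩, a, b) L x hx
    linarith [hB1 ⟨(⟨v, j⟩, s, ⟨k, by omega⟩, a, b), rfl⟩, le_abs_self B1, abs_nonneg B2]
  · obtain ⟨σ, h1, h2⟩ := hG.eig v j
    refine ⟨σ, h1, fun s x hx => ?_⟩
    by_cases i : InK T L v (c + 1) s x
    · obtain ⟨r, hd⟩ := (inK_iff h).1 i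
      rw [r.toL h _ hx, r.gbL h g hT' hl hx hd]
      exact h2 s _ (r.mem h hx)
    · rw [toL_supp h (hV v j) hx i]
      simp [TRg, tr2]
  · rw [B.pair_gb h (hV v j) hT' hl]
    linarith [hB2 ⟨⟨v, j⟩, rfl⟩, le_abs_self B2, abs_nonneg B1]

end Crest.Agent.N207.NS

end
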