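import Crest.Agent.N207.N.Cmp2
import Crest.Agent.N207.N.CmpP
import Crest.Agent.N207.N.Gr1
import Crest.Agent.N207.N.Gr2
import Crest.Agent.N207.N.Chi
import Crest.Agent.N207.N.Mul
import Crest.Agent.N207.N.Tol_Mg
import Crest.Agent.N207.N.Gb
import Crest.Agent.N207.N.Har
import Crest.Agent.N207.N.Cmp1
import Crest.Agent.N207.N.Thb
import Crest.Agent.N207.N.Tay4

-- ▼ part N207/N/Cmp3
section

/-!
# Row 207, block N (helper4): `CMP`, the absorption argument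
-/

set_option autoImplicit false

open scoped ContDiff Topology
open Metric Set Filter MeasureTheory
open Crest.GeometryTopology.CoordMetric
open Crest.Agent.N207.I Crest.Agent.N207.Lg Crest.Agent.N207.CB

noncomputable section

namespace Crest.Agent.N207.NS.Cp

theorem small {X : ℝ} (hX : 0 ≤ X) : ∃ t : ℝ, 0 < t ∧ t ≤ 1 ∧ t * X ≤ 1 / 8 :=
  ⟨1 / (8 * X + 1), by positivity, (div_le_one (by positivity)).2 (by linarith), by
    rw [div_mul_eq_mul_div, div_le_iff₀ (by positivity)]; linarith⟩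

theorem sq_tri {a b A : ℝ} (h : (a - b) ^ 2 ≤ A) : a ^ 2 ≤ 2 * b ^ 2 + 2 * A ∧ b ^ 2 ≤ 2 * a ^ 2 + 2 * A :=
  ⟨by nlinarith [sq_nonneg (a - 2 * b)], by nlinarith [sq_nonneg (b - 2 * a)]⟩

/-- the numerical absorption -/
theorem absorb {N E Z0 Z FF PP Mu S Q W CX CH l B D u θ u1 KM e C' y a1 a3 : ℝ}
    (N0 : 0 ≤ N) (F0 : 0 ≤ FF) (P0 : 0 ≤ PP) (hX : 0 < CX) (hH : 0 < CH) (hl : 0 < l)
    (hu : 0 < u) (hu1 : 0 < u1) (hK : 0 < KM) (hC : 0 < C')
    (e1 : a1 = CX * (1 + CH) * l) (e3 : a3 = a1 * (B ^ 2 / u) + CX * CH)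
    (h1 : N ≤ CX * (E + Z0)) (h2 : Z0 ≤ CH * (E + Z))
    (h3 : l⁻¹ * E ≤ 2 * S + (2 * u + B * θ) * N + B ^ 2 / u * Z + D ^ 2 / u * FF)
    (h4 : 2 * S ≤ u1 * Mu + Q / u1) (h5 : Mu ≤ KM * (FF + N)) (h6 : Q ≤ 4 * PP + 6 * (y * N))
    (h7 : Z ≤ e * N + C' * W) (h8 : W ≤ 2 * PP + 2 * (y * N))
    (s1 : u * (2 * a1) ≤ 1 / 8) (s2 : θ * (a1 * B) ≤ 1 / 8) (s3 : a3 * e ≤ 1 / 8)
    (s4 : u1 * (a1 * KM) ≤ 1 / 8) (s5 : y * (6 * a1 / u1 + 2 * a3 * C') ≤ 1 / 8) :
    N + Mu ≤ ((1 + KM) * (3 * (a1 * (u1 * KM + D ^ 2 / u) + (4 * a1 / u1 + 2 * a3 * C'))) + KM) *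
      (FF + PP) := by
  have a0 : 0 < a1 := by rw [e1]; positivity
  have a30 : 0 < a3 := by rw [e3]; positivity
  have k1 : N ≤ a1 * (l⁻¹ * E) + CX * CH * Z := by
    have := mul_le_mul_of_nonneg_left h2 hX.le
    rw [e1, mul_assoc _ l, mul_inv_cancel_left₀ hl.ne']; linarith
  have k2 := mul_le_mul_of_nonneg_left h3 a0.le
  have k3 := mul_le_mul_of_nonneg_left h4 a0.le
  have k4 := mul_le_mul_of_nonneg_left h5 (mul_pos a0 hu1).le
  have k5 := mul_le_mul_of_nonneg_left h6 (div_pos a0 hu1).le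
  have k6 := mul_le_mul_of_nonneg_left h7 a30.le
  have k7 := mul_le_mul_of_nonneg_left h8 (mul_pos a30 hC).le
  have t1 := mul_le_mul_of_nonneg_right s1 N0
  have t2 := mul_le_mul_of_nonneg_right s2 N0
  have t3 := mul_le_mul_of_nonneg_right s3 N0
  have t4 := mul_le_mul_of_nonneg_right s4 N0
  have t5 := mul_le_mul_of_nonneg_right s5 N0
  have k8 : a3 * Z = a1 * (B ^ 2 / u) * Z + CX * CH * Z := by rw [e3]; ring
  obtain ⟨α, hα⟩ : ∃ α, α = a1 * (u1 * KM + D ^ 2 / u) := ⟨_, rfl⟩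
  obtain ⟨β, hβ⟩ : ∃ β, β = 4 * a1 / u1 + 2 * a3 * C' := ⟨_, rfl⟩
  have α0 : 0 ≤ α := by rw [hα]; positivity
  have β0 : 0 ≤ β := by rw [hβ]; positivity
  have k9 : 3 / 8 * N ≤ α * FF + β * PP := by
    simp only [hα, hβ, div_eq_mul_inv] at *
    linarith
  rw [← hα, ← hβ]
  have m1 := mul_nonneg α0 P0
  have m2 := mul_nonneg β0 F0
  have m3 := mul_nonneg α0 F0
  have m4 := mul_nonneg β0 P0
  have m5 : N ≤ 3 * (α + β) * (FF + PP) := by linarith
  have m6 := mul_le_mul_of_nonneg_left m5 (show 0 ≤ 1 + KM by positivity)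
  have m7 := mul_nonneg hK.le P0
  linarith

variable {M : Type*} (T : TD M) (g : T.V → Fam T)

section Props

variable (κ : T.V → Type) [∀ v, Fintype (κ v)] (ψ : ∀ v, κ v → Fam T) (c : ℝ)

/-- the multipliers are controlled by the source and the energy -/
def MUH : Prop := ∃ δ C T1 : ℝ, 0 < δ ∧ 0 < C ∧ ∀ T0, T1 ≤ T0 → ∀ L, Lng T (2 * T0 + T1) L →
  ∀ (b g1 g2 F : Fam T) (Ψ : (Σ v, κ v) → Fam T) (μ : (Σ v, κ v) → ℝ),
    Adm T g T0 L δ b → Adm T g T0 L δ g1 → Adm T g T0 L δ g2 →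
    (∀ j, Prt T L j.1 (c + 2) δ (ψ j.1 j.2) (Ψ j)) →
    (∀ s, ∀ x ∈ U1 T L s, ∀ p q, redT (b s) (g1 s) x ![p, q] - redT (b s) (g2 s) x ![p, q] =
      F s x p q + ∑ j, μ j * (sr T L j.1 s * Ψ j s x p q)) →
    IntL T L (fun s x => scl T s x ^ 2 * e0 (F s) x) →
    ∑ j, T.eps L j.1 ^ 2 * μ j ^ 2 ≤
      C * (intL T L (fun s x => scl T s x ^ 2 * e0 (F s) x) + En T L (g1 - g2))

/-- the pairing with a perturbation of `ψ` -/
def PRD : Prop := ∃ K δ0 T1 : ℝ, 0 < K ∧ 0 < δ0 ∧ ∀ T0, T1 ≤ T0 → ∀ L, Lng T (2 * T0 + T1) L →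
  ∀ δ, 0 ≤ δ → δ ≤ δ0 → ∀ (b k Φ : Fam T) (v : T.V) (j : κ v), Adm T g T0 L δ b →
    Prt T L v (c + 2) δ (ψ v j) Φ → (∀ s p q, ContDiffOn ℝ 1 (fun y => k s y p q) (U1 T L s)) →
    (∀ s, IntegrableOn (en T k s) (K1 T L s)) →
    (prL T L b v Φ k / T.eps L v - T.eps L v * pair T g v (ψ v j) (loc T L v k)) ^ 2 ≤
      K * δ ^ 2 * En T L k

end Props

variable {T g}

theorem good_mono {κ : T.V → Type} [∀ v, Fintype (κ v)] [∀ v, DecidableEq (κ v)]
    {ψ : ∀ v, κ v → Fam T} {c η η' C : ℝ} (h : Good T g κ ψ c η C) (e : η ≤ η') :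
    Good T g κ ψ c η' C :=
  ⟨h.psi, h.eig, h.dual, fun v w a b s => (h.loc v w a b s).trans (add_le_add_left
    (mul_le_mul_of_nonneg_right e (integral_nonneg fun x => add_nonneg (e1_nn _ x) (e0_nn _ x))) _)⟩

theorem prt_mono {L : T.V → ℝ} {v : T.V} {c δ δ' : ℝ} {ψ Φ : Fam T} (h : Prt T L v c δ ψ Φ)
    (e : δ ≤ δ') : Prt T L v c δ' ψ Φ := ⟨h.cont, fun s x hx a b => (h.near s x hx a b).trans e, h.supp⟩

theorem cmp_of (h : Std T g) (hJ : JETS T g) (hCh : CHI T) (hH : HAR T) (hL : LOCG T g) (hX : XC T)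
    (hM : ∀ (κ : T.V → Type) [∀ v, Fintype (κ v)] [∀ v, DecidableEq (κ v)] (ψ : ∀ v, κ v → Fam T)
      (c η C : ℝ), 2 ≤ c → Real.exp (-c) ≤ T.r / 8 → 0 < η → Good T g κ ψ c η C →
      MUH T g κ ψ c ∧ PRD T g κ ψ c) : CMP T g := by
  obtain ⟨Λ, C, hΛ, hC, hJ⟩ := hJ
  obtain ⟨TC, hch⟩ := hCh.ch h.ok
  obtain ⟨Cχ, TC', -, hCh⟩ := hCh
  obtain ⟨CH, TH, CH0, hH⟩ := hH
  obtain ⟨CX, TX, CX0, hX⟩ := hX
  obtain ⟨a1, e1'⟩ : ∃ a1, a1 = CX * (1 + CH) * Λ ^ 4 := ⟨_, rfl⟩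
  obtain ⟨B, eB⟩ : ∃ B, B = C * (1024 * Λ ^ 3 + 4096) := ⟨_, rfl⟩
  have a0 : 0 < a1 := by rw [e1']; positivity
  have B0 : 0 < B := by rw [eB]; positivity
  obtain ⟨u, u0, -, s1⟩ := small (X := 2 * a1) (by positivity)
  obtain ⟨θ, θ0, θ1, s2⟩ := small (X := a1 * B) (by positivity)
  obtain ⟨a3, e3⟩ : ∃ a3, a3 = a1 * (B ^ 2 / u) + CX * CH := ⟨_, rfl⟩
  have a30 : 0 < a3 := by rw [e3]; positivity
  obtain ⟨c0, δJ, TJ, δJ0, hJ⟩ := hJ θ θ0 θ1
  refine ⟨max c0 (max 2 (-Real.log (T.r / 8))), fun c hc => ?_⟩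
  simp only [max_le_iff] at hc
  have hr : Real.exp (-c) ≤ T.r / 8 :=
    (Real.le_log_iff_exp_le (by have := h.ok.r_pos; positivity)).1 (by linarith [hc.2.2])
  obtain ⟨η, η0, -, s3⟩ := small (X := a3 * (2 * Real.exp (4 * c + 2))) (by positivity)
  refine ⟨η, η0, fun κ _ _ ψ η' C0 hη hg => ?_⟩
  have hg' := good_mono hg hη
  obtain ⟨⟨δM, KM, TM, δM0, KM0, hM⟩, K, δP, TP, K0, δP0, hP⟩ := hM κ ψ c η C0 hc.2.1 hr η0 hg'
  obtain ⟨C', TL, C'0, hL⟩ := hL κ ψ c η C0 hc.2.1 η0.le hg'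
  obtain ⟨u1, u10, -, s4⟩ := small (X := a1 * KM) (by positivity)
  obtain ⟨δs, δs0, δs1, s5⟩ := small
    (X := Fintype.card (Σ v, κ v) * K * (6 * a1 / u1 + 2 * a3 * C')) (by positivity)
  obtain ⟨δ, δ0, d1, d2, d3, d4⟩ : ∃ δ, 0 < δ ∧ δ ≤ δJ ∧ δ ≤ δM ∧ δ ≤ δP ∧ δ ≤ δs :=
    ⟨min (min δJ δM) (min δP δs), by positivity, by simp, by simp, by simp, by simp⟩
  obtain ⟨T1, t0, t1, t2, t3, t4, t5, t6, t7, t8⟩ : ∃ T1, 0 ≤ T1 ∧ TC ≤ T1 ∧ TC' ≤ T1 ∧ TH ≤ T1 ∧
      TX ≤ T1 ∧ TJ ≤ T1 ∧ TM ≤ T1 ∧ TP ≤ T1 ∧ TL ≤ T1 :=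
    ⟨max (max (max 0 TC) (max TC' TH)) (max (max (max TX TJ) (max TM TP)) TL), by simp, by simp,
      by simp, by simp, by simp, by simp, by simp, by simp, by simp⟩
  refine ⟨δ, (1 + KM) * (3 * (a1 * (u1 * KM + (512 * Λ ^ 3) ^ 2 / u) + (4 * a1 / u1 + 2 * a3 * C'))) +
    KM, T1, δ0, by positivity, fun T0 hT L hL' b g1 g2 F Ψ Φ μ hb h1 h2 hΨ hΦ eq hF => ?_⟩
  have l0 : ∀ {t}, t ≤ T1 → Lng T t L := fun e => hL'.mono (by linarith)
  have l1 : ∀ {t}, t ≤ T1 → Lng T (2 * T0 + t) L := fun e => hL'.mono (by linarith)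
  have ch := hch L (l0 t1)
  have sec := h1.met.sec_sub h2.met
  have dec := dec_sub h1.met h2.met h1.dec h2.dec
  have ks := h1.met.sm_sub h2.met
  have k1 := fun s p q => (ks s p q).of_le (show (1 : WithTop ℕ∞) ≤ ∞ by simp)
  obtain ⟨hen, x1⟩ := hX L (l0 t4) _ sec dec
  have x2 := hH c hc.2.1 hr L (l0 t3) _ k1 dec
  have x3 := energy ch hb.met h1.met h2.met (hJ c hc.1 T0 (t5.trans hT) L (l1 t5) b g1 g2
    (hb.mono d1) (h1.mono d1) (h2.mono d1)) hΛ hC.le θ0.le u0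
    (fun s => (((hCh L (l0 t2)).2.2.2 s).2.2.2.2.2.2.2.2.2 c).1) (fun j => (hΨ j).cont)
    (fun j => (hΨ j).supp) eq hF hen
  have x5 := hM T0 (t6.trans hT) L (l1 t6) b g1 g2 F Ψ μ (hb.mono d2) (h1.mono d2) (h2.mono d2)
    (fun j => prt_mono (hΨ j) d2) eq hF
  have x7 := hL L (l0 t8) _ sec (fun s x hx => Matrix.IsSymm.ext fun p q => by
    simp only [Pi.sub_apply, Matrix.sub_apply, h1.met.symm hx p q, h2.met.symm hx p q]) dec
  have p1 := fun j : Σ v, κ v => sq_tri (hP T0 (t7.trans hT) L (l1 t7) δ δ0.le d3 b _ _ j.1 j.2 hb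
    (hΨ j) k1 hen)
  have p2 := fun j : Σ v, κ v => sq_tri (hP T0 (t7.trans hT) L (l1 t7) δ δ0.le d3 b _ _ j.1 j.2 hb
    (hΦ j) k1 hen)
  have zn : ∀ s x, 0 ≤ e0 ((g1 - g2) s) x / scl T s x ^ 2 := fun s x =>
    div_nonneg (e0_nn _ _) (sq_nonneg _)
  have ien := (ch.intL_le_K1 (ch.en_cont ks) (fun s x _ => add_nonneg (e1_nn _ _) (zn s x)) hen).1
  have zc : ∀ s, ContinuousOn (fun x => e0 ((g1 - g2) s) x / scl T s x ^ 2) (U1 T L s) := fun s =>
    (e0_cont fun p q => (ks s p q).continuousOn).div ((scl_cont s).pow 2).continuousOn fun x hx =>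
      (pow_pos (one_pos.trans_le (ch.cell s x (ch.U1_W1 s hx)).1) 2).ne'
  have iz := ch.IntL_of_le ien zc fun s x _ => by
    rw [abs_of_nonneg (zn s x)]; exact le_add_of_nonneg_left (e1_nn _ _)
  rw [intL_add (ch.IntL_congr (ien.sub iz) fun s x _ => (add_sub_cancel_right _ _).symm) iz] at x1
  rw [← eB, inv_pow] at x3
  have N0 : 0 ≤ En T L (g1 - g2) := Finset.sum_nonneg fun s _ => mul_nonneg (sq_nonneg _)
    (integral_nonneg fun x => add_nonneg (e1_nn _ _) (zn s x))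
  have sm : ∀ (f f' : (Σ v, κ v) → ℝ) (a y : ℝ), (∀ j, f j ≤ a * f' j + y) →
      ∑ j, f j ≤ a * ∑ j, f' j + Fintype.card (Σ v, κ v) * y := fun f f' a y e =>
    (Finset.sum_le_sum fun j _ => e j).trans_eq (by
      rw [Finset.sum_add_distrib, Finset.mul_sum, Finset.sum_const, Finset.card_univ, nsmul_eq_mul])
  refine absorb (y := Fintype.card (Σ v, κ v) * K * δ ^ 2) (e := 2 * Real.exp (4 * c + 2) * η)
    (Q := ∑ j, (prL T L b j.1 (Ψ j) (g1 - g2) / T.eps L j.1) ^ 2) N0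
    (ch.intL_nonneg fun s x _ => mul_nonneg (sq_nonneg _) (e0_nn _ _)) (by positivity) CX0 CH0
    (by positivity) u0 u10 KM0 C'0 e1' e3 x1 x2 x3 ?_ x5 ?_ x7 ?_ s1 s2 (by linarith) s4 ?_
  · simp only [Finset.mul_sum, Finset.sum_div, ← Finset.sum_add_distrib]
    refine Finset.sum_le_sum fun j _ => ?_
    have := (TD.eps_pos L j.1).ne'
    rw [← sub_nonneg, show u1 * (T.eps L j.1 ^ 2 * μ j ^ 2) + (prL T L b j.1 (Ψ j) (g1 - g2) /
      T.eps L j.1) ^ 2 / u1 - 2 * (μ j * prL T L b j.1 (Ψ j) (g1 - g2)) = (u1 * T.eps L j.1 * μ j -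
        prL T L b j.1 (Ψ j) (g1 - g2) / T.eps L j.1) ^ 2 / u1 by field_simp; ring]
    positivity
  · refine (sm _ _ 4 (6 * (K * δ ^ 2 * En T L (g1 - g2))) fun j => ?_).trans_eq (by ring)
    linarith [(p1 j).1, (p2 j).2]
  · refine (sm _ _ 2 (2 * (K * δ ^ 2 * En T L (g1 - g2))) fun j => ?_).trans_eq (by ring)
    rw [← mul_pow]; exact (p2 j).2
  · have : δ ^ 2 ≤ δs := by nlinarith
    have := mul_le_mul_of_nonneg_right this (show 0 ≤ Fintype.card (Σ v, κ v) * K *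
      (6 * a1 / u1 + 2 * a3 * C') by positivity)
    linarith

end Crest.Agent.N207.NS.Cp

end
end

-- ▼ part N207/N/Cmpj
section

/-!
# Row 207, block N (helper26): `CMP`, the pointwise package
-/

set_option autoImplicit false

open scoped ContDiff Topology
open Metric Set Filter
open Crest.GeometryTopology.CoordMetric
open Crest.Agent.N207.I Crest.Agent.N207.Lg Crest.Agent.N207.CB

noncomputable section

namespace Crest.Agent.N207.NS.Cp

theorem jet_tri {f u : E4 → ℝ} {x : E4} (hf : ContDiffAt ℝ ∞ f x) (hu : ContDiffAt ℝ ∞ u x) (k : ℕ) :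
    ‖iteratedFDeriv ℝ k f x‖ ≤
      ‖iteratedFDeriv ℝ k (fun y => f y - u y) x‖ + ‖iteratedFDeriv ℝ k u x‖ := by
  have hk : (k : WithTop ℕ∞) ≤ ∞ := by exact_mod_cast le_top
  have e : iteratedFDeriv ℝ k (fun y => f y - u y) x = _ :=
    iteratedFDeriv_sub_apply (hf.of_le hk) (hu.of_le hk)
  rw [e]
  exact norm_le_norm_sub_add _ _

theorem jet_dv {G : MetricField 4} {x : E4} {p q : Fin 4} (hG : ContDiffAt ℝ ∞ (fun y => G y p q) x)
    {k : ℕ} (h : k ≠ 0) :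
    iteratedFDeriv ℝ k (TD.dv G p q) x = iteratedFDeriv ℝ k (fun y => G y p q) x := by
  have hk : (k : WithTop ℕ∞) ≤ ∞ := by exact_mod_cast le_top
  have e : iteratedFDeriv ℝ k (TD.dv G p q) x = _ := iteratedFDeriv_sub_apply (hG.of_le hk)
    (contDiffAt_const (c := (1 : Matrix (Fin 4) (Fin 4) ℝ) p q))
  rw [e, iteratedFDeriv_const_of_ne h]
  simp

variable {M : Type*} {T : TD M} {g : T.V → Fam T}

theorem jets (h : Std T g) (hCO : CO) (hCh : CHI T) (hD : DIF) (hE : ELL T g) (hG : GB T g) :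
    JETS T g := by
  obtain ⟨δe, Λ, Te, hδe, hΛ, hell⟩ := hE
  obtain ⟨Cd, hCd, hdif⟩ := hD (Λ + 1)
  obtain ⟨Cc, hCc, hco, -⟩ := hCO Λ
  obtain ⟨T1, hch⟩ := hCh.ch h.ok
  obtain ⟨Cx, Tx, hCx, hchi⟩ := hCh
  obtain ⟨Tg, hgb⟩ := hG
  obtain ⟨C1, hg1⟩ := hgb 1
  obtain ⟨C2, hg2⟩ := hgb 2
  obtain ⟨Tm, hTm⟩ := (Set.toFinite ({0, Te, T1, Tx, Tg} : Set ℝ)).bddAbove
  simp only [mem_upperBounds, mem_insert_iff, mem_singleton_iff, forall_eq_or_imp,
    forall_eq] at hTm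
  obtain ⟨t0, te, t1, tx, tg⟩ := hTm
  have hΛ4 : 0 < Λ ^ 4 := by positivity
  refine ⟨Λ, Cd * (Λ + 1) + (Cx * Λ ^ 4 + Cc * (Λ + 1)), hΛ, by positivity, fun θ hθ hθ1 => ?_⟩
  have l1 : Tendsto (fun c : ℝ => Real.exp (-c)) atTop (𝓝 0) := Real.tendsto_exp_neg_atTop_nhds_zero
  have l2 : Tendsto (fun c : ℝ => (|C1| + |C2|) * (2 * Real.exp (-c / 2))) atTop (𝓝 0) := by
    have := ((l1.comp (tendsto_id.atTop_div_const two_pos)).const_mul 2).const_mul (|C1| + |C2|)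
    simpa [Function.comp_def, neg_div] using this
  obtain ⟨c0, hc0⟩ := eventually_atTop.1 ((eventually_ge_atTop 2).and
    ((l1.eventually_le_const (show 0 < T.r / 8 by have := h.ok.r_pos; positivity)).and
      (l2.eventually_le_const (show 0 < θ ^ 2 / 2 by positivity))))
  have hθ2 : θ ^ 2 ≤ θ := by nlinarith
  refine ⟨c0, min δe (θ ^ 2 / 2), Tm, by positivity,
    fun c hc T0 hT0 L hL b g1 g2 hb h1 h2 => ?_⟩
  obtain ⟨c1, c2, c3⟩ := hc0 c hc
  have m1 : ∀ {t}, t ≤ Tm → Lng T (2 * T0 + t) L := fun ht => hL.mono (by linarith)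
  have ch := hch L (hL.mono (by linarith))
  have chi := fun s => ((hchi L (hL.mono (by linarith))).2.2.2 s).2.2.2.2.2.2.2.2.2 c |>.2
  have gm := riem_of_rt ((hg1 T0 (tg.trans hT0)).2 L (m1 tg)).2.1
  have el := fun (H : Fam T) (hH : Adm T g T0 L (min δe (θ ^ 2 / 2)) H) s x (hx : x ∈ U1 T L s) =>
    hell T0 (te.trans hT0) L (m1 te) H s x (ch.U1_W1 s hx) ((hH.met.riem s).posDef x hx)
      ((hH.near.mono (min_le_left _ _)).val hx)
  have mb : ∀ H : Fam T, Adm T g T0 L (min δe (θ ^ 2 / 2)) H → ∀ s, ∀ x ∈ U1 T L s,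
      Mb Λ (H s) x := fun H hH s x hx =>
    have e := el H hH s x hx
    ⟨hΛ, (hH.met.riem s).posDef x hx, e.1, e.2.1, e.2.2.1, e.2.2.2.1⟩
  have s0 : ∀ s, ∀ x ∈ U1 T L s, 0 < scl T s x := fun s x hx =>
    one_pos.trans_le (ch.cell s x (ch.U1_W1 s hx)).1
  -- the size `e` of the jets
  have key : ∀ s, ∀ x ∈ U1 T L s, ∃ e : ℝ, 0 ≤ e ∧ e ≤ Λ + 1 ∧ √e ≤ (Λ + 1) * wθ T L c θ s x ∧
      e ≤ (Λ + 1) * wθ T L c θ s x ∧
      scl T s x * ‖fderiv ℝ (fun y => T.χ s ((T.glob L).c s y)) x‖ ≤ Cx * wθ T L c θ s x ∧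
      ∀ H : Fam T, Adm T g T0 L (min δe (θ ^ 2 / 2)) H → ∀ k, k ≠ 0 → k ≤ 2 → ∀ p q,
        scl T s x ^ k * ‖iteratedFDeriv ℝ k (fun y => H s y p q) x‖ ≤ e := fun s x hx => by
    have ga := fun p q => ((gm s).contDiffOn p q).contDiffAt ((gm s).isOpen.mem_nhds (ch.U1_U s hx))
    have tri : ∀ H : Fam T, Adm T g T0 L (min δe (θ ^ 2 / 2)) H → ∀ k, k ≤ 2 → ∀ p q,
        scl T s x ^ k * ‖iteratedFDeriv ℝ k (fun y => H s y p q) x‖ ≤ θ ^ 2 / 2 +
          scl T s x ^ k * ‖iteratedFDeriv ℝ k (fun y => gbL T g T0 L s y p q) x‖ :=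
      fun H hH k hk p q => by
        refine (mul_le_mul_of_nonneg_left (jet_tri (((hH.met.riem s).contDiffOn p q).contDiffAt
          ((ch.op1 s).mem_nhds hx)) (ga p q) k) (pow_nonneg (s0 s x hx).le k)).trans ?_
        rw [mul_add]
        exact add_le_add ((hH.near s x hx k hk p q).trans (min_le_right _ _)) le_rfl
    by_cases hi : x ∈ Cor T L c s
    · simp only [wθ, if_pos hi, mul_one]
      refine ⟨Λ + 1, by positivity, le_rfl, Real.sqrt_le_iff.2 ⟨by positivity, by nlinarith⟩,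
        le_rfl, (chi s x hx).2.1, fun H hH k _ hk p q => (tri H hH k hk p q).trans ?_⟩
      have := (el H hH s x hx).2.2.2.2 k (by omega) p q
      nlinarith
    · simp only [wθ, if_neg hi]
      obtain ⟨z, w, rfl, hw⟩ := (chi s x hx).2.2 c1 c2 hi
      refine ⟨θ ^ 2, by positivity, by nlinarith, by rw [Real.sqrt_sq hθ.le]; nlinarith,
        by nlinarith, by rw [z, norm_zero, mul_zero]; positivity,
        fun H hH k hk0 hk p q => (tri H hH k hk p q).trans ?_⟩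
      have w0 : 0 ≤ T.wt (1 / 2) L w x := by unfold TD.wt; split_ifs <;> positivity
      have a1 := ((hg1 T0 (tg.trans hT0)).2 L (m1 tg)).2.2.1 w x (ch.U1_U _ hx) p q
      have a2 := ((hg2 T0 (tg.trans hT0)).2 L (m1 tg)).2.2.1 w x (ch.U1_U _ hx) p q
      rw [jet_dv (ga p q) (by norm_num)] at a1 a2
      have b1 := mul_le_mul (show C1 ≤ |C1| + |C2| by linarith [le_abs_self C1, abs_nonneg C2])
        hw w0 (by positivity)
      have b2 := mul_le_mul (show C2 ≤ |C1| + |C2| by linarith [le_abs_self C2, abs_nonneg C1])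
        hw w0 (by positivity)
      have : k = 1 ∨ k = 2 := by omega
      rcases this with rfl | rfl
      · exact (add_le_add le_rfl (a1.trans (b1.trans c3))).trans_eq (by ring)
      · exact (add_le_add le_rfl (a2.trans (b2.trans c3))).trans_eq (by ring)
  have w0 : ∀ s x, 0 ≤ wθ T L c θ s x := fun s x => by unfold wθ; split_ifs <;> positivity
  refine ⟨mb b hb, mb g1 h1, fun s x hx p q => ?_, fun s x hx a i => ?_⟩
  · obtain ⟨e, e0, e1, e2, -, -, e5⟩ := key s x hx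
    have j : ∀ H : Fam T, Adm T g T0 L (min δe (θ ^ 2 / 2)) H → ∀ p q, |H s x p q| ≤ Λ + 1 ∧
        |(H s x)⁻¹ p q| ≤ Λ + 1 ∧ scl T s x * ‖iteratedFDeriv ℝ 1 (fun y => H s y p q) x‖ ≤ e ∧
        scl T s x ^ 2 * ‖iteratedFDeriv ℝ 2 (fun y => H s y p q) x‖ ≤ e := fun H hH p q =>
      ⟨((mb H hH s x hx).bd p q).1.trans (by linarith), ((mb H hH s x hx).bd p q).2.trans
        (by linarith), by simpa using e5 H hH 1 one_ne_zero one_le_two p q,
        e5 H hH 2 two_ne_zero le_rfl p q⟩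
    refine (hdif _ (b s) (g1 s) (g2 s) x _ e (hb.met.riem s) (h1.met.riem s) (h2.met.riem s) hx
      (s0 s x hx) e0 e1 (by
        simp only [List.mem_cons, List.not_mem_nil, or_false, forall_eq_or_imp, forall_eq]
        exact ⟨j b hb, j g1 h1, j g2 h2⟩) p q).trans (mul_le_mul_of_nonneg_right ?_ ?_)
    · have := w0 s x
      nlinarith [mul_le_mul_of_nonneg_left e2 hCd.le, mul_nonneg (mul_pos hCx hΛ4).le this,
        mul_nonneg (mul_pos hCc (show 0 < Λ + 1 by positivity)).le this]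
    · have := s0 s x hx; positivity
  · obtain ⟨e, e0, -, -, e3, e4, e5⟩ := key s x hx
    have j : ∀ H : Fam T, Adm T g T0 L (min δe (θ ^ 2 / 2)) H → ∀ p q, |H s x p q| ≤ Λ ∧
        |(H s x)⁻¹ p q| ≤ Λ ∧ scl T s x * ‖iteratedFDeriv ℝ 1 (fun y => H s y p q) x‖ ≤ e :=
      fun H hH p q => ⟨((mb H hH s x hx).bd p q).1, ((mb H hH s x hx).bd p q).2,
        by simpa using e5 H hH 1 one_ne_zero one_le_two p q⟩
    have k1 : scl T s x * |pderiv i (c6 (b s) (g1 s) a) x| ≤ Cc * e :=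
      hco _ (b s) (g1 s) x _ e (hb.met.riem s) (h1.met.riem s) hx (s0 s x hx) (by
        simp only [List.mem_cons, List.not_mem_nil, or_false, forall_eq_or_imp, forall_eq]
        exact ⟨j b hb, j g1 h1⟩) _ _ _ _ _ _ _
    have k2 := (mb b hb s x hx).c6 (mb g1 h1 s x hx) a
    have k3 := (mul_le_mul_of_nonneg_left (abs_pd _ x i) (s0 s x hx).le).trans e4
    have k4 := ch.χ_le_one hx
    have k5 := ch.χ_nonneg s ((T.glob L).c s x)
    rw [N.pd_mul (dAt (ch.χ_sm s) (ch.op1 s) hx)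
      (dAt (sm_c6 (hb.met.riem s) (h1.met.riem s) a) (ch.op1 s) hx)]
    refine (mul_le_mul_of_nonneg_left (abs_add_le _ _) (s0 s x hx).le).trans ?_
    rw [mul_add, abs_mul, abs_mul, abs_of_nonneg k5, ← mul_assoc, mul_left_comm]
    have := w0 s x
    have k6 := mul_le_mul k3 k2 (abs_nonneg _) (by positivity)
    have k7 := mul_le_mul k4 (k1.trans (mul_le_mul_of_nonneg_left e3 hCc.le))
      (mul_nonneg (s0 s x hx).le (abs_nonneg _)) zero_le_one
    nlinarith [mul_nonneg (mul_pos hCd (show 0 < Λ + 1 by positivity)).le this]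

end Crest.Agent.N207.NS.Cp

end
end

-- ▼ part N207/N/Cmpd
section

/-!
# Row 207, block N (helper88): `CMP`, perturbation of the pairing with the constraints
-/

set_option autoImplicit false

open scoped ContDiff Topology
open Metric Set Filter MeasureTheory
open Crest.GeometryTopology.CoordMetric
open Crest.Agent.N207.I Crest.Agent.N207.I.TD Crest.Agent.N207.Lg Crest.Agent.N207.CB

noncomputable section

namespace Crest.Agent.N207.NS.Cp

variable {M : Type*} {T : TD M} {L : T.V → ℝ} {v : T.V} {d C : ℝ}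

/-- the content of `VOL` used here -/
def Vl (T : TD M) (L : T.V → ℝ) (v : T.V) (d C : ℝ) : Prop :=
  ∀ s, MeasurableSet {x | InK T L v d s x} ∧
    IntegrableOn (fun _ => (1 : ℝ)) (T.gK L s ∩ {x | InK T L v d s x}) ∧
    ep T L s ^ 2 * (sr T L v s * (volume (T.gK L s ∩ {x | InK T L v d s x})).toReal) ≤
      C * T.eps L v ^ 2 ∧
    ∀ x ∈ U1 T L s, InK T L v d s x → sr T L v s * scl T s x ^ 2 ≤ C

theorem VOL.vl (h : VOL T) (d : ℝ) :
    ∃ C T1 : ℝ, 0 < C ∧ ∀ L, Lng T T1 L → ∀ v, Vl T L v d C := by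
  obtain ⟨C, T1, hC, h⟩ := h d
  exact ⟨C, T1, hC, fun L hL v s => ⟨((h L hL v).1 s).1, ((h L hL v).1 s).2.1,
    ((h L hL v).1 s).2.2.1, fun x hx k => (((h L hL v).1 s).2.2.2 x hx k).1⟩⟩

/-- the weighted indicator of depth `d` -/
def ind (T : TD M) (L : T.V → ℝ) (v : T.V) (d : ℝ) (s : T.S) : E4 → ℝ :=
  {x | InK T L v d s x}.indicator fun _ => sr T L v s

theorem ind_nn (s : T.S) (x : E4) : 0 ≤ ind T L v d s x :=
  indicator_nonneg (fun _ _ => (sr_pos L v s).le) x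

theorem ind_int (c : Ch T L) (h : Vl T L v d C) :
    IntL T L (ind T L v d) ∧ intL T L (ind T L v d) ≤ Fintype.card T.S * (C * T.eps L v ^ 2) := by
  have m := fun s => (c.cl_gK s).measurableSet.inter (h s).1
  have i : ∀ s, Integrable ((T.gK L s ∩ {x | InK T L v d s x}).indicator fun _ => sr T L v s) :=
    fun s => (integrable_indicator_iff (m s)).2
      (((h s).2.1.const_mul _).congr (Eventually.of_forall fun _ => mul_one _))
  have b : ∀ s, ∀ x ∈ U1 T L s, T.χ s ((T.glob L).c s x) * ind T L v d s x ≤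
      (T.gK L s ∩ {x | InK T L v d s x}).indicator (fun _ => sr T L v s) x := fun s x hx => by
    by_cases e : T.χ s ((T.glob L).c s x) = 0
    · rw [e, zero_mul]; exact indicator_nonneg (fun _ _ => (sr_pos L v s).le) x
    · refine (mul_le_of_le_one_left (ind_nn s x) (c.χ_le_one hx)).trans_eq ?_
      rw [← indicator_indicator, indicator_of_mem (c.χ_supp (c.U1_U s hx) e)]; rfl
  have I : IntL T L (ind T L v d) := fun s =>
    Integrable.mono' (i s).integrableOn ((((c.χ_sm s).continuousOn).aestronglyMeasurable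
      (c.op1 s).measurableSet).mul (aestronglyMeasurable_const.indicator (h s).1))
      ((ae_restrict_iff' (c.op1 s).measurableSet).2 (Eventually.of_forall fun x hx => by
        rw [Real.norm_of_nonneg (mul_nonneg (c.χ_nonneg s _) (ind_nn s x))]
        exact b s x hx))
  refine ⟨I, (Finset.sum_le_sum fun s _ => ?_).trans_eq
    (by rw [Finset.sum_const, Finset.card_univ, nsmul_eq_mul])⟩
  refine le_trans (mul_le_mul_of_nonneg_left ?_ (sq_nonneg _)) (h s).2.2.1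
  refine (mul_le_of_le_one_left (setIntegral_nonneg (c.op1 s).measurableSet fun x _ =>
    mul_nonneg (c.χ_nonneg s _) (ind_nn s x)) (Nat.cast_inv_le_one _)).trans
    ((setIntegral_mono_on (I s) (i s).integrableOn (c.op1 s).measurableSet (b s)).trans
      ((setIntegral_le_integral (i s) (Eventually.of_forall fun x =>
        indicator_nonneg (fun _ _ => (sr_pos L v s).le) x)).trans_eq ?_))
  rw [integral_indicator (m s), setIntegral_const, smul_eq_mul, mul_comm]; rfl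

theorem en_cont1 (c : Ch T L) {k : Fam T}
    (h : ∀ s a b, ContDiffOn ℝ 1 (fun x => k s x a b) (U1 T L s)) (s : T.S) :
    ContinuousOn (en T k s) (U1 T L s) :=
  (continuousOn_finsetSum _ fun a _ => continuousOn_finsetSum _ fun b _ =>
    continuousOn_finsetSum _ fun i _ => (Hd.contOn_pderiv (c.op1 s) (h s a b) i).pow 2).add
    ((e0_cont fun a b => (h s a b).continuousOn).div ((scl_cont s).pow 2).continuousOn
      fun x hx => (pow_pos (one_pos.trans_le (c.cell s x (c.U1_W1 s hx)).1) 2).ne')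

theorem en_nn (k : Fam T) (s : T.S) (x : E4) : 0 ≤ en T k s x :=
  add_nonneg (e1_nn _ x) (div_nonneg (e0_nn _ x) (sq_nonneg _))

theorem En_nn (c : Ch T L) (k : Fam T) : 0 ≤ En T L k :=
  Finset.sum_nonneg fun s _ => mul_nonneg (sq_nonneg _)
    (setIntegral_nonneg (c.cl_K1 s).measurableSet fun x _ => en_nn k s x)

theorem abs_intL_le (c : Ch T L) {D F : T.S → E4 → ℝ} (hD : IntL T L D) (hF : IntL T L F)
    (h : ∀ s, ∀ x ∈ U1 T L s, |D s x| ≤ F s x) : |intL T L D| ≤ intL T L F := by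
  have h1 := c.intL_mono hD hF fun s x hx => (le_abs_self _).trans (h s x hx)
  have h2 := c.intL_mono (hD.smul (-1)) hF fun s x hx => by
    rw [neg_one_mul]; exact (neg_le_abs _).trans (h s x hx)
  rw [intL_smul] at h2
  exact abs_le.2 ⟨by linarith, h1⟩

/-- Cauchy-Schwarz against a bounded field living within depth `d` -/
theorem loc_cs (c : Ch T L) (h : Vl T L v d C) (hC : 0 ≤ C) {k : Fam T}
    (hk : ∀ s a b, ContDiffOn ℝ 1 (fun x => k s x a b) (U1 T L s))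
    (hi : ∀ s, IntegrableOn (en T k s) (K1 T L s)) {D : T.S → E4 → ℝ} {A : ℝ} (hD : IntL T L D)
    (h1 : ∀ s, ∀ x ∈ U1 T L s, |D s x| ≤ sr T L v s * (A * √(e0 (k s) x)))
    (h0 : ∀ s, ∀ x ∈ U1 T L s, ¬ InK T L v d s x → D s x = 0) :
    intL T L D ^ 2 ≤ 4 * (En T L k * (A ^ 2 * C * (Fintype.card T.S * (C * T.eps L v ^ 2)))) := by
  obtain ⟨i1, b1⟩ := c.intL_le_K1 (en_cont1 c hk) (fun s x _ => en_nn k s x) hi
  obtain ⟨i2, b2⟩ := ind_int c h
  refine sq_le_of_forall (En_nn c k) (by positivity) fun u hu => ?_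
  refine (abs_intL_le c hD ((i1.smul u).add (i2.smul (A ^ 2 * C / u))) fun s x hx => ?_).trans ?_
  · by_cases e : InK T L v d s x
    · have p : 0 < scl T s x := one_pos.trans_le (c.cell s x (c.U1_W1 s hx)).1
      have q := amgm hu A (√(e0 (k s) x) / scl T s x) (sr T L v s * scl T s x)
      rw [div_pow, Real.sq_sqrt (e0_nn _ x)] at q
      rw [show ind T L v d s x = sr T L v s from indicator_of_mem e _]
      refine (h1 s x hx).trans ((le_of_eq_of_le (by field_simp) q).trans (add_le_add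
        (mul_le_mul_of_nonneg_left (le_add_of_nonneg_left (e1_nn _ x)) hu.le) ?_))
      rw [div_mul_eq_mul_div, mul_assoc]
      refine div_le_div_of_nonneg_right (mul_le_mul_of_nonneg_left ?_ (sq_nonneg _)) hu.le
      have := mul_le_mul_of_nonneg_right ((h s).2.2.2 x hx e) (sr_pos L v s).le
      linarith [show (sr T L v s * scl T s x) ^ 2 = sr T L v s * scl T s x ^ 2 * sr T L v s by ring]
    · rw [h0 s x hx e, abs_zero]
      have := en_nn k s x
      have := ind_nn (L := L) (v := v) (d := d) s x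
      positivity
  · rw [intL_add (i1.smul u) (i2.smul _), intL_smul, intL_smul, mul_div_right_comm (A ^ 2 * C)]
    exact add_le_add (mul_le_mul_of_nonneg_left b1 hu.le)
      (mul_le_mul_of_nonneg_left b2 (by positivity))

variable {g : T.V → Fam T} {κ : T.V → Type} {ψ : ∀ v, κ v → Fam T} {c : ℝ}

/-- **perturbation of the pairing** -/
theorem prd (h : Std T g) (hCo : CO) (hCh : CHI T) (hV : VOL T) (hE : ELL T g) (hG : GB T g)
    (ht : Tol T g κ ψ c) : ∃ K d0 T1 : ℝ, 0 < K ∧ 0 < d0 ∧ ∀ T0, T1 ≤ T0 →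
      ∀ L, Lng T (2 * T0 + T1) L → ∀ d, 0 ≤ d → d ≤ d0 → ∀ (b k Φ : Fam T) (v : T.V) (j : κ v),
        Adm T g T0 L d b → Prt T L v (c + 2) d (ψ v j) Φ →
        (∀ s p q, ContDiffOn ℝ 1 (fun y => k s y p q) (U1 T L s)) →
        (∀ s, IntegrableOn (en T k s) (K1 T L s)) →
        (prL T L b v Φ k / T.eps L v - T.eps L v * pair T g v (ψ v j) (loc T L v k)) ^ 2 ≤
          K * d ^ 2 * En T L k := by
  obtain ⟨t1, hCh⟩ := hCh.ch h.ok
  obtain ⟨C, t2, hC, hV⟩ := VOL.vl hV (c + 2)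
  obtain ⟨δ, Λ, t3, hδ, hΛ, hE⟩ := hE
  obtain ⟨t4, hG⟩ := hG
  obtain ⟨_, hG⟩ := hG 0
  obtain ⟨P, t5, hP, ht⟩ := ht
  obtain ⟨C', hC', -, hCo⟩ := hCo Λ
  obtain ⟨T1, a0, a1, a2, a3, a4, a5⟩ : ∃ T1 : ℝ, 0 ≤ T1 ∧ t1 ≤ T1 ∧ t2 ≤ T1 ∧ t3 ≤ T1 ∧ t4 ≤ T1 ∧
      t5 ≤ T1 := ⟨max 0 (max t1 (max t2 (max t3 (max t4 t5)))), by simp, by simp, by simp, by simp,
    by simp, by simp⟩
  refine ⟨4 * ((256 * (Λ ^ 3 + C' * P)) ^ 2 * C * (Fintype.card T.S * C)) + 1, δ, T1,
    by positivity, hδ, fun T0 hT L hL d hd hd' b k Φ v j hb hΦ hk hi => ?_⟩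
  have ch := hCh L (hL.mono (by linarith))
  have hg := ch.met1 ((hG T0 (by linarith)).2 L (hL.mono (by linarith))).2.1
  obtain ⟨s1, -, s3, s4, -, s6, -⟩ := ht T0 (by linarith) L (hL.mono (by linarith)) v j
  have mb : ∀ {H : Fam T}, Met1 T L H → ∀ s, ∀ x ∈ U1 T L s,
      (∀ p q, |H s x p q - gbL T g T0 L s x p q| ≤ δ) → Mb Λ (H s) x := fun {H} m s x hx e => by
    have := hE T0 (by linarith) L (hL.mono (by linarith)) H s x (ch.U1_W1 s hx)
      ((m.riem s).posDef x hx) e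
    exact ⟨hΛ, (m.riem s).posDef x hx, this.1, this.2.1, this.2.2.1, this.2.2.2.1⟩
  have kc := fun s p q => (hk s p q).continuousOn
  have c1 : ∀ s p q, ContinuousOn (fun x => toL T L v (ψ v j) s x p q) (U1 T L s) :=
    fun s p q => (sm_of_rt (s1.sm s) p q).continuousOn.mono (ch.U1_U s)
  have z1 : ∀ s, ∀ x ∈ U1 T L s, ¬ InK T L v (c + 2) s x → toL T L v (ψ v j) s x = 0 :=
    fun s x hx e => s3 s x (ch.U1_U s hx) fun e' => e (e'.mono (by linarith))
  have i1 := ch.prL_int hb.met hΦ.cont hΦ.supp kc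
  have i2 := ch.prL_int hg c1 z1 kc
  have key := loc_cs ch (hV L (hL.mono (by linarith)) v) hC.le hk hi (i1.sub i2)
    (A := 256 * (Λ ^ 3 + C' * P) * d) (fun s x hx => ?_) fun s x hx e => by
      simp [ip_zero (hΦ.supp s x hx e), ip_zero (z1 s x hx e)]
  · rw [intL_sub i1 i2] at key
    change (prL T L b v Φ k - prL T L _ v _ k) ^ 2 ≤ _ at key
    have p := eps_pos L v
    rw [s6 k kc] at key
    rw [show prL T L b v Φ k / T.eps L v - T.eps L v * pair T g v (ψ v j) (loc T L v k) =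
      (prL T L b v Φ k - T.eps L v ^ 2 * pair T g v (ψ v j) (loc T L v k)) / T.eps L v by
        field_simp, div_pow, div_le_iff₀ (by positivity)]
    have := mul_nonneg (mul_nonneg (sq_nonneg d) (En_nn ch k)) (sq_nonneg (T.eps L v))
    exact key.trans ((le_add_of_nonneg_right this).trans_eq (by ring))
  · have m1 := mb hb.met s x hx fun p q => (hb.near.val hx p q).trans hd'
    have m2 := mb hg s x hx fun p q => by simpa using hδ.le
    rw [← mul_sub, abs_mul, abs_of_pos (sr_pos L v s)]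
    refine mul_le_mul_of_nonneg_left ((prl_sub (b := b s) (b' := gbL T g T0 L s) (t := k s) (x := x)
      (X := Φ s x) (Y := toL T L v (ψ v j) s x) (B := Λ ^ 3 * d + C' * d * P)
      fun p p' q q' => ?_).trans_eq (by ring)) (sr_pos L v s).le
    have e1 := hCo (b s) (gbL T g T0 L s) x d m1.pos m2.pos (fun H hH => by
      simp only [List.mem_cons, List.not_mem_nil, or_false] at hH
      rcases hH with rfl | rfl
      exacts [m1.bd, m2.bd]) (hb.near.val hx) p q p' q'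
    have e2 : |toL T L v (ψ v j) s x p q| ≤ P := by simpa using s4.val (ch.U1_W1 s hx) p q
    rw [show ∀ a a' X Y : ℝ, a * X - a' * Y = a * (X - Y) + (a - a') * Y from fun _ _ _ _ => by ring]
    refine (abs_add_le _ _).trans (add_le_add ?_ ?_) <;> rw [abs_mul]
    · exact mul_le_mul (m1.co _ _ _ _) (hΦ.near s x hx p q) (abs_nonneg _) (by positivity)
    · exact mul_le_mul e1 e2 (abs_nonneg _) (by positivity)

end Crest.Agent.N207.NS.Cp

end
end

-- ▼ part N207/N/Cmp4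
section

/-!
# Row 207, block N (helper4): `CMP` modulo the multiplier bound
-/

set_option autoImplicit false

open Crest.Agent.N207.I Crest.Agent.N207.CB

noncomputable section

namespace Crest.Agent.N207.NS.Cp

variable {M : Type*} {T : TD M} {g : T.V → Fam T}

theorem cmp_muh (h : Std T g)
    (hM : ∀ (κ : T.V → Type) [∀ v, Fintype (κ v)] [∀ v, DecidableEq (κ v)] (ψ : ∀ v, κ v → Fam T)
      (c η C : ℝ), 2 ≤ c → Real.exp (-c) ≤ T.r / 8 → 0 < η → Good T g κ ψ c η C →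
      Tol T g κ ψ c → MUH T g κ ψ c) : CMP T g :=
  cmp_of h (jets h co (chi h) dif (ell h) (gb' h)) (chi h) (har h) (locg h) (xc h)
    fun κ _ _ ψ c η C a b e hg => ⟨hM κ ψ c η C a b e hg (tol h κ ψ c η C hg),
      prd h co (chi h) (vol h) (ell h) (gb' h) (tol h κ ψ c η C hg)⟩

end Crest.Agent.N207.NS.Cp

end
end

-- ▼ part N207/N/Muh1
section

/-!
# Row 207, block N (helper32): the multipliers in `CMP`, tools
-/

set_option autoImplicit false

open scoped ContDiff Topology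
open Metric Set Filter MeasureTheory
open Crest.GeometryTopology.CoordMetric
open Crest.Agent.N207.I Crest.Agent.N207.Lg Crest.Agent.N207.CB Crest.Agent.N207.NS.Cp

noncomputable section

namespace Crest.Agent.N207.NS.Mu

/-- the difference of the reduced Ricci tensors -/
def DD (b g1 g2 : MetricField 4) (x : E4) : Matrix (Fin 4) (Fin 4) ℝ :=
  Matrix.of fun p q => redT b g1 x ![p, q] - redT b g2 x ![p, q]

/-- the divergence that is added -/
def GG (φ : E4 → ℝ) (b g k t : MetricField 4) (x : E4) : ℝ :=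
  φ x * prl b t x (Lq g k x) + φ x * Bq b g k t x + Dq (fun a y => φ y * c6 b g a y) k t x

/-- bounds for a metric and its 2-jet -/
def MJ (Λ r : ℝ) (H : MetricField 4) (x : E4) : Prop :=
  Mb Λ H x ∧ ∀ k ≤ 2, ∀ p q, r ^ k * ‖iteratedFDeriv ℝ k (fun y => H y p q) x‖ ≤ Λ

theorem pt_bd (hco : CO) (hdif : DIF) (Λ X : ℝ) (hX : 0 ≤ X) : ∃ K0 : ℝ, 0 ≤ K0 ∧
    ∀ (U : Set E4) (b0 b g1 g2 Z F : MetricField 4) (φ : E4 → ℝ) (x : E4) (r P : ℝ),
      IsRiemannianOn b0 U → IsRiemannianOn b U → IsRiemannianOn g1 U → IsRiemannianOn g2 U →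
      x ∈ U → 0 < r → DifferentiableAt ℝ φ x → MJ Λ r b0 x → MJ Λ r b x → MJ Λ r g1 x →
      MJ Λ r g2 x → √(e0 Z x) ≤ P → r * √(e1 Z x) ≤ P → 0 ≤ φ x → φ x ≤ 1 →
      r * ‖fderiv ℝ φ x‖ ≤ X →
      |φ x * prl b0 Z x (DD b g1 g2 x - F x) + 1 / 2 * GG φ b0 g1 (g1 - g2) Z x| ≤
        K0 * P * (√(e1 (g1 - g2) x) / r + √(e0 (g1 - g2) x) / r ^ 2 + φ x * √(e0 F x)) := by
  obtain ⟨C1, C10, h1, -⟩ := hco Λ
  obtain ⟨C2, C20, h2⟩ := hdif Λ
  refine ⟨256 * (|Λ| ^ 3 * (C2 * √Λ + 1)) + 4096 * Λ ^ 4 + 4096 * (X * Λ ^ 4 + C1 * |Λ|),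
    by positivity, fun U b0 b g1 g2 Z F φ x r P r0 rb r1 r2 hx hr dφ m0 mb m1 m2 z0 z1 φ0 φ1 φd => ?_⟩
  have Λ1 := m0.1.one
  rw [abs_of_nonneg (by linarith : 0 ≤ Λ)]
  have P0 : 0 ≤ P := (Real.sqrt_nonneg _).trans z0
  set u := √(e1 (g1 - g2) x) / r with hu
  set w := √(e0 (g1 - g2) x) / r ^ 2
  set f := √(e0 F x)
  have u0 : 0 ≤ u := by positivity
  have w0 : 0 ≤ w := by positivity
  have f0 : 0 ≤ f := Real.sqrt_nonneg _
  have j1 : ∀ {H}, MJ Λ r H x → ∀ p q, r * ‖iteratedFDeriv ℝ 1 (fun y => H y p q) x‖ ≤ Λ :=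
    fun h p q => by simpa only [pow_one] using h.2 1 one_le_two p q
  have a1 := m0.1.prl (t := Z) (X := DD b g1 g2 x + (1 / 2 : ℝ) • Lq g1 (g1 - g2) x)
    (P := C2 * √Λ * (u + w)) fun p q => h2 U b g1 g2 x r Λ rb r1 r2 hx hr (by linarith) le_rfl
      (fun H hH p q => by
        have : MJ Λ r H x := by
          simp only [List.mem_cons, List.not_mem_nil, or_false] at hH
          rcases hH with rfl | rfl | rfl <;> assumption
        exact ⟨(this.1.bd p q).1, (this.1.bd p q).2, j1 this p q, this.2 2 le_rfl p q⟩) p q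
  have a2 := m0.1.prl (t := Z) (X := F x) (P := f) fun p q => Cp.abs_le_e0 p q
  have a3 := m0.1.Bq (k := g1 - g2) (t := Z) m1.1
  have a4 := Dq_le (c := fun a y => φ y * c6 b0 g1 a y) (k := g1 - g2) (t := Z) (x := x)
    (B := (X * Λ ^ 4 + C1 * Λ) / r) fun a i => by
      rw [N.pd_mul dφ (dAt (sm_c6 r0 r1 a) r0.isOpen hx), le_div_iff₀' hr]
      have b1 := h1 U b0 g1 x r Λ r0 r1 hx hr (fun H hH p q => by
        have : MJ Λ r H x := by
          simp only [List.mem_cons, List.not_mem_nil, or_false] at hH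
          rcases hH with rfl | rfl <;> assumption
        exact ⟨(this.1.bd p q).1, (this.1.bd p q).2, j1 this p q⟩) i a.2.2.2.2.1 a.2.2.2.2.2 a.1
          a.2.2.1 a.2.1 a.2.2.2.1
      have b2 := (mul_le_mul_of_nonneg_left (abs_pd φ x i) hr.le).trans φd
      have b3 := mul_le_mul b2 (m0.1.c6 m1.1 a) (abs_nonneg _) hX
      have b4 := mul_le_mul φ1 b1 (by positivity) zero_le_one
      refine (mul_le_mul_of_nonneg_left (abs_add_le _ _) hr.le).trans ?_
      rw [abs_mul, abs_mul, abs_of_nonneg φ0]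
      unfold c6 at b3 ⊢
      linarith
  have e : φ x * prl b0 Z x (DD b g1 g2 x - F x) + 1 / 2 * GG φ b0 g1 (g1 - g2) Z x =
      φ x * prl b0 Z x (DD b g1 g2 x + (1 / 2 : ℝ) • Lq g1 (g1 - g2) x) - φ x * prl b0 Z x (F x) +
        1 / 2 * (φ x * Bq b0 g1 (g1 - g2) Z x) +
        1 / 2 * Dq (fun a y => φ y * c6 b0 g1 a y) (g1 - g2) Z x := by
    simp only [GG, map_sub, map_add, map_smul, smul_eq_mul]; ring
  have c1 : |φ x * prl b0 Z x (DD b g1 g2 x + (1 / 2 : ℝ) • Lq g1 (g1 - g2) x)| ≤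
      256 * (Λ ^ 3 * (C2 * √Λ)) * P * (u + w) := by
    rw [abs_mul, abs_of_nonneg φ0]
    refine (mul_le_of_le_one_left (abs_nonneg _) φ1).trans (a1.trans ?_)
    calc _ ≤ 256 * (Λ ^ 3 * (C2 * √Λ * (u + w)) * P) := by gcongr
      _ = _ := by ring
  have c2 : |φ x * prl b0 Z x (F x)| ≤ 256 * Λ ^ 3 * P * (φ x * f) := by
    rw [abs_mul, abs_of_nonneg φ0]
    calc _ ≤ φ x * (256 * (Λ ^ 3 * f * P)) := by
          refine mul_le_mul_of_nonneg_left (a2.trans ?_) φ0; gcongr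
      _ = _ := by ring
  have c3 : |φ x * Bq b0 g1 (g1 - g2) Z x| ≤ 4096 * Λ ^ 4 * P * u := by
    rw [abs_mul, abs_of_nonneg φ0]
    refine (mul_le_of_le_one_left (abs_nonneg _) φ1).trans (a3.trans ?_)
    calc _ = 4096 * Λ ^ 4 * (r * √(e1 Z x)) * u := by rw [hu]; field_simp
      _ ≤ _ := by gcongr
  have c4 : |Dq (fun a y => φ y * c6 b0 g1 a y) (g1 - g2) Z x| ≤
      4096 * (X * Λ ^ 4 + C1 * Λ) * P * u := by
    refine a4.trans ?_
    calc _ = 4096 * (X * Λ ^ 4 + C1 * Λ) * √(e0 Z x) * u := by rw [hu]; field_simp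
      _ ≤ _ := by gcongr
  have q1 : 0 ≤ 256 * (Λ ^ 3 * (C2 * √Λ)) * P := by positivity
  have q2 : 0 ≤ 256 * Λ ^ 3 * P := by positivity
  have q3 : 0 ≤ 4096 * Λ ^ 4 * P := by positivity
  have q4 : 0 ≤ 4096 * (X * Λ ^ 4 + C1 * Λ) * P := by positivity
  have v0 : 0 ≤ φ x * f := by positivity
  rw [e, abs_le]
  rw [abs_le] at c1 c2 c3 c4
  constructor <;> nlinarith [mul_nonneg q1 v0, mul_nonneg q2 u0, mul_nonneg q2 w0, mul_nonneg q3 u0,
    mul_nonneg q3 w0, mul_nonneg q3 v0, mul_nonneg q4 u0, mul_nonneg q4 w0, mul_nonneg q4 v0]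

theorem GG_zero {φ : E4 → ℝ} {b g k t : MetricField 4} {x : E4}
    (h : φ =ᶠ[𝓝 x] (fun _ => 0) ∨ t =ᶠ[𝓝 x] fun _ => 0) : GG φ b g k t x = 0 := by
  rcases h with h | h
  · have : ∀ a i, pderiv i (fun y => φ y * c6 b g a y) x = 0 := fun a i => by
      rw [pd_congr i (g := fun _ => 0) (h.mono fun y hy => by simp [hy]), pd_const]
    simp [GG, Dq, this, h.self_of_nhds]
  · have : ∀ a i, pderiv i (t6 t a) x = 0 := fun a i => by
      rw [pd_congr i (g := fun _ => 0) (h.mono fun y hy => by simp [t6, hy]), pd_const]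
    simp [GG, Dq, Bq, this, prl_eq, t6, h.self_of_nhds]

theorem GG_eq (φ : E4 → ℝ) (b g k t : MetricField 4) (x : E4) : GG φ b g k t x =
    ∑ a, φ x * c6 b g a x * pderiv a.2.2.2.2.1 (s6 k a) x * t6 t a x +
      ∑ a, φ x * c6 b g a x * s6 k a x * pderiv a.2.2.2.2.1 (t6 t a) x +
        Dq (fun a y => φ y * c6 b g a y) k t x := by
  simp only [GG, prl_Lq, Bq, Finset.mul_sum, mul_assoc]

theorem GG_cont {U : Set E4} {φ : E4 → ℝ} {b g k t : MetricField 4} (hb : IsRiemannianOn b U)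
    (hg : IsRiemannianOn g U) (hφ : ContDiffOn ℝ ∞ φ U)
    (hk : ∀ p q, ContDiffOn ℝ ∞ (fun y => k y p q) U)
    (ht : ∀ p q, ContDiffOn ℝ ∞ (fun y => t y p q) U) : ContinuousOn (GG φ b g k t) U := by
  have c := fun a => hφ.mul (sm_c6 hb hg a)
  have s : ∀ a, ContDiffOn ℝ ∞ (s6 k a) U := fun a => sm_pd hb.isOpen (hk _ _) _
  have t' : ∀ a, ContDiffOn ℝ ∞ (t6 t a) U := fun a => ht _ _
  refine ContinuousOn.congr (ContDiffOn.continuousOn (n := ∞) (𝕜 := ℝ) ?_) fun x _ => GG_eq ..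
  exact ((ContDiffOn.sum fun a _ => ((c a).mul (sm_pd hb.isOpen (s a) _)).mul (t' a)).add
    (ContDiffOn.sum fun a _ => ((c a).mul (s a)).mul (sm_pd hb.isOpen (t' a) _))).add
    (ContDiffOn.sum fun a _ => ((sm_pd hb.isOpen (c a) _).mul (s a)).mul (t' a))

theorem int_bd {U K S : Set E4} (hU : MeasurableSet U) (hK : MeasurableSet K) (hS : MeasurableSet S)
    {G f f' : E4 → ℝ} {a : ℝ} (hf : IntegrableOn f K) (hf' : IntegrableOn f' U)
    (hi : IntegrableOn (fun _ => (1 : ℝ)) S) (f0 : ∀ x, 0 ≤ f x) (f1 : ∀ x ∈ U, 0 ≤ f' x)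
    (ha : 0 ≤ a) (hSK : S ⊆ K) (h1 : ∀ x ∈ U, x ∈ S → |G x| ≤ f x + f' x + a)
    (h0 : ∀ x ∈ U, x ∉ S → G x = 0) :
    |∫ x in U, G x| ≤ (∫ x in K, f x) + (∫ x in U, f' x) + a * (volume S).toReal := by
  have i1 := (integrable_indicator_iff hK).2 hf
  have i3 := (integrable_indicator_iff hS).2 (hi.const_mul a)
  have := norm_integral_le_of_norm_le (μ := volume.restrict U) (f := G)
    ((i1.integrableOn.add hf').add i3.integrableOn)
    ((ae_restrict_iff' hU).2 (Eventually.of_forall fun x hx => by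
      simp only [Pi.add_apply]
      by_cases e : x ∈ S
      · rw [indicator_of_mem (hSK e), indicator_of_mem e, mul_one]; exact h1 x hx e
      · rw [h0 x hx e, norm_zero, indicator_of_notMem e, add_zero]
        exact add_nonneg (indicator_nonneg (fun y _ => f0 y) x) (f1 x hx)))
  refine this.trans ?_
  rw [integral_add' (i1.integrableOn.add hf') i3.integrableOn, integral_add' i1.integrableOn hf']
  refine add_le_add (add_le_add ?_ le_rfl) ?_
  · rw [← integral_indicator hK]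
    exact setIntegral_le_integral i1 (Eventually.of_forall (indicator_nonneg fun y _ => f0 y))
  · refine (setIntegral_le_integral i3 (Eventually.of_forall
      (indicator_nonneg fun y _ => by positivity))).trans_eq ?_
    rw [integral_indicator hS]
    simp [Measure.real, mul_comm]

variable {M : Type*} {T : TD M} {L : T.V → ℝ} {g : T.V → Fam T}

theorem ev_not {v : T.V} {d : ℝ} {s : T.S} {x : E4} (hx : x ∈ U1 T L s) (h : ¬ InK T L v d s x) :
    ∀ᶠ y in 𝓝 x, ¬ InK T L v d s y := by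
  rcases s with a | w
  · exact Eventually.of_forall fun _ => h
  · have x0 : ‖x‖ ≠ 0 := ne_of_gt (lt_trans (by norm_num) hx.1)
    have c1 : ContinuousAt (fun y : E4 => Real.log ‖y‖) x := continuous_norm.continuousAt.log x0
    have c2 : ContinuousAt (fun y : E4 => -Real.log ‖Real.exp (-L w) • y‖) x :=
      ((continuous_const_smul _).norm.continuousAt.log (by
        rw [norm_smul]; exact mul_ne_zero (norm_ne_zero_iff.2 (Real.exp_pos _).ne') x0)).neg
    simp only [InK, Sum.elim_inr, not_or, not_and, not_le] at h ⊢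
    refine Eventually.and ?_ ?_
    · by_cases e : w = v
      · exact (c1.eventually (lt_mem_nhds (h.1 e))).mono fun _ k _ => k
      · exact Eventually.of_forall fun _ k => absurd k e
    · by_cases e : T.kid v w
      · exact (c2.eventually (lt_mem_nhds (h.2 e))).mono fun _ k _ => k
      · exact Eventually.of_forall fun _ k => absurd k e

theorem intOn (c : Ch T L) {v : T.V} {d : ℝ} {s : T.S} {f : E4 → ℝ}
    (hf : ContinuousOn f (U1 T L s))
    (hz : ∀ x ∈ U1 T L s, x ∉ T.gK L s ∩ {x | InK T L v d s x} → f x = 0) :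
    IntegrableOn f (U1 T L s) := by
  obtain ⟨K, hK, h1, h2⟩ : ∃ K, IsCompact K ∧ K ⊆ U1 T L s ∧
      ∀ x ∈ K1 T L s, InK T L v d s x → x ∈ K := by
    by_cases hs : s = Sum.inr T.root
    · refine ⟨closedBall 0 (Real.exp d) ∩ K1 T L s,
        (isCompact_closedBall _ _).inter_right (c.cl_K1 s), inter_subset_right.trans (c.K1_U1 s),
        fun x hx hi => ⟨?_, hx⟩⟩
      subst hs
      have h0 : 0 < ‖x‖ := lt_of_lt_of_le (by norm_num) hx.1
      rcases hi with hi | hi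
      · exact mem_closedBall_zero_iff.2 ((Real.log_le_iff_le_exp h0).1 hi.2)
      · exact absurd rfl hi.1.1
    · exact ⟨_, c.cpt s hs, c.K1_U1 s, fun _ h _ => h⟩
  exact ((hf.mono h1).integrableOn_compact hK).of_forall_sdiff_eq_zero (c.op1 s).measurableSet
    fun x hx => hz x hx.1 fun k => hx.2 (h2 x (c.gK_K1 s k.1) k.2)

/-- uniform bounds for admissible metrics -/
theorem adm_pack (hE : ELL T g) (hG : GB T g) : ∃ δ Λ T1 : ℝ, 0 < δ ∧ ∀ T0, T1 ≤ T0 → ∀ L,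
    Lng T (2 * T0 + T1) L → Ch T L → (T.glob L).IsMet (rt T L (gbL T g T0 L)) ∧
      ∀ H, Adm T g T0 L δ H → ∀ s, ∀ x ∈ U1 T L s, MJ Λ (scl T s x) (H s) x := by
  obtain ⟨δ, Λ, TE, δ0, Λ1, hE⟩ := hE
  obtain ⟨TG, hG⟩ := hG
  obtain ⟨CG, hG⟩ := hG 0
  refine ⟨min δ 1, Λ + 1, max TE TG, lt_min δ0 one_pos, fun T0 hT0 L hL c => ?_⟩
  have hE := hE T0 (le_of_max_le_left hT0) L (hL.mono (by gcongr; exact le_max_left _ _))
  have hM := ((hG T0 (le_of_max_le_right hT0)).2 L (hL.mono (by gcongr; exact le_max_right _ _))).2.1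
  have hG := riem_of_rt hM
  refine ⟨hM, fun H hH s x hx => ?_⟩
  have p := (hH.met.riem s).posDef x hx
  have el := hE H s x (c.U1_W1 s hx) p fun p q => (hH.near.val hx p q).trans (min_le_left _ _)
  have l : (Λ + 1)⁻¹ ≤ Λ⁻¹ := inv_anti₀ (by linarith) (by linarith)
  refine ⟨⟨by linarith, p, fun p q => ⟨(el.1 p q).1.trans (by linarith), (el.1 p q).2.trans (by linarith)⟩,
    l.trans el.2.1, el.2.2.1.trans (by linarith), fun ξ => le_trans
      (mul_le_mul_of_nonneg_right l (by positivity)) (el.2.2.2.1 ξ)⟩, fun k hk a b => ?_⟩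
  have c1 := ((hH.met.riem s).contDiffOn a b).contDiffAt ((c.op1 s).mem_nhds hx)
  have c2 := ((hG s).contDiffOn a b).contDiffAt ((hG s).isOpen.mem_nhds (c.U1_U s hx))
  have a1 := (hH.near s x hx k hk a b).trans (min_le_right _ _)
  have a2 := el.2.2.2.2 k (by omega) a b
  simp only [Matrix.sub_apply] at a1
  rw [fun_iteratedFDeriv_sub_apply (c1.of_le (by exact_mod_cast le_top))
    (c2.of_le (by exact_mod_cast le_top))] at a1
  have := mul_le_mul_of_nonneg_left (norm_le_insert' (iteratedFDeriv ℝ k (fun y => H s y a b) x)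
    (iteratedFDeriv ℝ k (fun y => gbL T g T0 L s y a b) x))
    (pow_nonneg (zero_le_one.trans (c.cell s x (c.U1_W1 s hx)).1) k)
  linarith

end Crest.Agent.N207.NS.Mu

end
end

-- ▼ part N207/N/Muh2

/-!
# Row 207, block N (helper32): the multipliers in `CMP`
-/

set_option autoImplicit false

open scoped ContDiff Topology
open Metric Set Filter MeasureTheory
open Crest.GeometryTopology.CoordMetric
open Crest.Agent.N207.I Crest.Agent.N207.Lg Crest.Agent.N207.CB Crest.Agent.N207.NS.Cp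

noncomputable section

namespace Crest.Agent.N207.NS

namespace Mu

theorem sqrt_e0_le {Z : MetricField 4} {x : E4} {B : ℝ} (h : ∀ p q, |Z x p q| ≤ B) :
    √(e0 Z x) ≤ 8 * B := by
  have B0 := (abs_nonneg _).trans (h 0 0)
  refine Real.sqrt_le_iff.2 ⟨by positivity, le_trans (Finset.sum_le_card_nsmul _ _ (4 • B ^ 2)
    fun p _ => (Finset.sum_le_card_nsmul _ _ (B ^ 2) fun q _ => sq_le_sq' (abs_le.1 (h p q)).1
      (abs_le.1 (h p q)).2).trans_eq (by simp)) ?_⟩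
  simp; nlinarith [sq_nonneg B]

theorem sqrt_e1_le {Z : MetricField 4} {x : E4} {B r : ℝ} (hr : 0 < r)
    (h : ∀ i p q, r * |pderiv i (fun y => Z y p q) x| ≤ B) : r * √(e1 Z x) ≤ 8 * B := by
  have h' := fun i p q => abs_le.1 ((le_div_iff₀' hr).2 (h i p q))
  have B0 : 0 ≤ B := le_trans (by positivity) (h 0 0 0)
  rw [← le_div_iff₀' hr, mul_div_assoc]
  refine Real.sqrt_le_iff.2 ⟨by positivity, le_trans (Finset.sum_le_card_nsmul _ _
    (4 • 4 • (B / r) ^ 2) fun p _ => (Finset.sum_le_card_nsmul _ _ (4 • (B / r) ^ 2) fun q _ =>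
      (Finset.sum_le_card_nsmul _ _ ((B / r) ^ 2) fun i _ => sq_le_sq' (h' i p q).1
        (h' i p q).2).trans_eq (by simp)).trans_eq (by simp)) ?_⟩
  simp; nlinarith

variable {M : Type*} {T : TD M} {L : T.V → ℝ}

/-- testing the equation with a field living near the core `v` -/
theorem test_bd (c : Ch T L) {b0 b g1 g2 F Z : Fam T} {v : T.V} {d C Cv u : ℝ} (hu : 0 < u)
    (hCv : 0 ≤ Cv) (r0 : Met1 T L b0) (r1 : Met1 T L g1) (r2 : Met1 T L g2)
    (hZ : ∀ s p q, ContDiffOn ℝ ∞ (fun y => Z s y p q) (U1 T L s))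
    (hz : ∀ s, ∀ x ∈ U1 T L s, ¬ InK T L v d s x → Z s x = 0)
    (hv : ∀ s, MeasurableSet {x | InK T L v d s x} ∧
      IntegrableOn (fun _ => (1 : ℝ)) (T.gK L s ∩ {x | InK T L v d s x}) ∧
      ep T L s ^ 2 * (sr T L v s * (volume (T.gK L s ∩ {x | InK T L v d s x})).toReal) ≤
        Cv * T.eps L v ^ 2 ∧
      ∀ x ∈ U1 T L s, InK T L v d s x → 1 ≤ Cv * (sr T L v s * scl T s x ^ 2))
    (hb : ∀ s, ∀ x ∈ U1 T L s, |T.χ s ((T.glob L).c s x) *
        prl (b0 s) (Z s) x (DD (b s) (g1 s) (g2 s) x - F s x) +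
      1 / 2 * GG (fun y => T.χ s ((T.glob L).c s y)) (b0 s) (g1 s) (g1 s - g2 s) (Z s) x| ≤
      C * (√(e1 (g1 s - g2 s) x) / scl T s x + √(e0 (g1 s - g2 s) x) / scl T s x ^ 2 +
        T.χ s ((T.glob L).c s x) * √(e0 (F s) x)))
    (hi : IntL T L fun s x => prl (b0 s) (Z s) x (DD (b s) (g1 s) (g2 s) x - F s x))
    (hE : ∀ s, IntegrableOn (en T (g1 - g2) s) (K1 T L s))
    (hF : IntL T L fun s x => scl T s x ^ 2 * e0 (F s) x) :
    |intL T L fun s x => prl (b0 s) (Z s) x (DD (b s) (g1 s) (g2 s) x - F s x)| ≤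
      u * (intL T L (fun s x => scl T s x ^ 2 * e0 (F s) x) + En T L (g1 - g2)) +
        Fintype.card T.S * (3 * C ^ 2 * Cv * Cv * T.eps L v ^ 2) / u := by
  have key : ∀ s, |∫ x in U1 T L s, T.χ s ((T.glob L).c s x) *
      prl (b0 s) (Z s) x (DD (b s) (g1 s) (g2 s) x - F s x)| ≤
      u * (∫ x in K1 T L s, en T (g1 - g2) s x) +
        u * (∫ x in U1 T L s, T.χ s ((T.glob L).c s x) * (scl T s x ^ 2 * e0 (F s) x)) +
        3 * C ^ 2 * Cv * sr T L v s / u * (volume (T.gK L s ∩ {x | InK T L v d s x})).toReal := by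
    intro s
    have o := c.op1 s
    have χ0 : ∀ x ∈ U1 T L s, x ∉ T.gK L s → T.χ s ((T.glob L).c s x) = 0 := fun x hx k =>
      by_contra fun e => k (c.χ_supp (c.U1_U s hx) e)
    have ev : ∀ x ∈ U1 T L s, x ∉ T.gK L s ∩ {x | InK T L v d s x} →
        (fun y => T.χ s ((T.glob L).c s y)) =ᶠ[𝓝 x] (fun _ => 0) ∨ Z s =ᶠ[𝓝 x] fun _ => 0 :=
      fun x hx k => (not_and_or.1 k).imp (fun k => by
        filter_upwards [o.mem_nhds hx, (c.cl_gK s).isOpen_compl.mem_nhds k] with y a b using χ0 y a b)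
        fun k => by filter_upwards [o.mem_nhds hx, ev_not hx k] with y a b using hz s y a b
    have hk := r1.sm_sub r2 s
    have cc := fun a => (c.χ_sm s).mul (sm_c6 (r0.riem s) (r1.riem s) a)
    have iG := intOn c (GG_cont (r0.riem s) (r1.riem s) (c.χ_sm s) hk (hZ s))
      fun x hx k => GG_zero (ev x hx k)
    have zG := chart_id (k := (g1 - g2) s) (t := Z s) o (c.cl_gK s) (c.gK_U1 s)
      (fun a => (cc a).of_le (by exact_mod_cast le_top))
      (fun a x hx k => by rw [χ0 x hx k, zero_mul])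
      (fun p q => (hk p q).of_le (WithTop.coe_le_coe.2 (le_top (a := (2 : ℕ∞)))))
      (fun p q => (hZ s p q).of_le (by exact_mod_cast le_top))
      (h := fun x => ∑ a, |T.χ s ((T.glob L).c s x) * c6 (b0 s) (g1 s) a x * s6 ((g1 - g2) s) a x *
        t6 (Z s) a x|)
      (intOn c (v := v) (d := d) (continuousOn_finset_sum _ fun a _ => (((cc a).mul
        (sm_pd o (hk _ _) _)).mul (hZ s _ _)).continuousOn.abs) fun x hx k =>
          Finset.sum_eq_zero fun a _ => by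
            rcases ev x hx k with e | e <;> simp [t6, e.self_of_nhds])
      (fun a x _ => (Finset.single_le_sum (f := fun a => |T.χ s ((T.glob L).c s x) *
        c6 (b0 s) (g1 s) a x * s6 ((g1 - g2) s) a x * t6 (Z s) a x|) (fun _ _ => abs_nonneg _)
        (Finset.mem_univ a)).trans (le_mul_of_one_le_left (by positivity) (by simp)))
      iG fun x _ => GG_eq ..
    have e := integral_add (hi s) (iG.const_mul (1 / 2))
    rw [integral_const_mul, zG, mul_zero, add_zero] at e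
    rw [← e, ← integral_const_mul, ← integral_const_mul]
    have s0 := (sr_pos L v s).le
    refine int_bd o.measurableSet (c.cl_K1 s).measurableSet
      ((c.cl_gK s).measurableSet.inter (hv s).1) ((hE s).const_mul u) ((hF s).const_mul u) (hv s).2.1
      (fun x => mul_nonneg hu.le (add_nonneg (e1_nn _ _) (div_nonneg (e0_nn _ _) (sq_nonneg _))))
      (fun x _ => mul_nonneg hu.le (mul_nonneg (c.χ_nonneg s _)
        (mul_nonneg (sq_nonneg _) (e0_nn _ _)))) (by positivity)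
      (inter_subset_left.trans (c.gK_K1 s)) (fun x hx hS => (hb s x hx).trans ?_) fun x hx k => ?_
    · have r : 0 < scl T s x := one_pos.trans_le (c.cell s x (c.U1_W1 s hx)).1
      have a1 := amgm hu C √(e1 (g1 s - g2 s) x) (scl T s x)⁻¹
      have a2 := amgm hu C (√(e0 (g1 s - g2 s) x) / scl T s x) (scl T s x)⁻¹
      have a3 := mul_le_mul_of_nonneg_left (amgm hu C (scl T s x * √(e0 (F s) x)) (scl T s x)⁻¹)
        (c.χ_nonneg s ((T.glob L).c s x))
      have a4 : C ^ 2 * (scl T s x)⁻¹ ^ 2 / u ≤ C ^ 2 * Cv * sr T L v s / u := by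
        rw [mul_assoc]
        gcongr
        rw [inv_pow, inv_le_iff_one_le_mul₀ (by positivity), mul_assoc]
        exact (hv s).2.2.2 x hx hS.2
      have a5 := mul_le_of_le_one_left (show 0 ≤ C ^ 2 * (scl T s x)⁻¹ ^ 2 / u by positivity)
        (c.χ_le_one hx)
      rw [Real.sq_sqrt (e1_nn _ _), ← div_eq_mul_inv] at a1
      rw [div_pow, Real.sq_sqrt (e0_nn _ _), ← div_eq_mul_inv, div_div, ← _root_.sq] at a2
      rw [mul_pow, Real.sq_sqrt (e0_nn _ _), mul_right_comm (scl T s x), mul_inv_cancel₀ r.ne',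
        one_mul] at a3
      simp only [en, Pi.sub_apply]
      rw [show 3 * C ^ 2 * Cv * sr T L v s / u = 3 * (C ^ 2 * Cv * sr T L v s / u) by ring]
      linarith
    · rw [GG_zero (ev x hx k), mul_zero, add_zero]
      rcases ev x hx k with e | e <;> simp [prl_eq, e.self_of_nhds]
  rw [En_eq, intL, intL, ← Finset.sum_add_distrib, Finset.mul_sum, mul_div_assoc, ← nsmul_eq_mul,
    ← Finset.card_univ, ← Finset.sum_const, ← Finset.sum_add_distrib]
  refine (Finset.abs_sum_le_sum_abs _ _).trans (Finset.sum_le_sum fun s _ => ?_)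
  obtain ⟨γ0, γ1⟩ := Cg.card_inv_le (T := T) s
  have s0 := (sr_pos L v s).le
  have a0 : 0 ≤ ∫ x in K1 T L s, en T (g1 - g2) s x :=
    integral_nonneg fun x => add_nonneg (e1_nn _ _) (div_nonneg (e0_nn _ _) (sq_nonneg _))
  have a1 := mul_le_mul_of_nonneg_left (hv s).2.2.1 (show 0 ≤ 3 * C ^ 2 * Cv / u by positivity)
  have a2 := mul_le_mul_of_nonneg_left (mul_le_mul_of_nonneg_left (key s) γ0) (sq_nonneg (ep T L s))
  have a3 := mul_le_of_le_one_left (show 0 ≤ ep T L s ^ 2 * (u * ∫ x in K1 T L s, en T (g1 - g2) s x)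
    by positivity) γ1
  have a4 := mul_le_of_le_one_left (show 0 ≤ 3 * C ^ 2 * Cv / u * (ep T L s ^ 2 * (sr T L v s *
    (volume (T.gK L s ∩ {x | InK T L v d s x})).toReal)) by positivity) γ1
  rw [abs_mul, abs_mul, abs_of_nonneg (sq_nonneg _), abs_of_nonneg γ0]
  refine a2.trans ?_
  rw [show 3 * C ^ 2 * Cv * Cv * T.eps L v ^ 2 / u = 3 * C ^ 2 * Cv / u * (Cv * T.eps L v ^ 2) by ring,
    show 3 * C ^ 2 * Cv * sr T L v s / u = 3 * C ^ 2 * Cv / u * sr T L v s by ring]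
  linarith

theorem prL_eq (b Φ k : Fam T) (v : T.V) :
    prL T L b v Φ k = intL T L fun s x => sr T L v s * prl (b s) (k s) x (Φ s x) := rfl

theorem loc_sum {ι : Type} [Fintype ι] (v : T.V) (a : ι → ℝ) (Y : ι → Fam T) (s : T.S) (x : E4) :
    loc T L v (∑ l, a l • Y l) s x = ∑ l, a l • loc T L v (Y l) s x := by
  rcases s with s | w
  · simp [loc]
  · by_cases e : w = v <;> simp [loc, e]

end Mu

open Mu

variable {M : Type*} {T : TD M} {g : T.V → Fam T}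

/-- **the multipliers are bounded by the energy** -/
theorem muh (h : Std T g) (hC : CHI T) (hV : VOL T) (hD : DIF) (hE : ELL T g) (hG : GB T g) (hO : CO)
    {κ : T.V → Type} [∀ v, Fintype (κ v)] [∀ v, DecidableEq (κ v)] {ψ : ∀ v, κ v → Fam T}
    {c η C0 : ℝ} (hg : Good T g κ ψ c η C0) (ht : Tol T g κ ψ c) :
    ∃ δ C T1 : ℝ, 0 < δ ∧ 0 < C ∧ ∀ T0, T1 ≤ T0 → ∀ L, Lng T (2 * T0 + T1) L →
      ∀ (b g1 g2 F : Fam T) (Ψ : (Σ v, κ v) → Fam T) (μ : (Σ v, κ v) → ℝ),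
        Adm T g T0 L δ b → Adm T g T0 L δ g1 → Adm T g T0 L δ g2 →
        (∀ j, Prt T L j.1 (c + 2) δ (ψ j.1 j.2) (Ψ j)) →
        (∀ s, ∀ x ∈ U1 T L s, ∀ p q, redT (b s) (g1 s) x ![p, q] - redT (b s) (g2 s) x ![p, q] =
          F s x p q + ∑ j, μ j * (sr T L j.1 s * Ψ j s x p q)) →
        IntL T L (fun s x => scl T s x ^ 2 * e0 (F s) x) →
        ∑ j, T.eps L j.1 ^ 2 * μ j ^ 2 ≤
          C * (intL T L (fun s x => scl T s x ^ 2 * e0 (F s) x) + En T L (g1 - g2)) := by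
  obtain ⟨δ, Λ, TE, δ0, hE⟩ := adm_pack hE hG
  obtain ⟨TC, hCh⟩ := hC.ch h.ok
  obtain ⟨X, TX, X0, hX⟩ := hC
  obtain ⟨Cv, TV, Cv0, hV2⟩ := hV (c + 2)
  obtain ⟨Cw, TW, -, hV1⟩ := hV (c + 1)
  obtain ⟨P, TP, P0, ht⟩ := ht
  obtain ⟨K0, K00, hK⟩ := pt_bd hO hD Λ X X0.le
  choose A hA using hg.dual
  set a : ℝ := ∑ j : Σ v, κ v, ∑ l, |A j.1 j.2 l| with ha
  have a0 : 0 ≤ a := by positivity
  have aj : ∀ v j, ∑ l, |A v j l| ≤ a := fun v j => Finset.single_le_sum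
    (f := fun j : Σ v, κ v => ∑ l, |A j.1 j.2 l|) (fun _ _ => by positivity) (Finset.mem_univ ⟨v, j⟩)
  set N : ℝ := Nat.cast (Fintype.card (Σ v, κ v)) with hN
  set K1 : ℝ := (Fintype.card T.S : ℝ) * (3 * (K0 * (8 * (a * P))) ^ 2 * Cv * Cv)
  set K2 : ℝ := (Fintype.card T.S : ℝ) * (256 * |Λ| ^ 3 * Cv * (a * P))
  have N0 : 0 ≤ N := by positivity
  have K10 : 0 ≤ K1 := by positivity
  have K20 : 0 ≤ K2 := by positivity
  set t1 := |TE| + |TC| + |TX| + |TV| + |TW| + |TP|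
  have tt : TE ≤ t1 ∧ TC ≤ t1 ∧ TX ≤ t1 ∧ TV ≤ t1 ∧ TW ≤ t1 ∧ TP ≤ t1 ∧ 0 ≤ t1 := by
    have := le_abs_self TE; have := le_abs_self TC; have := le_abs_self TX; have := le_abs_self TV
    have := le_abs_self TW; have := le_abs_self TP; have := abs_nonneg TE; have := abs_nonneg TC
    have := abs_nonneg TX; have := abs_nonneg TV; have := abs_nonneg TW; have := abs_nonneg TP
    refine ⟨?_, ?_, ?_, ?_, ?_, ?_, ?_⟩ <;> linarith
  obtain ⟨u1, u2, u3, u4, u5, u6, u7⟩ := tt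
  refine ⟨min δ (2 * (N * K2 + 1))⁻¹, N * (16 * N ^ 2 * K1) + 1, t1, lt_min δ0 (by positivity),
    by positivity, fun T0 hT0 L hL b g1 g2 F Ψ μ hb h1 h2 hΨ eq iF => ?_⟩
  set δ' := min δ (2 * (N * K2 + 1))⁻¹
  have δ1 : 0 ≤ δ' := le_min δ0.le (by positivity)
  have δ2 : N * K2 * δ' ≤ 1 / 2 := by
    have : δ' * (2 * (N * K2 + 1)) ≤ 1 := (le_inv_mul_iff₀' (by positivity)).1
      (by rw [mul_one]; exact min_le_right _ _)
    linarith
  have ch : Ch T L := hCh L (hL.mono (by linarith))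
  obtain ⟨hM, hJ⟩ := hE T0 (by linarith) L (hL.mono (by linarith)) ch
  have hX := fun s => ((hX L (hL.mono (by linarith))).2.2.2 s).2.2.2.2.2.2.2.2.2 0
  have hV2 := fun v => (hV2 L (hL.mono (by linarith)) v).1
  have hV1 := fun v => (hV1 L (hL.mono (by linarith)) v).2
  have ht := ht T0 (by linarith) L (hL.mono (by linarith))
  have b0 := gb_adm ch hM δ0.le
  have j0 := hJ _ b0
  have jb := hJ _ (hb.mono (min_le_left _ _))
  have j1 := hJ _ (h1.mono (min_le_left _ _))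
  have j2 := hJ _ (h2.mono (min_le_left _ _))
  have r1 : ∀ s, ∀ x ∈ U1 T L s, 0 < scl T s x := fun s x hx =>
    one_pos.trans_le (ch.cell s x (ch.U1_W1 s hx)).1
  have fa : ∀ {H}, Adm T g T0 L δ' H → Ty.Far (H (Sum.inr T.root)) := fun hH =>
    Ty.far_of (Λ := Λ) (R := 2) (fun x hx =>
      have := (hJ _ (hH.mono (min_le_left _ _)) _ x (Ty.mem_root hx)).1
      ⟨this.bd, this.hi⟩) hH.dec
  have iE := Ty.intK ch (ch.en_cont (h1.met.sm_sub h2.met)) (by norm_num) ((fa h2).en (fa h1) (R := 2)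
    (fun x hx => d_g (h2.met.riem _) (Ty.mem_root hx)) fun x hx => d_g (h1.met.riem _) (Ty.mem_root hx))
  set S := intL T L (fun s x => scl T s x ^ 2 * e0 (F s) x) + En T L (g1 - g2)
  have S0 : 0 ≤ S := add_nonneg (ch.intL_nonneg fun s x _ => mul_nonneg (sq_nonneg _) (e0_nn _ _))
    (Finset.sum_nonneg fun s _ => mul_nonneg (sq_nonneg _) (integral_nonneg fun x =>
      add_nonneg (e1_nn _ _) (div_nonneg (e0_nn _ _) (sq_nonneg _))))
  have ysm := fun v l s p q => (sm_of_rt ((ht v l).1.sm s) p q).mono (ch.U1_U s)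
  have yz : ∀ v l s, ∀ x ∈ U1 T L s, ¬ InK T L v (c + 2) s x → toL T L v (ψ v l) s x = 0 :=
    fun v l s x hx k => (ht v l).2.2.1 s x (ch.U1_U s hx) fun e => k (e.mono (by linarith))
  have one : ∀ v j u, 0 < u → T.eps L v ^ 2 * |μ ⟨v, j⟩| ≤ u * S + K1 * T.eps L v ^ 2 / u +
      K2 * δ' * T.eps L v ^ 2 * ∑ l, |μ ⟨v, l⟩| := fun v j u hu => by
    set Z : Fam T := ∑ l, A v j l • toL T L v (ψ v l) with hZ
    have ze : ∀ s p q, (fun y => Z s y p q) = fun y => ∑ l, A v j l * toL T L v (ψ v l) s y p q :=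
      fun s p q => by funext y; simp [hZ, Matrix.sum_apply]
    have zsm : ∀ s p q, ContDiffOn ℝ ∞ (fun y => Z s y p q) (U1 T L s) := fun s p q => by
      rw [ze]; exact ContDiffOn.sum fun l _ => contDiffOn_const.mul (ysm v l s p q)
    have zc := fun s p q => (zsm s p q).continuousOn
    have zz : ∀ s, ∀ x ∈ U1 T L s, ¬ InK T L v (c + 2) s x → Z s x = 0 := fun s x hx k => by
      simp [hZ, yz v _ s x hx k]
    have sb : ∀ f : κ v → ℝ, (∀ l, |f l| ≤ P) → |∑ l, A v j l * f l| ≤ a * P := fun f hf =>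
      (Finset.abs_sum_le_sum_abs _ _).trans ((Finset.sum_le_sum fun l _ => (abs_mul _ _).trans_le
        (mul_le_mul_of_nonneg_left (hf l) (abs_nonneg _))).trans (by
          rw [← Finset.sum_mul]; exact mul_le_mul_of_nonneg_right (aj v j) P0.le))
    have z0 : ∀ s, ∀ x ∈ U1 T L s, ∀ p q, |Z s x p q| ≤ a * P := fun s x hx p q => by
      rw [congrFun (ze s p q) x]
      exact sb _ fun l => by simpa using (ht v l).2.2.2.1.val (ch.U1_W1 s hx) p q
    have z1 : ∀ s, ∀ x ∈ U1 T L s, ∀ i p q,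
        scl T s x * |pderiv i (fun y => Z s y p q) x| ≤ a * P := fun s x hx i p q => by
      rw [ze, pd_sum i _ fun l _ => (dAt (ysm v l s p q) (ch.op1 s) hx).const_mul _,
        ← abs_of_pos (r1 s x hx), ← abs_mul, Finset.mul_sum]
      simp only [pd_cmul, mul_left_comm (scl T s x)]
      refine sb _ fun l => ?_
      have := (ht v l).2.2.2.1 s x (ch.U1_W1 s hx) 1 le_rfl p q
      simp only [Pi.zero_apply, sub_zero, pow_one, norm_iteratedFDeriv_one] at this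
      rw [abs_mul, abs_of_pos (r1 s x hx)]
      exact (mul_le_mul_of_nonneg_left (abs_pd _ _ _) (r1 s x hx).le).trans this
    have iΨ : ∀ j' : Σ v, κ v, IntL T L fun s x => sr T L j'.1 s *
        prl (gbL T g T0 L s) (Z s) x (Ψ j' s x) := fun j' =>
      ch.prL_int b0.met (hΨ j').cont (hΨ j').supp zc
    have e1 : ∀ s, ∀ x ∈ U1 T L s, prl (gbL T g T0 L s) (Z s) x (Mu.DD (b s) (g1 s) (g2 s) x - F s x) =
        ∑ j', μ j' * (sr T L j'.1 s * prl (gbL T g T0 L s) (Z s) x (Ψ j' s x)) := fun s x hx => by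
      rw [show Mu.DD (b s) (g1 s) (g2 s) x - F s x = ∑ j', μ j' • sr T L j'.1 s • Ψ j' s x by
        ext p q; simp [Mu.DD, eq s x hx p q, Matrix.sum_apply]]
      simp only [map_sum, map_smul, smul_eq_mul]
    have tb := test_bd ch hu Cv0.le b0.met h1.met h2.met zsm zz (fun s => ⟨(hV2 v s).1,
      (hV2 v s).2.1, (hV2 v s).2.2.1, fun x hx k => ((hV2 v s).2.2.2 x hx k).2.1⟩)
      (fun s x hx => hK _ _ _ _ _ (Z s) (F s) _ x _ (8 * (a * P)) (b0.met.riem s) (hb.met.riem s)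
        (h1.met.riem s) (h2.met.riem s) hx (r1 s x hx) (dAt (ch.χ_sm s) (ch.op1 s) hx) (j0 s x hx)
        (jb s x hx) (j1 s x hx) (j2 s x hx) (sqrt_e0_le (z0 s x hx))
        (sqrt_e1_le (r1 s x hx) (z1 s x hx)) (ch.χ_nonneg _ _) (ch.χ_le_one hx) ((hX s).2 x hx).2.1)
      (ch.IntL_congr (IntL.sum _ fun j' _ => (iΨ j').smul (μ j')) e1) iE iF
    rw [ch.intL_congr e1, intL_sum _ fun j' _ => (iΨ j').smul (μ j'), Fintype.sum_sigma,
      Finset.sum_eq_single v (fun v' _ hv => Finset.sum_eq_zero fun l _ => by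
        rw [ch.intL_congr (f' := fun _ _ => 0) fun s x hx => ?_]
        · simp [intL]
        · by_cases k : InK T L v (c + 2) s x
          · rw [(hΨ ⟨v', l⟩).supp s x hx fun k' => hv (((hV2 v s).2.2.2 x hx k).2.2 v' k')]
            simp
          · simp [prl_eq, zz s x hx k]) (by simp)] at tb
    simp only [intL_smul, ← prL_eq] at tb
    have dual : ∀ l, prL T L (gbL T g T0 L) v (toL T L v (ψ v l)) Z =
        T.eps L v ^ 2 * if l = j then 1 else 0 := fun l => by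
      rw [(ht v l).2.2.2.2.2.1 Z zc, ← hA v l j]
      congr 1
      refine Atl.int_congr (h.ok.core_ok v) fun s x hx => ?_
      have : loc T L v Z s x = (∑ l, A v j l • ψ v l) s x := by
        rw [hZ, loc_sum]
        simp [fun l => hV1 v (ψ v l) (hg.psi.supp v l) s x hx]
      simp only [ip]
      congr 1
      funext I
      simp only [matT, this]
    have df : ∀ l, |prL T L (gbL T g T0 L) v (Ψ ⟨v, l⟩) Z -
        prL T L (gbL T g T0 L) v (toL T L v (ψ v l)) Z| ≤ K2 * δ' * T.eps L v ^ 2 := fun l => by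
      have i1 : IntL T L fun s x => sr T L v s * prl (gbL T g T0 L s) (Z s) x (Ψ ⟨v, l⟩ s x) :=
        iΨ ⟨v, l⟩
      have i2 : IntL T L fun s x => sr T L v s *
          prl (gbL T g T0 L s) (Z s) x (toL T L v (ψ v l) s x) :=
        ch.prL_int b0.met (fun s p q => (ysm v l s p q).continuousOn) (yz v l) zc
      rw [prL_eq, prL_eq, ← intL_sub i1 i2]
      simp only [← mul_sub, ← map_sub]
      refine (Cg.prL_bd (Φ := Ψ ⟨v, l⟩ - toL T L v (ψ v l)) (Λ := |Λ|) h.ok ch.long ch.op1 ch.U1_U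
        (fun s x hx => ⟨ch.χ_nonneg _ _, ch.χ_le_one hx⟩) (abs_nonneg _) δ1 (by positivity)
        (fun s => ⟨(hV2 v s).1, (hV2 v s).2.1, (hV2 v s).2.2.1⟩)
        (fun s x hx => ⟨(j0 s x hx).1.hi.trans (le_abs_self _), fun p q =>
          ((j0 s x hx).1.bd p q).2.trans (le_abs_self _)⟩) (hΨ ⟨v, l⟩).near
        (fun s x hx k => by simp [(hΨ ⟨v, l⟩).supp s x hx k, yz v l s x hx k])
        fun s x hx _ => z0 s x hx).trans_eq (by ring)
    have e2 : T.eps L v ^ 2 * μ ⟨v, j⟩ = ∑ l, μ ⟨v, l⟩ * prL T L (gbL T g T0 L) v (Ψ ⟨v, l⟩) Z -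
        ∑ l, μ ⟨v, l⟩ * (prL T L (gbL T g T0 L) v (Ψ ⟨v, l⟩) Z -
          prL T L (gbL T g T0 L) v (toL T L v (ψ v l)) Z) := by
      simp [← Finset.sum_sub_distrib, ← mul_sub, dual, mul_comm]
    rw [show T.eps L v ^ 2 * |μ ⟨v, j⟩| = |T.eps L v ^ 2 * μ ⟨v, j⟩| by
      rw [abs_mul, abs_of_nonneg (sq_nonneg (T.eps L v))], e2]
    refine (abs_sub _ _).trans (add_le_add (tb.trans_eq (by ring)) ?_)
    rw [Finset.mul_sum]
    exact (Finset.abs_sum_le_sum_abs _ _).trans (Finset.sum_le_sum fun l _ => by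
      rw [abs_mul, mul_comm]; exact mul_le_mul_of_nonneg_right (df l) (abs_nonneg _))
  have two : ∀ v, T.eps L v ^ 2 * (∑ l, |μ ⟨v, l⟩|) ^ 2 ≤ 16 * N ^ 2 * K1 * S := fun v => by
    have e0 : 0 < T.eps L v ^ 2 := pow_pos (TD.eps_pos L v) 2
    have m0 : 0 ≤ ∑ l, |μ ⟨v, l⟩| := by positivity
    have n : (Fintype.card (κ v) : ℝ) ≤ N :=
      Nat.cast_le.2 (Fintype.card_le_of_injective (Sigma.mk v) sigma_mk_injective)
    have := sq_le_of_forall (x := T.eps L v ^ 2 * ∑ l, |μ ⟨v, l⟩|) (A := 2 * N * S)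
      (B := 2 * N * (K1 * T.eps L v ^ 2)) (by positivity) (by positivity) fun u hu => by
        have q := Finset.sum_le_card_nsmul Finset.univ _ _ fun j _ => one v j u hu
        rw [← Finset.mul_sum, nsmul_eq_mul, Finset.card_univ] at q
        have q2 := q.trans (mul_le_mul_of_nonneg_right n (by positivity))
        have q3 := mul_le_mul_of_nonneg_right δ2 (mul_nonneg e0.le m0)
        rw [abs_of_nonneg (by positivity), mul_div_assoc (2 * N)]
        linarith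
    refine le_of_mul_le_mul_left ?_ e0
    linarith
  refine (Finset.sum_le_card_nsmul _ _ (16 * N ^ 2 * K1 * S) fun j _ => le_trans ?_ (two j.1)).trans ?_
  · rw [← sq_abs (μ j)]
    gcongr
    exact Finset.single_le_sum (f := fun l => |μ ⟨j.1, l⟩|) (fun _ _ => abs_nonneg _)
      (Finset.mem_univ j.2)
  · rw [nsmul_eq_mul, Finset.card_univ]
    linarith

end Crest.Agent.N207.NS

end
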